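import Vale.Agent.P284.H639.V5
import Vale.Agent.P272.K.INT.Dens

/-!
# P284, theorem V, block V3: the integral on the covering does not see the partition of unity
-/

open scoped Manifold ContDiff Topology Pointwise ComplexConjugate ComplexOrder
open Filter Set Metric MeasureTheory

noncomputable section

namespace Vale.Agent.P284.H913.V

open Vale.Agent.P272.K Vale.Agent.P284.H248 Vale.Agent.P284.H894 Vale.Agent.P284.H894.V

variable {n : ℕ} {Γ : Type} [Group Γ]

/-! ### Change of variables -/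

theorem T_T (C : Coc n Γ) {a b : C.I} {z : Cm n} (hz : z ∈ C.O a b) :
    C.T b a (C.T a b z) = z := by
  have h1 := C.T_mem a b z hz
  have h3 : z ∈ C.O a a := C.trans_mem a b a z hz h1
  rw [← C.trans_T a b a z hz h1, C.T_self a z h3]

theorem T_diff (C : Coc n Γ) {a b : C.I} {z : Cm n} (hz : z ∈ C.O a b) :
    DifferentiableAt ℂ (C.T a b) z :=
  (C.T_holo a b).differentiableAt ((C.O_open a b).mem_nhds hz)

theorem vol_T {C : Coc n Γ} (K : KM C) {a b : C.I} {z : Cm n} (hz : z ∈ C.O a b) :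
    vol (K.w a) z = vol (K.w b) (C.T a b z) * (fderiv ℝ (C.T a b) z).det := by
  have hd : (fderiv ℝ (C.T a b) z).det = ‖(jac C a b z).det‖ ^ 2 :=
    Vale.Agent.P272.K.INT.det_fderiv_real (T_diff C hz)
  have h1 : ((jac C a b z).map (starRingEnd ℂ)).det = (starRingEnd ℂ) (jac C a b z).det :=
    (RingHom.map_det (starRingEnd ℂ) (jac C a b z)).symm
  rw [hd, vol, vol, K.change a b z hz, Matrix.det_mul, Matrix.det_mul, Matrix.det_transpose, h1,
    mul_comm (jac C a b z).det, mul_assoc, Complex.mul_conj, Complex.re_mul_ofReal,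
    Complex.normSq_eq_norm_sq]

theorem transfer {C : Coc n Γ} (K : KM C) {a b : C.I} {A : Set (Cm n)} (hA : IsOpen A)
    (hAO : A ⊆ C.O a b) (f f' : Cm n → ℝ) (h : ∀ z ∈ A, f z = f' (C.T a b z)) :
    ∫ z in A, f z * vol (K.w a) z = ∫ y in C.T a b '' A, f' y * vol (K.w b) y := by
  have hinj : InjOn (C.T a b) A := by
    intro x hx y hy hxy
    have h1 := T_T C (hAO hx)
    rw [hxy, T_T C (hAO hy)] at h1
    exact h1.symm
  have hder : ∀ y ∈ A, HasFDerivWithinAt (C.T a b) (fderiv ℝ (C.T a b) y) A y := fun y hy =>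
    ((T_diff C (hAO hy)).restrictScalars ℝ).hasFDerivAt.hasFDerivWithinAt
  rw [integral_image_eq_integral_abs_det_fderiv_smul volume hA.measurableSet hder hinj]
  refine setIntegral_congr_fun hA.measurableSet fun z hz => ?_
  have h0 : 0 ≤ (fderiv ℝ (C.T a b) z).det := by
    rw [Vale.Agent.P272.K.INT.det_fderiv_real (T_diff C (hAO hz))]
    positivity
  rw [abs_of_nonneg h0, h z hz, vol_T K (hAO hz), smul_eq_mul]
  ring

/-- the part of the ball `S` which is mapped to `S'` -/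
def DD (C : Coc n Γ) (a b : C.I) (S S' : Set (Cm n)) : Set (Cm n) :=
  {z | z ∈ C.O a b ∧ z ∈ S ∧ C.T a b z ∈ S'}

theorem isOpen_DD (C : Coc n Γ) (a b : C.I) {S S' : Set (Cm n)} (hS : IsOpen S)
    (hS' : IsOpen S') : IsOpen (DD C a b S S') := by
  have h1 := (C.T_holo a b).continuousOn.isOpen_inter_preimage (C.O_open a b) hS'
  have h2 : DD C a b S S' = S ∩ (C.O a b ∩ C.T a b ⁻¹' S') := by
    ext z
    exact ⟨fun h => ⟨h.2.1, h.1, h.2.2⟩, fun h => ⟨h.2.1, h.1, h.2.2⟩⟩
  rw [h2]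
  exact hS.inter h1

theorem image_DD (C : Coc n Γ) (a b : C.I) (S S' : Set (Cm n)) :
    C.T a b '' DD C a b S S' = DD C b a S' S := by
  ext y
  constructor
  · rintro ⟨x, hx, rfl⟩
    refine ⟨C.T_mem a b x hx.1, hx.2.2, ?_⟩
    rw [T_T C hx.1]
    exact hx.2.1
  · intro hy
    refine ⟨C.T b a y, ⟨C.T_mem b a y hy.1, hy.2.2, ?_⟩, T_T C hy.1⟩
    rw [T_T C hy.1]
    exact hy.2.1

theorem isOpen_V (C : Coc n Γ) (a : C.I) : IsOpen (C.V a) := isOpen_ball
theorem isOpen_W (C : Coc n Γ) (a : C.I) : IsOpen (C.W a) := isOpen_ball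

theorem V_sub (C : Coc n Γ) (a : C.I) : C.V a ⊆ C.Ω a :=
  ball_subset_ball (by have := C.r_pos a; linarith)

theorem W_sub (C : Coc n Γ) (a : C.I) : C.W a ⊆ C.V a :=
  ball_subset_ball (by have := C.r_pos a; linarith)

theorem intV {C : Coc n Γ} {a : C.I} {h : Cm n → ℝ} (hh : ContinuousOn h (C.Ω a)) :
    IntegrableOn h (C.V a) := by
  have h1 : closedBall (C.c a) (3 * C.r a) ⊆ C.Ω a :=
    closedBall_subset_ball (by have := C.r_pos a; linarith)
  exact ((hh.mono h1).integrableOn_compact (isCompact_closedBall _ _)).mono_set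
    ball_subset_closedBall

theorem vol_cont {C : Coc n Γ} (K : KM C) (a : C.I) : ContinuousOn (vol (K.w a)) (C.Ω a) :=
  fun _ hz => (Vale.Agent.P284.H639.V.smooth_vol (K.ku a) hz).continuousAt.continuousWithinAt

theorem vol_nn {C : Coc n Γ} (K : KM C) {a : C.I} {z : Cm n} (hz : z ∈ C.Ω a) :
    0 ≤ vol (K.w a) z := K.lam_pos.le.trans (K.vol_low a z hz)

theorem chi_cont {C : Coc n Γ} (P : PU C) (b a : C.I) : ContinuousOn (P.χ b a) (C.Ω a) :=
  fun z hz => (P.smooth b a z hz).continuousAt.continuousWithinAt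

/-- A continuous function on the base. -/
structure BD (C : Coc n Γ) (F : C.I → Cm n → ℝ) : Prop where
  cont : ∀ a, ContinuousOn (F a) (C.Ω a)
  compat : ∀ a b z, z ∈ C.O a b → z ∈ C.V a → C.T a b z ∈ C.V b → F a z = F b (C.T a b z)

section base
variable {C : Coc n Γ} (P : PU C) (K : KM C) {F : C.I → Cm n → ℝ}

theorem BD.int_chi (hF : BD C F) (b a : C.I) :
    IntegrableOn (fun z => P.χ b a z * F a z * vol (K.w a) z) (C.V a) :=
  intV (((chi_cont P b a).mul (hF.cont a)).mul (vol_cont K a))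

theorem BD.int_vol (hF : BD C F) (a : C.I) :
    IntegrableOn (fun z => F a z * vol (K.w a) z) (C.V a) :=
  intV ((hF.cont a).mul (vol_cont K a))

/-- `χ_b F` on `V a` is concentrated on the part mapped to `V b` -/
theorem BD.restrict (b a : C.I) :
    ∫ z in C.V a, P.χ b a z * F a z * vol (K.w a) z =
      ∫ z in DD C a b (C.V a) (C.V b), P.χ b a z * F a z * vol (K.w a) z := by
  refine setIntegral_eq_of_subset_of_forall_sdiff_eq_zero (isOpen_V C a).measurableSet
    (fun z hz => hz.2.1) fun z hz => ?_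
  by_cases h : P.χ b a z = 0
  · rw [h, zero_mul, zero_mul]
  · exfalso
    have h1 := P.supp b a z (V_sub C a hz.1) h
    exact hz.2 ⟨h1.1, hz.1, P.K_sub b h1.2⟩

theorem BD.move (hF : BD C F) (d a b : C.I) (S S' : Set (Cm n)) (hS : IsOpen S)
    (hS' : IsOpen S') (hSV : S ⊆ C.V a) (hSV' : S' ⊆ C.V b) :
    ∫ z in DD C a b S S', P.χ d a z * F a z * vol (K.w a) z =
      ∫ z in DD C b a S' S, P.χ d b z * F b z * vol (K.w b) z := by
  rw [← image_DD C a b S S']
  refine transfer K (isOpen_DD C a b hS hS') (fun z hz => hz.1) (fun z => P.χ d a z * F a z)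
    (fun z => P.χ d b z * F b z) fun z hz => ?_
  rw [P.compat d a b z hz.1, hF.compat a b z hz.1 (hSV hz.2.1) (hSV' hz.2.2)]

theorem BD.sum_chi (hF : BD C F) (a : C.I) {S : Set (Cm n)} (hS : IsOpen S) (hSV : S ⊆ C.V a) :
    ∑ b, ∫ z in S, P.χ b a z * F a z * vol (K.w a) z = ∫ z in S, F a z * vol (K.w a) z := by
  rw [← integral_finsetSum _ fun b _ => (hF.int_chi P K b a).mono_set hSV]
  refine setIntegral_congr_fun hS.measurableSet fun z hz => ?_
  rw [← Finset.sum_mul, ← Finset.sum_mul, P.sum_one a z (V_sub C a (hSV hz)), one_mul]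

/-- the total integral on the base -/
def BInt (P : PU C) (K : KM C) (F : C.I → Cm n → ℝ) : ℝ :=
  ∑ a, ∫ z in C.V a, P.χ a a z * F a z * vol (K.w a) z

theorem BD.le (hF : BD C F) (h0 : ∀ a, ∀ z ∈ C.Ω a, 0 ≤ F a z) (a : C.I) :
    ∫ z in C.V a, F a z * vol (K.w a) z ≤ BInt P K F := by
  rw [← hF.sum_chi P K a (isOpen_V C a) Subset.rfl]
  refine Finset.sum_le_sum fun b _ => ?_
  rw [BD.restrict P K b a, hF.move P K b a b _ _ (isOpen_V C a) (isOpen_V C b) Subset.rfl Subset.rfl]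
  refine setIntegral_mono_set (hF.int_chi P K b b) ?_ (Eventually.of_forall fun z hz => hz.2.1)
  filter_upwards [ae_restrict_mem (isOpen_V C b).measurableSet] with z hz
  exact mul_nonneg (mul_nonneg (P.nonneg b b z) (h0 b z (V_sub C b hz))) (vol_nn K (V_sub C b hz))

theorem BD.piece (hF : BD C F) (b : C.I)
    (hs : ∀ a, ∀ z ∈ C.V a, F a z ≠ 0 → z ∈ C.O a b ∧ C.T a b z ∈ C.V b) :
    BInt P K F = ∫ z in C.V b, F b z * vol (K.w b) z := by
  rw [← hF.sum_chi P K b (isOpen_V C b) Subset.rfl]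
  refine Finset.sum_congr rfl fun a _ => ?_
  rw [BD.restrict P K a b, ← hF.move P K a a b _ _ (isOpen_V C a) (isOpen_V C b) Subset.rfl
    Subset.rfl]
  refine setIntegral_eq_of_subset_of_forall_sdiff_eq_zero (isOpen_V C a).measurableSet
    (fun z hz => hz.2.1) fun z hz => ?_
  by_cases h : F a z = 0
  · rw [h, mul_zero, zero_mul]
  · exfalso
    have h1 := hs a z hz.1 h
    exact hz.2 ⟨h1.1, hz.1, h1.2⟩

theorem int_le_cover {ι : Type*} [Fintype ι] {S : Set (Cm n)} (hS : MeasurableSet S)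
    (A : ι → Set (Cm n)) (hA : ∀ i, MeasurableSet (A i)) (hAS : ∀ i, A i ⊆ S)
    (hcov : ∀ z ∈ S, ∃ i, z ∈ A i) (f : Cm n → ℝ) (hf : IntegrableOn f S)
    (h0 : ∀ z ∈ S, 0 ≤ f z) : ∫ z in S, f z ≤ ∑ i, ∫ z in A i, f z := by
  have h1 : ∀ i, ∫ z in A i, f z = ∫ z in S, (A i).indicator f z := fun i => by
    rw [setIntegral_indicator (hA i), inter_eq_self_of_subset_right (hAS i)]
  have h2 : ∀ i, IntegrableOn ((A i).indicator f) S := fun i => hf.indicator (hA i)
  simp only [h1]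
  rw [← integral_finsetSum _ fun i _ => h2 i]
  refine setIntegral_mono_on hf (integrable_finsetSum _ fun i _ => h2 i) hS fun z hz => ?_
  obtain ⟨i, hi⟩ := hcov z hz
  have h3 : f z = (A i).indicator f z := (indicator_of_mem hi f).symm
  have h4 : ∀ j ∈ Finset.univ, 0 ≤ (A j).indicator f z := fun j _ =>
    indicator_apply_nonneg fun _ => h0 z hz
  calc f z = (A i).indicator f z := h3
    _ ≤ ∑ j, (A j).indicator f z :=
        Finset.single_le_sum (f := fun j => (A j).indicator f z) h4 (Finset.mem_univ i)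

theorem BD.ge (hF : BD C F) (h0 : ∀ a, ∀ z ∈ C.Ω a, 0 ≤ F a z) :
    BInt P K F ≤ ∑ a, ∫ z in C.W a, F a z * vol (K.w a) z := by
  have nn : ∀ d a, ∀ z ∈ C.V a, 0 ≤ P.χ d a z * F a z * vol (K.w a) z := fun d a z hz =>
    mul_nonneg (mul_nonneg (P.nonneg d a z) (h0 a z (V_sub C a hz))) (vol_nn K (V_sub C a hz))
  have h1 : ∀ b, ∫ z in C.V b, P.χ b b z * F b z * vol (K.w b) z ≤
      ∑ a, ∫ z in C.W a, P.χ b a z * F a z * vol (K.w a) z := by
    intro b
    refine (int_le_cover (isOpen_V C b).measurableSet (fun a => DD C b a (C.V b) (C.W a))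
      (fun a => (isOpen_DD C b a (isOpen_V C b) (isOpen_W C a)).measurableSet)
      (fun a z hz => hz.2.1) (fun z hz => ?_) _ (hF.int_chi P K b b) (nn b b)).trans ?_
    · obtain ⟨a, ha1, ha2⟩ := C.cover b z (V_sub C b hz)
      exact ⟨a, ha1, hz, ha2⟩
    · refine Finset.sum_le_sum fun a _ => ?_
      rw [hF.move P K b b a _ _ (isOpen_V C b) (isOpen_W C a) Subset.rfl (W_sub C a)]
      refine setIntegral_mono_set ((hF.int_chi P K b a).mono_set (W_sub C a)) ?_
        (Eventually.of_forall fun z hz => hz.2.1)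
      filter_upwards [ae_restrict_mem (isOpen_W C a).measurableSet] with z hz
      exact nn b a z (W_sub C a hz)
  refine (Finset.sum_le_sum fun b _ => h1 b).trans ?_
  rw [Finset.sum_comm]
  refine le_of_eq (Finset.sum_congr rfl fun a _ => ?_)
  exact hF.sum_chi P K a (isOpen_W C a) (W_sub C a)

end base

/-! ### Families -/

section fam
variable {C : Coc n Γ} {G H : Γ → C.I → Cm n → ℝ}

/-- the finite set of the pieces where `G` is not zero -/
def fs (hG : Fam C G) : Finset Γ := hG.fin.toFinset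

theorem fs_out (hG : Fam C G) {γ : Γ} (hγ : γ ∉ fs hG) {a : C.I} {z : Cm n} (hz : z ∈ C.V a) :
    G γ a z = 0 := by
  by_contra hcon
  exact hγ (hG.fin.mem_toFinset.2 ⟨a, z, hz, hcon⟩)

/-- the function on the base -/
def bF (hG : Fam C G) (a : C.I) (z : Cm n) : ℝ := ∑ γ ∈ fs hG, G γ a z

theorem bF_eq (hG : Fam C G) {a : C.I} {z : Cm n} (hz : z ∈ C.V a) :
    bF hG a z = ∑' γ, G γ a z :=
  (tsum_eq_sum fun _ hγ => fs_out hG hγ hz).symm

theorem bF_BD (hG : Fam C G) : BD C (bF hG) where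
  cont a := continuousOn_finsetSum _ fun γ _ => hG.cont γ a
  compat a b z hz hza hzb := by
    rw [bF_eq hG hza, bF_eq hG hzb]
    have h1 : ∀ γ, G γ a z = G (γ * C.κ a b z) b (C.T a b z) := fun γ => hG.compat γ a b z hz
    simp only [h1]
    exact (Equiv.mulRight (C.κ a b z)).tsum_eq fun γ => G γ b (C.T a b z)

theorem bF_nonneg (hG : Fam C G) (h : ∀ γ a, ∀ z ∈ C.Ω a, 0 ≤ G γ a z) :
    ∀ a, ∀ z ∈ C.Ω a, 0 ≤ bF hG a z := fun a z hz => Finset.sum_nonneg fun γ _ => h γ a z hz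

theorem sum_out (hG : Fam C G) (K : KM C) {a : C.I} {S : Set (Cm n)} (hS : IsOpen S)
    (hSV : S ⊆ C.V a) (m : Cm n → ℝ) {γ : Γ} (hγ : γ ∉ fs hG) :
    ∫ z in S, m z * G γ a z * vol (K.w a) z = 0 := by
  rw [← setIntegral_congr_fun hS.measurableSet (f := fun _ => (0 : ℝ)), integral_zero]
  intro z hz
  show 0 = m z * G γ a z * vol (K.w a) z
  rw [fs_out hG hγ (hSV hz), mul_zero, zero_mul]

theorem tsum_int (hG : Fam C G) (K : KM C) {a : C.I} {S : Set (Cm n)} (hS : IsOpen S)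
    (hSV : S ⊆ C.V a) {m : Cm n → ℝ} (hm : ContinuousOn m (C.Ω a)) :
    ∑ γ ∈ fs hG, ∫ z in S, m z * G γ a z * vol (K.w a) z =
      ∫ z in S, m z * bF hG a z * vol (K.w a) z := by
  have h1 : ∀ γ ∈ fs hG, IntegrableOn (fun z => m z * G γ a z * vol (K.w a) z) S := fun γ _ =>
    (intV ((hm.mul (hG.cont γ a)).mul (vol_cont K a))).mono_set hSV
  rw [← integral_finsetSum _ h1]
  refine setIntegral_congr_fun hS.measurableSet fun z hz => ?_
  show ∑ γ ∈ fs hG, m z * G γ a z * vol (K.w a) z = m z * bF hG a z * vol (K.w a) z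
  rw [bF, Finset.mul_sum, Finset.sum_mul]

theorem Int_eq (hG : Fam C G) (P : PU C) (K : KM C) : Int P K G = BInt P K (bF hG) := by
  rw [Vale.Agent.P284.H894.V.Int, tsum_eq_sum (s := fs hG) fun γ hγ => Finset.sum_eq_zero fun a _ =>
    sum_out hG K (isOpen_V C a) Subset.rfl _ hγ, Finset.sum_comm]
  exact Finset.sum_congr rfl fun a _ =>
    tsum_int hG K (isOpen_V C a) Subset.rfl (chi_cont P a a)

theorem tsum_one (hG : Fam C G) (K : KM C) {a : C.I} {S : Set (Cm n)} (hS : IsOpen S)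
    (hSV : S ⊆ C.V a) : ∑' γ, ∫ z in S, G γ a z * vol (K.w a) z =
      ∫ z in S, bF hG a z * vol (K.w a) z := by
  have h1 := tsum_int hG K hS hSV (m := fun _ => 1) continuousOn_const
  have h2 : ∀ γ ∉ fs hG, ∫ z in S, G γ a z * vol (K.w a) z = 0 := fun γ hγ => by
    have := sum_out hG K hS hSV (fun _ => 1) hγ
    simpa only [one_mul] using this
  rw [tsum_eq_sum h2]
  simpa only [one_mul] using h1

end fam

/-- **V3** -/
theorem v3Stmt : V3Stmt where
  lin := by
    intro n Γ _ C P K G H r s hG hH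
    classical
    have key : ∀ γ a, ∫ z in C.V a, P.χ a a z * (r * G γ a z + s * H γ a z) * vol (K.w a) z =
        r * (∫ z in C.V a, P.χ a a z * G γ a z * vol (K.w a) z) +
        s * ∫ z in C.V a, P.χ a a z * H γ a z * vol (K.w a) z := by
      intro γ a
      rw [← integral_const_mul, ← integral_const_mul, ← integral_add]
      · refine integral_congr_ae (Eventually.of_forall fun z => ?_)
        simp only
        ring
      · exact (intV (((chi_cont P a a).mul (hG.cont γ a)).mul (vol_cont K a))).const_mul r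
      · exact (intV (((chi_cont P a a).mul (hH.cont γ a)).mul (vol_cont K a))).const_mul s
    have h0G : ∀ γ ∉ fs hG ∪ fs hH, ∑ a, ∫ z in C.V a, P.χ a a z * G γ a z * vol (K.w a) z = 0 :=
      fun γ hγ => Finset.sum_eq_zero fun a _ => sum_out hG K (isOpen_V C a) Subset.rfl _
        fun h => hγ (Finset.mem_union_left _ h)
    have h0H : ∀ γ ∉ fs hG ∪ fs hH, ∑ a, ∫ z in C.V a, P.χ a a z * H γ a z * vol (K.w a) z = 0 :=
      fun γ hγ => Finset.sum_eq_zero fun a _ => sum_out hH K (isOpen_V C a) Subset.rfl _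
        fun h => hγ (Finset.mem_union_right _ h)
    simp only [Vale.Agent.P284.H894.V.Int, key, Finset.sum_add_distrib, ← Finset.mul_sum]
    rw [tsum_eq_sum h0G, tsum_eq_sum h0H, Finset.mul_sum, Finset.mul_sum,
      ← Finset.sum_add_distrib]
    refine tsum_eq_sum fun γ hγ => ?_
    rw [h0G γ hγ, h0H γ hγ, mul_zero, mul_zero, add_zero]
  mono := by
    intro n Γ _ C P K G H hG hH h
    classical
    have h0G : ∀ γ ∉ fs hG ∪ fs hH, ∑ a, ∫ z in C.V a, P.χ a a z * G γ a z * vol (K.w a) z = 0 :=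
      fun γ hγ => Finset.sum_eq_zero fun a _ => sum_out hG K (isOpen_V C a) Subset.rfl _
        fun h => hγ (Finset.mem_union_left _ h)
    have h0H : ∀ γ ∉ fs hG ∪ fs hH, ∑ a, ∫ z in C.V a, P.χ a a z * H γ a z * vol (K.w a) z = 0 :=
      fun γ hγ => Finset.sum_eq_zero fun a _ => sum_out hH K (isOpen_V C a) Subset.rfl _
        fun h => hγ (Finset.mem_union_right _ h)
    rw [Vale.Agent.P284.H894.V.Int, Vale.Agent.P284.H894.V.Int, tsum_eq_sum h0G, tsum_eq_sum h0H]
    refine Finset.sum_le_sum fun γ _ => Finset.sum_le_sum fun a _ => ?_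
    refine setIntegral_mono_on (intV (((chi_cont P a a).mul (hG.cont γ a)).mul (vol_cont K a)))
      (intV (((chi_cont P a a).mul (hH.cont γ a)).mul (vol_cont K a)))
      (isOpen_V C a).measurableSet fun z hz => ?_
    exact mul_le_mul_of_nonneg_right (mul_le_mul_of_nonneg_left (h γ a z hz) (P.nonneg a a z))
      (vol_nn K (V_sub C a hz))
  piece := by
    intro n Γ _ C P K G b Q hG _ hQV hs
    rw [Int_eq hG P K, tsum_one hG K (isOpen_V C b) Subset.rfl]
    refine BD.piece P K (bF_BD hG) b fun a z hz hne => ?_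
    obtain ⟨γ, -, hγ⟩ := Finset.exists_ne_zero_of_sum_ne_zero hne
    have h1 := hs γ a z (V_sub C a hz) hγ
    exact ⟨h1.1, hQV h1.2⟩
  le := by
    intro n Γ _ C P K G hG h0 a
    rw [Int_eq hG P K, tsum_one hG K (isOpen_V C a) Subset.rfl]
    exact (bF_BD hG).le P K (bF_nonneg hG h0) a
  ge := by
    intro n Γ _ C P K G hG h0
    have h1 := (bF_BD hG).ge P K (bF_nonneg hG h0)
    rw [Int_eq hG P K]
    have h2 : ∑' γ, ∑ a, ∫ z in C.W a, G γ a z * vol (K.w a) z =
        ∑ a, ∫ z in C.W a, bF hG a z * vol (K.w a) z := by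
      have h3 : ∀ a, ∀ γ ∉ fs hG, ∫ z in C.W a, G γ a z * vol (K.w a) z = 0 := fun a γ hγ => by
        have := sum_out hG K (isOpen_W C a) (W_sub C a) (fun _ => 1) hγ
        simpa only [one_mul] using this
      rw [tsum_eq_sum (s := fs hG) fun γ hγ => Finset.sum_eq_zero fun a _ => h3 a γ hγ,
        Finset.sum_comm]
      refine Finset.sum_congr rfl fun a _ => ?_
      rw [← tsum_one hG K (isOpen_W C a) (W_sub C a), tsum_eq_sum (h3 a)]
    rw [h2]
    have h4 : 0 ≤ ∑ a, ∫ z in C.W a, bF hG a z * vol (K.w a) z :=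
      Finset.sum_nonneg fun a _ => setIntegral_nonneg (isOpen_W C a).measurableSet fun z hz =>
        mul_nonneg (bF_nonneg hG h0 a z (V_sub C a (W_sub C a hz)))
          (vol_nn K (V_sub C a (W_sub C a hz)))
    have h5 : (1 : ℝ) ≤ Fintype.card C.I := by exact_mod_cast Fintype.card_pos
    exact h1.trans (le_mul_of_one_le_left h4 h5)

end Vale.Agent.P284.H913.V
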