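import Vale.Agent.P284.H409.K.Spec
import Vale.Agent.P284.H730.VP
import Vale.Agent.P284.H913.V3
import Vale.Agent.P272.K.INT.Local

/-!
# P284, theorem K, block K3: the total mass

`∫ det (w + ∂∂̄φ) = ∫ det w` on the pieces of a finite covering.
-/

open scoped Manifold ContDiff Topology Pointwise ComplexConjugate ComplexOrder
open Filter Set Metric MeasureTheory

noncomputable section

namespace Vale.Agent.P284.H913.K

open Vale.Agent.P272.K Vale.Agent.P272.K.C2 Vale.Agent.P284.H248 Vale.Agent.P284.H894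
  Vale.Agent.P284.H894.V Vale.Agent.P284.H913.V

section
variable {n : ℕ} {Γ : Type} [Group Γ] {C : Coc n Γ} {φ θ : Γ → C.I → Cm n → ℝ}

/-- the density of `(w + ∂∂̄φ)ⁿ` with respect to `wⁿ` -/
def Dn (K : KM C) (φ : Γ → C.I → Cm n → ℝ) (γ : Γ) (a : C.I) (z : Cm n) : ℝ :=
  (K.w a z + cHess (φ γ a) z).det.re / vol (K.w a) z

theorem vol_pos (K : KM C) {a : C.I} {z : Cm n} (hz : z ∈ C.Ω a) : 0 < vol (K.w a) z :=
  K.lam_pos.trans_le (K.vol_low a z hz)

theorem Dn_congr (K : KM C) {γ : Γ} {a : C.I} {z : Cm n}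
    (h : φ γ a =ᶠ[𝓝 z] θ γ a) : Dn K φ γ a z = Dn K θ γ a z := by
  rw [Dn, Dn, C2.cHess_congr h]

theorem det_pull (A J : Matrix (Fin n) (Fin n) ℂ) :
    (J.transpose * A * J.map (starRingEnd ℂ)).det.re = A.det.re * ‖J.det‖ ^ 2 := by
  have h1 : (J.map (starRingEnd ℂ)).det = (starRingEnd ℂ) J.det :=
    (RingHom.map_det (starRingEnd ℂ) J).symm
  rw [Matrix.det_mul, Matrix.det_mul, Matrix.det_transpose, h1,
    mul_comm J.det, mul_assoc, Complex.mul_conj, Complex.re_mul_ofReal,
    Complex.normSq_eq_norm_sq]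

theorem cHess_T (hφ : ∀ γ a, ∀ z ∈ C.Ω a, ContDiffAt ℝ ∞ (φ γ a) z)
    (hc : ∀ γ a b, ∀ z ∈ C.O a b, φ γ a z = φ (γ * C.κ a b z) b (C.T a b z))
    (γ : Γ) {a b : C.I} {z : Cm n} (hz : z ∈ C.O a b) :
    cHess (φ γ a) z = (jac C a b z).transpose * cHess (φ (γ * C.κ a b z) b) (C.T a b z) *
      (jac C a b z).map (starRingEnd ℂ) := by
  refine Vale.Agent.P284.H730.V.cHess_comp (T := C.T a b) ?_ (hφ _ b _
    (Vale.Agent.P284.H639.V.T_mem_Ω C hz)) ?_
  · filter_upwards [(C.O_open a b).mem_nhds hz] with y hy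
    exact T_diff C hy
  · filter_upwards [(C.O_open a b).mem_nhds hz, C.κ_loc a b z hz] with y hy hk
    rw [hc γ a b y hy, hk]

theorem Dn_compat (K : KM C) (hφ : ∀ γ a, ∀ z ∈ C.Ω a, ContDiffAt ℝ ∞ (φ γ a) z)
    (hc : ∀ γ a b, ∀ z ∈ C.O a b, φ γ a z = φ (γ * C.κ a b z) b (C.T a b z))
    (γ : Γ) (a b : C.I) (z : Cm n) (hz : z ∈ C.O a b) :
    Dn K φ γ a z = Dn K φ (γ * C.κ a b z) b (C.T a b z) := by
  have h1 : K.w a z + cHess (φ γ a) z = (jac C a b z).transpose * (K.w b (C.T a b z) +
      cHess (φ (γ * C.κ a b z) b) (C.T a b z)) * (jac C a b z).map (starRingEnd ℂ) := by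
    rw [cHess_T hφ hc γ hz, K.change a b z hz, Matrix.mul_add, Matrix.add_mul]
  have h2 : vol (K.w a) z = vol (K.w b) (C.T a b z) * ‖(jac C a b z).det‖ ^ 2 := by
    rw [vol, K.change a b z hz, det_pull, vol]
  have h3 := vol_pos K (Vale.Agent.P284.H639.V.O_sub_Ω C hz)
  have h4 : ‖(jac C a b z).det‖ ^ 2 ≠ 0 := by
    intro h0
    rw [h2, h0, mul_zero] at h3
    exact lt_irrefl _ h3
  rw [Dn, Dn, h1, det_pull, h2, mul_div_mul_right _ _ h4]

theorem Dn_smooth (K : KM C) (hφ : ∀ γ a, ∀ z ∈ C.Ω a, ContDiffAt ℝ ∞ (φ γ a) z)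
    (γ : Γ) {a : C.I} {z : Cm n} (hz : z ∈ C.Ω a) : ContDiffAt ℝ ∞ (Dn K φ γ a) z := by
  have h1 : MC ∞ (fun y => K.w a y + cHess (φ γ a) y) z := fun i j =>
    ((K.ku a).smooth z hz i j).add (Vale.Agent.P284.H639.V.mc_cHess (hφ γ a z hz) i j)
  exact (Vale.Agent.P284.H639.V.re_smooth h1.det).div
    (Vale.Agent.P284.H639.V.smooth_vol (K.ku a) hz) (vol_pos K hz).ne'

theorem fam_Dn [Finite Γ] (K : KM C) (hφ : ∀ γ a, ∀ z ∈ C.Ω a, ContDiffAt ℝ ∞ (φ γ a) z)
    (hc : ∀ γ a b, ∀ z ∈ C.O a b, φ γ a z = φ (γ * C.κ a b z) b (C.T a b z)) :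
    Fam C (Dn K φ) where
  cont γ _ _ hz := (Dn_smooth K hφ γ hz).continuousAt.continuousWithinAt
  compat := Dn_compat K hφ hc
  fin := Set.toFinite _

theorem isTst_add (hφ : IsTst C φ) (hθ : IsTst C θ) [Finite Γ] :
    IsTst C (fun γ a z => φ γ a z + θ γ a z) where
  smooth γ a z hz := (hφ.smooth γ a z hz).add (hθ.smooth γ a z hz)
  compat γ a b z hz := by rw [hφ.compat γ a b z hz, hθ.compat γ a b z hz]
  fin := Set.toFinite _
  out γ a z hz := by rw [hφ.out γ a z hz, hθ.out γ a z hz, add_zero]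

theorem isTst_zero : IsTst C (fun _ _ _ => (0 : ℝ)) where
  smooth _ _ _ _ := contDiffAt_const
  compat _ _ _ _ _ := rfl
  fin := by simp
  out _ _ _ _ := rfl

theorem step [Finite Γ] (P : PU C) (K : KM C) (hθ : IsTst C θ) (hφ : IsTst C φ) (b : C.I) :
    Int P K (Dn K (fun γ a z => Vale.Agent.P284.H639.V.cut P b φ γ a z + θ γ a z)) =
      Int P K (Dn K θ) := by
  have hc := Vale.Agent.P284.H639.V.isTst_cut P b hφ
  have hs := isTst_add hc hθ
  have F1 := fam_Dn K hs.smooth hs.compat
  have F2 := fam_Dn K hθ.smooth hθ.compat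
  have h4 := v3Stmt.lin C P K _ _ 1 (-1) F1 F2
  have h5 : Int P K (fun γ a z =>
      1 * Dn K (fun γ a z => Vale.Agent.P284.H639.V.cut P b φ γ a z + θ γ a z) γ a z +
      -1 * Dn K θ γ a z) = 0 := by
    rw [v3Stmt.piece C P K _ b (P.K b) (Vale.Agent.P284.H639.V.fam_lin F1 F2 1 (-1))
      (P.compactK b) (P.K_sub b) ?_]
    · have key : ∀ γ, ∫ z in C.V b, (1 * Dn K (fun γ a z =>
          Vale.Agent.P284.H639.V.cut P b φ γ a z + θ γ a z) γ b z +
          -1 * Dn K θ γ b z) * vol (K.w b) z = 0 := by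
        intro γ
        have hT := Vale.Agent.P284.H639.V.TU_cut P b hφ γ
        have hst := Vale.Agent.P272.K.INT.local_stokes
          (b := fun z => K.w b z + cHess (θ γ b) z) (U := C.V b)
          (u := Vale.Agent.P284.H639.V.cut P b φ γ b) isOpen_ball
          (fun z hz i j => ((K.ku b).smooth z (V_sub C b hz) i j).add
            (Vale.Agent.P284.H639.V.mc_cHess (hθ.smooth γ b z (V_sub C b hz)) i j))
          (fun z hz i k l => by
            have hz' := V_sub C b hz
            have f1 := ((K.ku b).smooth z hz' k l).differentiableAt (by simp)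
            have f2 := ((K.ku b).smooth z hz' i l).differentiableAt (by simp)
            have g1 := (Vale.Agent.P272.K.INT.smooth_cHess
              (hθ.smooth γ b z hz') k l).differentiableAt (by simp)
            have g2 := (Vale.Agent.P272.K.INT.smooth_cHess
              (hθ.smooth γ b z hz') i l).differentiableAt (by simp)
            change dz i (fun y => K.w b y k l + cHess (θ γ b) y k l) z =
              dz k (fun y => K.w b y i l + cHess (θ γ b) y i l) z
            rw [Vale.Agent.P272.K.INT.dz_add f1 g1, Vale.Agent.P272.K.INT.dz_add f2 g2,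
              (K.ku b).closed z hz' k l i,
              Vale.Agent.P272.K.INT.cHess_closed (hθ.smooth γ b z hz') i k l])
          hT.smooth hT.compact hT.supp
        rw [← hst]
        refine setIntegral_congr_fun measurableSet_ball fun z hz => ?_
        have hz' := V_sub C b hz
        have hv := (vol_pos K hz').ne'
        have e1 : cHess (fun z => Vale.Agent.P284.H639.V.cut P b φ γ b z + θ γ b z) z =
            cHess (Vale.Agent.P284.H639.V.cut P b φ γ b) z + cHess (θ γ b) z :=
          C2.cHess_add ((hc.smooth γ b z hz').of_le Vale.Agent.P284.H639.V.two_le)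
            ((hθ.smooth γ b z hz').of_le Vale.Agent.P284.H639.V.two_le)
        have e2 : K.w b z + (cHess (Vale.Agent.P284.H639.V.cut P b φ γ b) z + cHess (θ γ b) z) =
            K.w b z + cHess (θ γ b) z + cHess (Vale.Agent.P284.H639.V.cut P b φ γ b) z := by
          abel
        show (1 * ((K.w b z + cHess (fun z => Vale.Agent.P284.H639.V.cut P b φ γ b z +
          θ γ b z) z).det.re / vol (K.w b) z) + -1 * ((K.w b z + cHess (θ γ b) z).det.re /
          vol (K.w b) z)) * vol (K.w b) z = _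
        rw [e1, e2]
        field_simp
        ring
      simp only [key, tsum_zero]
    · intro γ a z hz hne
      by_contra hn
      apply hne
      have e := Vale.Agent.P284.H639.V.cut_ev P b φ γ hz hn
      have e1 : Dn K (fun γ a z => Vale.Agent.P284.H639.V.cut P b φ γ a z + θ γ a z) γ a z =
          Dn K θ γ a z := by
        refine Dn_congr K ?_
        filter_upwards [e] with y hy
        rw [hy, zero_add]
      rw [e1]
      ring
  rw [h5] at h4
  linarith

theorem mass_tst [Finite Γ] (P : PU C) (K : KM C) (hφ : IsTst C φ) :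
    Int P K (Dn K φ) = Int P K (fun _ _ _ => 1) := by
  classical
  have key : ∀ s : Finset C.I,
      IsTst C (fun γ a z => ∑ b ∈ s, Vale.Agent.P284.H639.V.cut P b φ γ a z) ∧
      Int P K (Dn K (fun γ a z => ∑ b ∈ s, Vale.Agent.P284.H639.V.cut P b φ γ a z)) =
        Int P K (fun _ _ _ => 1) := by
    intro s
    induction s using Finset.induction_on with
    | empty =>
      refine ⟨by simpa only [Finset.sum_empty] using isTst_zero, ?_⟩
      refine Vale.Agent.P284.H639.V.Int_congr P K fun γ a z hz => ?_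
      simp only [Finset.sum_empty, Dn]
      rw [show cHess (fun _ : Cm n => (0 : ℝ)) z = 0 from C2.cHess_const (z := z) (0 : ℝ),
        add_zero]
      exact div_self (vol_pos K (V_sub C a hz)).ne'
    | insert b s hb ih =>
      simp only [Finset.sum_insert hb]
      exact ⟨isTst_add (Vale.Agent.P284.H639.V.isTst_cut P b hφ) ih.1,
        (step P K ih.1 hφ b).trans ih.2⟩
  rw [← (key Finset.univ).2]
  refine Vale.Agent.P284.H639.V.Int_congr P K fun γ a z hz => ?_
  exact Dn_congr K (Vale.Agent.P284.H639.V.cut_sum P φ γ (V_sub C a hz))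

end

/-- **K3** -/
theorem k3Stmt : Vale.Agent.P284.H409.K.K3Stmt := by
  intro n Γ _ _ C P K φ hφ
  have h1 : IsTst C (fun γ a => (C.Ω a).indicator (φ γ a)) :=
    { smooth := fun γ a z hz => (hφ.smooth γ a z hz).congr_of_eventuallyEq (by
        filter_upwards [(Vale.Agent.P284.H639.V.isOpen_Ω C a).mem_nhds hz] with y hy
        exact indicator_of_mem hy _)
      compat := fun γ a b z hz => by
        simp only [indicator_of_mem (Vale.Agent.P284.H639.V.O_sub_Ω C hz),
          indicator_of_mem (Vale.Agent.P284.H639.V.T_mem_Ω C hz)]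
        exact hφ.compat γ a b z hz
      fin := Set.toFinite _
      out := fun γ a z hz => indicator_of_notMem hz _ }
  rw [← mass_tst P K h1]
  refine Vale.Agent.P284.H639.V.Int_congr P K fun γ a z hz => ?_
  refine Dn_congr K (φ := φ) ?_
  filter_upwards [(Vale.Agent.P284.H639.V.isOpen_Ω C a).mem_nhds (V_sub C a hz)] with y hy
  exact (indicator_of_mem hy _).symm

end Vale.Agent.P284.H913.K
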