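import Mathlib.Analysis.Complex.Basic
import Mathlib.Analysis.Normed.Group.Basic
import Mathlib.Algebra.MvPolynomial.PDeriv
import Mathlib.Algebra.MvPolynomial.Funext
import Mathlib.LinearAlgebra.Matrix.ToLinearEquiv
import Mathlib.RingTheory.AlgebraicIndependent.TranscendenceBasis
import Mathlib.RingTheory.Algebraic.Basic

/-!
# P284, block C1: dominant polynomial maps of `ℂⁿ`

A polynomial map `R : ℂⁿ → ℂⁿ` whose Jacobian determinant is not identically zero is, away from
one hypersurface `a = 0` of the target, proper with finite fibres and without critical points, with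
polynomial bounds.
-/

open MvPolynomial

noncomputable section

namespace Vale.Agent.P284.H913.C1

variable {n : ℕ}

/-! ### Algebraic independence -/

theorem pderiv_aeval (R : Fin n → MvPolynomial (Fin n) ℂ) (Q : MvPolynomial (Fin n) ℂ)
    (j : Fin n) :
    pderiv j (aeval R Q) = ∑ i, aeval R (pderiv i Q) * pderiv j (R i) := by
  induction Q using MvPolynomial.induction_on with
  | C a => simp
  | add p q hp hq => simp only [map_add, hp, hq, add_mul, Finset.sum_add_distrib]
  | mul_X p k hp =>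
    have h1 : ∀ i, aeval R (pderiv i (p * X k)) * pderiv j (R i)
        = R k * (aeval R (pderiv i p) * pderiv j (R i))
          + (if i = k then aeval R p * pderiv j (R k) else 0) := by
      intro i
      rw [pderiv_mul, pderiv_X, map_add, map_mul, map_mul, aeval_X]
      by_cases h : i = k
      · subst h; rw [if_pos rfl, Pi.single_eq_same, map_one]; ring
      · rw [if_neg h, Pi.single_eq_of_ne (Ne.symm h), map_zero]; ring
    rw [Finset.sum_congr rfl fun i _ => h1 i, Finset.sum_add_distrib, ← Finset.mul_sum, ← hp,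
      Finset.sum_ite_eq' Finset.univ k, if_pos (Finset.mem_univ k), map_mul, aeval_X, pderiv_mul]
    ring

theorem eq_zero_of_const (R : Fin n → MvPolynomial (Fin n) ℂ) (Q : MvPolynomial (Fin n) ℂ)
    (h : ∀ m, m ≠ 0 → coeff m Q = 0) (h0 : aeval R Q = 0) : Q = 0 := by
  have hQ : Q = C (coeff 0 Q) := by
    ext m
    rw [coeff_C]
    split_ifs with hm
    · rw [← hm]
    · exact h m (Ne.symm hm)
  rw [hQ] at h0 ⊢
  have h1 : (C (coeff 0 Q) : MvPolynomial (Fin n) ℂ) = 0 := by simpa using h0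
  exact h1

theorem ind_aux (R : Fin n → MvPolynomial (Fin n) ℂ)
    (hR : (Matrix.of fun i j => pderiv j (R i)).det ≠ 0) (d : ℕ) :
    ∀ Q : MvPolynomial (Fin n) ℂ, (∀ m, coeff m Q ≠ 0 → m.degree ≤ d) → aeval R Q = 0 → Q = 0 := by
  induction d with
  | zero =>
    intro Q hQ h0
    refine eq_zero_of_const R Q (fun m hm => ?_) h0
    by_contra h
    have := hQ m h
    exact hm ((Finsupp.degree_eq_zero_iff m).1 (Nat.le_zero.1 this))
  | succ d ih =>
    intro Q hQ h0
    have hp : ∀ i, pderiv i Q = 0 := by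
      have h1 : (fun i => aeval R (pderiv i Q)) = 0 := by
        refine Matrix.eq_zero_of_vecMul_eq_zero hR ?_
        funext j
        have := pderiv_aeval R Q j
        rw [h0, map_zero] at this
        rw [Matrix.vecMul, dotProduct]
        simpa [Matrix.of_apply] using this.symm
      intro i
      refine ih (pderiv i Q) (fun m hm => ?_) (congrFun h1 i)
      rw [coeff_pderiv] at hm
      have h2 := hQ _ (left_ne_zero_of_mul hm)
      rw [map_add, Finsupp.degree_single] at h2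
      omega
    refine eq_zero_of_const R Q (fun m hm => ?_) h0
    obtain ⟨i, hi⟩ : ∃ i, m i ≠ 0 := by
      by_contra h
      push Not at h
      exact hm (Finsupp.ext h)
    have h3 := coeff_pderiv (i := i) Q (m - Finsupp.single i 1)
    have h4 : m - Finsupp.single i 1 + Finsupp.single i 1 = m := by
      refine Finsupp.ext fun k => ?_
      by_cases hk : k = i
      · subst hk; simp; omega
      · simp [Ne.symm hk]
    rw [hp i, coeff_zero, h4] at h3
    rcases mul_eq_zero.1 h3.symm with h | h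
    · exact h
    · exact absurd h (Nat.cast_add_one_ne_zero _)

theorem algInd (R : Fin n → MvPolynomial (Fin n) ℂ)
    (hR : (Matrix.of fun i j => pderiv j (R i)).det ≠ 0) : AlgebraicIndependent ℂ R := by
  rw [algebraicIndependent_iff]
  intro Q hQ
  exact ind_aux R hR Q.totalDegree Q (fun m hm => by
    have := le_totalDegree (mem_support_iff.2 hm)
    simpa [Finsupp.sum, Finsupp.degree_apply] using this) hQ

/-- every polynomial is algebraic over `ℂ[R]`, with a nonzero constant coefficient -/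
theorem exists_rel (R : Fin n → MvPolynomial (Fin n) ℂ)
    (hR : (Matrix.of fun i j => pderiv j (R i)).det ≠ 0) (x : MvPolynomial (Fin n) ℂ)
    (hx : x ≠ 0) : ∃ p : Polynomial (MvPolynomial (Fin n) ℂ), p.coeff 0 ≠ 0 ∧
      ∑ k ∈ Finset.range (p.natDegree + 1), aeval R (p.coeff k) * x ^ k = 0 := by
  have hi := algInd R hR
  have ht : IsTranscendenceBasis ℂ R := by
    refine hi.isTranscendenceBasis_of_trdeg_le_of_finite ?_
    rw [MvPolynomial.trdeg_of_isDomain]
    simp
  have ha := ht.isAlgebraic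
  obtain ⟨q, hq0, hq⟩ := (ha.isAlgebraic x).exists_nonzero_coeff_and_aeval_eq_zero
    (mem_nonZeroDivisors_of_ne_zero hx)
  let e := hi.aevalEquiv
  have he : ∀ y, aeval R (e.symm y) = (y : MvPolynomial (Fin n) ℂ) := fun y => by
    have := hi.algebraMap_aevalEquiv (e.symm y)
    rw [← this]
    change algebraMap _ _ (e (e.symm y)) = _
    rw [AlgEquiv.apply_symm_apply]
    rfl
  refine ⟨q.map (e.symm : _ →+* MvPolynomial (Fin n) ℂ), ?_, ?_⟩
  · rw [Polynomial.coeff_map]
    intro h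
    exact hq0 ((map_eq_zero_iff (e.symm) e.symm.injective).1 h)
  · have hd : (q.map (e.symm : _ →+* MvPolynomial (Fin n) ℂ)).natDegree = q.natDegree :=
      Polynomial.natDegree_map_eq_of_injective e.symm.injective q
    rw [hd]
    rw [Polynomial.aeval_eq_sum_range] at hq
    rw [← hq]
    refine Finset.sum_congr rfl fun k _ => ?_
    rw [Polynomial.coeff_map, Algebra.smul_def]
    congr 1
    exact he _

/-! ### Two elementary bounds for roots -/

theorem root_up (d : ℕ) (b : ℕ → ℂ) (x : ℂ)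
    (h : ∑ k ∈ Finset.range (d + 1), b k * x ^ k = 0) :
    ‖x‖ * ‖b d‖ ≤ ∑ k ∈ Finset.range (d + 1), ‖b k‖ := by
  rcases le_total ‖x‖ 1 with hx | hx
  · calc ‖x‖ * ‖b d‖ ≤ 1 * ‖b d‖ := by gcongr
      _ = ‖b d‖ := one_mul _
      _ ≤ _ := Finset.single_le_sum (f := fun k => ‖b k‖) (fun _ _ => norm_nonneg _)
        (Finset.self_mem_range_succ d)
  · rw [Finset.sum_range_succ] at h
    have h1 : b d * x ^ d = -∑ k ∈ Finset.range d, b k * x ^ k := by
      rw [← sub_eq_zero, sub_neg_eq_add, add_comm]; exact h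
    cases d with
    | zero =>
      have : b 0 = 0 := by simpa using h1
      simp [this]
    | succ e =>
      have h2 : ‖b (e + 1)‖ * ‖x‖ ^ (e + 1) ≤ (∑ k ∈ Finset.range (e + 1), ‖b k‖) * ‖x‖ ^ e := by
        calc ‖b (e + 1)‖ * ‖x‖ ^ (e + 1) = ‖b (e + 1) * x ^ (e + 1)‖ := by
              rw [norm_mul, norm_pow]
          _ = ‖∑ k ∈ Finset.range (e + 1), b k * x ^ k‖ := by rw [h1, norm_neg]
          _ ≤ ∑ k ∈ Finset.range (e + 1), ‖b k * x ^ k‖ := norm_sum_le _ _
          _ ≤ ∑ k ∈ Finset.range (e + 1), ‖b k‖ * ‖x‖ ^ e := by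
              refine Finset.sum_le_sum fun k hk => ?_
              rw [norm_mul, norm_pow]
              refine mul_le_mul_of_nonneg_left ?_ (norm_nonneg _)
              exact pow_le_pow_right₀ hx (Nat.lt_succ_iff.1 (Finset.mem_range.1 hk))
          _ = _ := by rw [Finset.sum_mul]
      have hx0 : 0 < ‖x‖ ^ e := by positivity
      have h3 : ‖x‖ * ‖b (e + 1)‖ ≤ ∑ k ∈ Finset.range (e + 1), ‖b k‖ := by
        refine le_of_mul_le_mul_right ?_ hx0
        calc ‖x‖ * ‖b (e + 1)‖ * ‖x‖ ^ e = ‖b (e + 1)‖ * ‖x‖ ^ (e + 1) := by ring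
          _ ≤ _ := h2
      refine h3.trans ?_
      rw [Finset.sum_range_succ _ (e + 1)]
      exact le_add_of_nonneg_right (norm_nonneg _)

theorem root_low (d : ℕ) (b : ℕ → ℂ) (x : ℂ)
    (h : ∑ k ∈ Finset.range (d + 1), b k * x ^ k = 0) :
    ‖b 0‖ ≤ ‖x‖ * ∑ k ∈ Finset.range (d + 1), ‖b k‖ := by
  rcases le_total 1 ‖x‖ with hx | hx
  · have h1 : ‖b 0‖ ≤ ∑ k ∈ Finset.range (d + 1), ‖b k‖ :=
      Finset.single_le_sum (f := fun k => ‖b k‖) (fun _ _ => norm_nonneg _)
        (Finset.mem_range.2 (Nat.succ_pos d))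
    calc ‖b 0‖ ≤ 1 * ∑ k ∈ Finset.range (d + 1), ‖b k‖ := by rw [one_mul]; exact h1
      _ ≤ _ := by gcongr
  · rw [Finset.sum_range_succ'] at h
    have h1 : b 0 = -∑ k ∈ Finset.range d, b (k + 1) * x ^ (k + 1) := by
      rw [← sub_eq_zero, sub_neg_eq_add, add_comm]; simpa using h
    calc ‖b 0‖ = ‖∑ k ∈ Finset.range d, b (k + 1) * x ^ (k + 1)‖ := by rw [h1, norm_neg]
      _ ≤ ∑ k ∈ Finset.range d, ‖b (k + 1) * x ^ (k + 1)‖ := norm_sum_le _ _
      _ ≤ ∑ k ∈ Finset.range d, ‖x‖ * ‖b (k + 1)‖ := by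
          refine Finset.sum_le_sum fun k _ => ?_
          rw [norm_mul, norm_pow, pow_succ]
          have : ‖x‖ ^ k ≤ 1 := pow_le_one₀ (norm_nonneg _) hx
          calc ‖b (k + 1)‖ * (‖x‖ ^ k * ‖x‖) = ‖x‖ ^ k * (‖x‖ * ‖b (k + 1)‖) := by ring
            _ ≤ 1 * (‖x‖ * ‖b (k + 1)‖) := by gcongr
            _ = _ := one_mul _
      _ = ‖x‖ * ∑ k ∈ Finset.range d, ‖b (k + 1)‖ := by rw [Finset.mul_sum]
      _ ≤ _ := by
          refine mul_le_mul_of_nonneg_left ?_ (norm_nonneg _)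
          rw [Finset.sum_range_succ' (fun k => ‖b k‖)]
          exact le_add_of_nonneg_right (norm_nonneg _)

/-! ### Polynomial growth -/

/-- polynomial growth -/
def PG (g : (Fin n → ℂ) → ℝ) : Prop :=
  ∃ (s : ℕ) (C : ℝ), 0 ≤ C ∧ ∀ w, g w ≤ C * (1 + ‖w‖) ^ s

theorem PG.mono {g h : (Fin n → ℂ) → ℝ} (hg : PG g) (hh : ∀ w, h w ≤ g w) : PG h := by
  obtain ⟨s, C, hC, H⟩ := hg
  exact ⟨s, C, hC, fun w => (hh w).trans (H w)⟩

theorem pw (w : Fin n → ℂ) {s t : ℕ} (h : s ≤ t) : (1 + ‖w‖) ^ s ≤ (1 + ‖w‖) ^ t :=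
  pow_le_pow_right₀ (by linarith [norm_nonneg w]) h

theorem PG.add {g h : (Fin n → ℂ) → ℝ} (hg : PG g) (hh : PG h) : PG (fun w => g w + h w) := by
  obtain ⟨s, C, hC, H⟩ := hg
  obtain ⟨t, D, hD, K⟩ := hh
  refine ⟨max s t, C + D, by positivity, fun w => ?_⟩
  have h1 := mul_le_mul_of_nonneg_left (pw w (le_max_left s t)) hC
  have h2 := mul_le_mul_of_nonneg_left (pw w (le_max_right s t)) hD
  nlinarith [H w, K w]

theorem PG.mul {g h : (Fin n → ℂ) → ℝ} (hg : PG g) (hh : PG h) (h0 : ∀ w, 0 ≤ h w) :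
    PG (fun w => g w * h w) := by
  obtain ⟨s, C, hC, H⟩ := hg
  obtain ⟨t, D, hD, K⟩ := hh
  refine ⟨s + t, C * D, by positivity, fun w => ?_⟩
  calc g w * h w ≤ C * (1 + ‖w‖) ^ s * h w := mul_le_mul_of_nonneg_right (H w) (h0 w)
    _ ≤ C * (1 + ‖w‖) ^ s * (D * (1 + ‖w‖) ^ t) :=
        mul_le_mul_of_nonneg_left (K w) (by positivity)
    _ = _ := by rw [pow_add]; ring

theorem PG.const (c : ℝ) : PG (fun _ : Fin n → ℂ => c) :=
  ⟨0, |c|, abs_nonneg _, fun w => by simpa using le_abs_self c⟩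

theorem PG.sum {ι : Type*} (s : Finset ι) (g : ι → (Fin n → ℂ) → ℝ) (h : ∀ i ∈ s, PG (g i)) :
    PG (fun w => ∑ i ∈ s, g i w) := by
  classical
  induction s using Finset.induction_on with
  | empty => simpa using PG.const (n := n) 0
  | insert a s ha ih =>
    simp only [Finset.sum_insert ha]
    exact (h a (Finset.mem_insert_self _ _)).add
      (ih fun i hi => h i (Finset.mem_insert_of_mem hi))

theorem PG.eval (Q : MvPolynomial (Fin n) ℂ) : PG (fun w => ‖MvPolynomial.eval w Q‖) := by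
  induction Q using MvPolynomial.induction_on with
  | C a => simpa using PG.const (n := n) ‖a‖
  | add p q hp hq => exact (hp.add hq).mono fun w => by rw [map_add]; exact norm_add_le _ _
  | mul_X p k hp =>
    have h1 : PG (fun w : Fin n → ℂ => ‖w k‖) :=
      ⟨1, 1, zero_le_one, fun w => by
        have := norm_le_pi_norm w k
        rw [one_mul, pow_one]; linarith⟩
    exact (hp.mul h1 fun w => norm_nonneg _).mono fun w => by
      rw [map_mul, eval_X, norm_mul]

/-! ### The theorem -/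

theorem eval_aeval (R : Fin n → MvPolynomial (Fin n) ℂ) (Q : MvPolynomial (Fin n) ℂ)
    (z : Fin n → ℂ) :
    MvPolynomial.eval z (aeval R Q) = MvPolynomial.eval (fun i => MvPolynomial.eval z (R i)) Q := by
  induction Q using MvPolynomial.induction_on with
  | C a => simp
  | add p q hp hq => simp only [map_add, hp, hq]
  | mul_X p k hp => simp only [map_mul, aeval_X, hp, eval_X]

theorem eval_rel (R : Fin n → MvPolynomial (Fin n) ℂ) (x : MvPolynomial (Fin n) ℂ)
    (p : Polynomial (MvPolynomial (Fin n) ℂ))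
    (h : ∑ k ∈ Finset.range (p.natDegree + 1), aeval R (p.coeff k) * x ^ k = 0)
    (z : Fin n → ℂ) :
    ∑ k ∈ Finset.range (p.natDegree + 1),
      MvPolynomial.eval (fun i => MvPolynomial.eval z (R i)) (p.coeff k) *
        (MvPolynomial.eval z x) ^ k = 0 := by
  have := congrArg (MvPolynomial.eval z) h
  rw [map_sum, map_zero] at this
  rw [← this]
  exact Finset.sum_congr rfl fun k _ => by rw [map_mul, map_pow, eval_aeval]

theorem low_poly (R : Fin n → MvPolynomial (Fin n) ℂ)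
    (hR : (Matrix.of fun i j => pderiv j (R i)).det ≠ 0) (x : MvPolynomial (Fin n) ℂ)
    (hx : x ≠ 0) : ∃ (c : MvPolynomial (Fin n) ℂ) (M : (Fin n → ℂ) → ℝ), c ≠ 0 ∧ PG M ∧
      (∀ w, 0 ≤ M w) ∧ ∀ z : Fin n → ℂ, ‖eval (fun i => eval z (R i)) c‖
        ≤ ‖eval z x‖ * M (fun i => eval z (R i)) := by
  obtain ⟨q, hq0, hq⟩ := exists_rel R hR x hx
  refine ⟨q.coeff 0, fun w => ∑ k ∈ Finset.range (q.natDegree + 1), ‖eval w (q.coeff k)‖, hq0,
    PG.sum _ _ fun k _ => PG.eval _, fun w => Finset.sum_nonneg fun _ _ => norm_nonneg _,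
    fun z => ?_⟩
  exact root_low _ _ _ (eval_rel R _ q hq z)

theorem up_poly (R : Fin n → MvPolynomial (Fin n) ℂ)
    (hR : (Matrix.of fun i j => pderiv j (R i)).det ≠ 0) (j : Fin n) :
    ∃ (c : MvPolynomial (Fin n) ℂ) (M : (Fin n → ℂ) → ℝ) (D : ℕ), c ≠ 0 ∧ PG M ∧
      (∀ w, 0 ≤ M w) ∧ (∀ z : Fin n → ℂ, ‖z j‖ * ‖eval (fun i => eval z (R i)) c‖
        ≤ M (fun i => eval z (R i))) ∧
      ∀ w, eval w c ≠ 0 → ∃ P : Polynomial ℂ, P ≠ 0 ∧ P.natDegree ≤ D ∧
        ∀ z : Fin n → ℂ, (fun i => eval z (R i)) = w → P.IsRoot (z j) := by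
  obtain ⟨q, hq0, hq⟩ := exists_rel R hR (X j) (X_ne_zero j)
  have hl : q.leadingCoeff ≠ 0 := by
    rw [Polynomial.leadingCoeff_ne_zero]
    intro h
    exact hq0 (by rw [h, Polynomial.coeff_zero])
  refine ⟨q.leadingCoeff, fun w => ∑ k ∈ Finset.range (q.natDegree + 1), ‖eval w (q.coeff k)‖,
    q.natDegree, hl, PG.sum _ _ fun k _ => PG.eval _,
    fun w => Finset.sum_nonneg fun _ _ => norm_nonneg _, fun z => ?_, fun w hw => ?_⟩
  · have h2 := root_up _ _ _ (eval_rel R (X j) q hq z)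
    rw [eval_X] at h2
    exact h2
  · refine ⟨q.map (eval w), fun h => ?_, Polynomial.natDegree_map_le, fun z hz => ?_⟩
    · have := congrArg (fun r => r.coeff q.natDegree) h
      simp only [Polynomial.coeff_map, Polynomial.coeff_zero] at this
      exact hw this
    · rw [Polynomial.IsRoot.def, Polynomial.eval_map]
      have h2 := eval_rel R (X j) q hq z
      rw [hz, eval_X] at h2
      rw [Polynomial.eval₂_eq_sum_range]
      exact h2

/-- **C1.** -/
theorem c1 (R : Fin n → MvPolynomial (Fin n) ℂ)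
    (hR : (Matrix.of fun i j => pderiv j (R i)).det ≠ 0) :
    ∃ a : MvPolynomial (Fin n) ℂ, a ≠ 0 ∧ ∃ (s D : ℕ) (C : ℝ), 0 ≤ C ∧
      (∀ z : Fin n → ℂ,
        (∀ j, ‖z j‖ * ‖eval (fun i => eval z (R i)) a‖
          ≤ C * (1 + ‖(fun i => eval z (R i) : Fin n → ℂ)‖) ^ s) ∧
        ‖eval (fun i => eval z (R i)) a‖
          ≤ C * (1 + ‖(fun i => eval z (R i) : Fin n → ℂ)‖) ^ s *
            ‖eval z (Matrix.of fun i j => pderiv j (R i)).det‖) ∧
      ∀ w : Fin n → ℂ, eval w a ≠ 0 →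
        {z : Fin n → ℂ | (fun i => eval z (R i)) = w}.Finite ∧
        {z : Fin n → ℂ | (fun i => eval z (R i)) = w}.ncard ≤ D := by
  classical
  choose c M D hc0 hM hM0 hz hP using fun j => up_poly R hR j
  obtain ⟨q, N, hq0, hN, hN0, hq⟩ := low_poly R hR _ hR
  generalize hdet : (Matrix.of fun i j => pderiv j (R i)).det = δ at *
  clear hdet
  have hA : (∏ j, c j) ≠ 0 := Finset.prod_ne_zero_iff.2 fun j _ => hc0 j
  generalize hAdef : (∏ j, c j) = A at hA
  have hG : PG (fun w => (∑ j, M j w * (‖eval w (∏ i ∈ Finset.univ.erase j, c i)‖ *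
      ‖eval w q‖)) + N w * ‖eval w A‖) := by
    refine PG.add (PG.sum _ _ fun j _ => ?_) ?_
    · exact PG.mul (hM j) (PG.mul (PG.eval _) (PG.eval _) fun w => norm_nonneg _)
        fun w => mul_nonneg (norm_nonneg _) (norm_nonneg _)
    · exact PG.mul hN (PG.eval _) fun w => norm_nonneg _
  obtain ⟨s, C, hC, hG⟩ := hG
  have hpos : ∀ w (j : Fin n), 0 ≤ M j w * (‖eval w (∏ i ∈ Finset.univ.erase j, c i)‖ *
      ‖eval w q‖) := fun w j =>
    mul_nonneg (hM0 j w) (mul_nonneg (norm_nonneg _) (norm_nonneg _))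
  refine ⟨A * q, mul_ne_zero hA hq0, s, ∏ j, D j, C, hC, fun z => ⟨fun j => ?_,
    ?_⟩, fun w hw => ?_⟩
  · have h2 := hz j z
    generalize (fun i => eval z (R i)) = w at h2 ⊢
    have h3 : A = c j * ∏ i ∈ Finset.univ.erase j, c i := by
      rw [← hAdef]; exact (Finset.mul_prod_erase _ _ (Finset.mem_univ j)).symm
    refine le_trans ?_ (hG w)
    have h4 : ‖z j‖ * ‖eval w (A * q)‖
        ≤ M j w * (‖eval w (∏ i ∈ Finset.univ.erase j, c i)‖ * ‖eval w q‖) := by
      rw [h3, map_mul, map_mul, norm_mul, norm_mul]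
      calc ‖z j‖ * (‖eval w (c j)‖ *
            ‖eval w (∏ i ∈ Finset.univ.erase j, c i)‖ * ‖eval w q‖)
          = (‖z j‖ * ‖eval w (c j)‖) *
            (‖eval w (∏ i ∈ Finset.univ.erase j, c i)‖ * ‖eval w q‖) := by ring
        _ ≤ _ := mul_le_mul_of_nonneg_right h2 (mul_nonneg (norm_nonneg _) (norm_nonneg _))
    refine h4.trans ?_
    have h5 := Finset.single_le_sum (f := fun j => M j w *
      (‖eval w (∏ i ∈ Finset.univ.erase j, c i)‖ * ‖eval w q‖))
      (s := Finset.univ) (fun i _ => hpos w i) (Finset.mem_univ j)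
    exact h5.trans (le_add_of_nonneg_right (mul_nonneg (hN0 w) (norm_nonneg _)))
  · have h2 := hq z
    generalize (fun i => eval z (R i)) = w at h2 ⊢
    generalize eval z δ = d at h2 ⊢
    rw [map_mul, norm_mul]
    have h6 : N w * ‖eval w A‖ ≤ C * (1 + ‖w‖) ^ s :=
      le_trans (le_add_of_nonneg_left (Finset.sum_nonneg fun j _ => hpos w j)) (hG w)
    calc ‖eval w A‖ * ‖eval w q‖ ≤ ‖eval w A‖ * (‖d‖ * N w) :=
          mul_le_mul_of_nonneg_left h2 (norm_nonneg _)
      _ = (N w * ‖eval w A‖) * ‖d‖ := by ring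
      _ ≤ (C * (1 + ‖w‖) ^ s) * ‖d‖ := mul_le_mul_of_nonneg_right h6 (norm_nonneg _)
  · rw [map_mul] at hw
    have hw1 := left_ne_zero_of_mul hw
    have hwj : ∀ j, eval w (c j) ≠ 0 := by
      rw [← hAdef, map_prod] at hw1
      exact fun j => Finset.prod_ne_zero_iff.1 hw1 j (Finset.mem_univ j)
    choose P hP0 hPd hPr using fun j => hP j w (hwj j)
    have hsub : {z : Fin n → ℂ | (fun i => eval z (R i)) = w} ⊆
        ↑(Fintype.piFinset fun j => (P j).roots.toFinset) := by
      intro z hz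
      rw [Finset.mem_coe, Fintype.mem_piFinset]
      intro j
      rw [Multiset.mem_toFinset, Polynomial.mem_roots (hP0 j)]
      exact hPr j z hz
    refine ⟨(Finset.finite_toSet _).subset hsub, ?_⟩
    refine (Set.ncard_le_ncard hsub (Finset.finite_toSet _)).trans ?_
    rw [Set.ncard_coe_finset, Fintype.card_piFinset]
    refine Finset.prod_le_prod' fun j _ => ?_
    exact (Multiset.toFinset_card_le _).trans ((Polynomial.card_roots' _).trans (hPd j))

/-- if `q (R) = 0` then `q = 0` -/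
theorem c1_inj (R : Fin n → MvPolynomial (Fin n) ℂ)
    (hR : (Matrix.of fun i j => pderiv j (R i)).det ≠ 0) (Q : MvPolynomial (Fin n) ℂ)
    (h : ∀ z : Fin n → ℂ, eval (fun i => eval z (R i)) Q = 0) : Q = 0 := by
  have h1 := algebraicIndependent_iff.1 (algInd R hR) Q
  refine h1 (MvPolynomial.funext fun z => ?_)
  rw [eval_aeval, h z, map_zero]

end Vale.Agent.P284.H913.C1
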