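import Vale.Agent.P284.H913.SheetNL
import Mathlib.Analysis.Calculus.InverseFunctionTheorem.ContDiff
import Mathlib.Analysis.Analytic.Polynomial

/-!
# P284, block S5N: existence of sheets
-/

open scoped Topology ContDiff
open Filter Set Metric MvPolynomial

noncomputable section

namespace Vale.Agent.P284.H913

open Vale.Agent.P272.K

namespace Ex

variable {n : ℕ}

/-! ### Derivatives of polynomial maps -/

theorem hasFDerivAt_eval (Q : MvPolynomial (Fin n) ℂ) (z : Cm n) :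
    HasFDerivAt (fun z : Cm n => eval z Q)
      (∑ i, eval z (pderiv i Q) • (ContinuousLinearMap.proj i : Cm n →L[ℂ] ℂ)) z := by
  induction Q using MvPolynomial.induction_on with
  | C a =>
    have h1 : (fun z : Cm n => eval z (C a : MvPolynomial (Fin n) ℂ)) = fun _ => a := by
      funext z; rw [eval_C]
    rw [h1]
    refine (hasFDerivAt_const (𝕜 := ℂ) a z).congr_fderiv ?_
    ext v
    simp
  | add p q hp hq =>
    have h1 : (fun z : Cm n => eval z (p + q)) = (fun z => eval z p) + fun z => eval z q := by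
      funext z; rw [map_add]; rfl
    rw [h1]
    refine (hp.add hq).congr_fderiv ?_
    ext v
    simp [add_mul, Finset.sum_add_distrib]
  | mul_X p k hp =>
    have h1 := hp.mul (hasFDerivAt_apply (𝕜 := ℂ) (F' := fun _ : Fin n => ℂ) k z)
    have h2 : (fun z : Cm n => eval z (p * X k)) = fun z => eval z p * z k := by
      funext z; rw [map_mul, eval_X]
    rw [h2]
    refine h1.congr_fderiv ?_
    ext v
    simp only [_root_.add_apply, _root_.smul_apply,
      ContinuousLinearMap.proj_apply, _root_.sum_apply, smul_eq_mul, pderiv_mul,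
      map_add, map_mul, eval_X, add_mul, Finset.sum_add_distrib, Finset.mul_sum]
    rw [add_comm]
    congr 1
    · exact Finset.sum_congr rfl fun i _ => by ring
    · rw [Finset.sum_eq_single k]
      · simp
      · intro b _ hb
        rw [pderiv_X_of_ne (Ne.symm hb)]; simp
      · simp

/-- the Jacobian matrix -/
def JP (R : Fin n → MvPolynomial (Fin n) ℂ) : Matrix (Fin n) (Fin n) (MvPolynomial (Fin n) ℂ) :=
  Matrix.of fun i j => pderiv j (R i)

/-- the polynomial map -/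
def RR (R : Fin n → MvPolynomial (Fin n) ℂ) (z : Cm n) : Cm n := fun i => eval z (R i)

/-- the Jacobian matrix at a point -/
def J (R : Fin n → MvPolynomial (Fin n) ℂ) (z : Cm n) : Matrix (Fin n) (Fin n) ℂ :=
  (JP R).map (eval z)

theorem J_det (R : Fin n → MvPolynomial (Fin n) ℂ) (z : Cm n) :
    (J R z).det = eval z (JP R).det := by
  rw [RingHom.map_det]; rfl

theorem hasFDerivAt_RR (R : Fin n → MvPolynomial (Fin n) ℂ) (z : Cm n) :
    HasFDerivAt (RR R) (LinearMap.toContinuousLinearMap (Matrix.toLin' (J R z))) z := by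
  rw [hasFDerivAt_pi']
  intro i
  refine (hasFDerivAt_eval (R i) z).congr_fderiv ?_
  ext v
  simp [J, JP, Matrix.mulVec, dotProduct]

theorem contDiff_RR (R : Fin n → MvPolynomial (Fin n) ℂ) : ContDiff ℂ 1 (RR R) := by
  rw [contDiff_pi]
  intro i
  rw [contDiff_iff_contDiffAt]
  intro z
  exact (AnalyticOnNhd.eval_mvPolynomial (𝕜 := ℂ) (R i) z (mem_univ z)).contDiffAt

theorem local_inv (R : Fin n → MvPolynomial (Fin n) ℂ) (z : Cm n)
    (hdet : eval z (JP R).det ≠ 0) : ∃ τ : Cm n → Cm n, τ (RR R z) = z ∧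
      (∀ᶠ w in 𝓝 (RR R z), RR R (τ w) = w ∧ DifferentiableAt ℂ τ w) ∧
      (∀ᶠ y in 𝓝 z, τ (RR R y) = y) ∧
      ∀ v, Matrix.mulVec (J R z) (fderiv ℂ τ (RR R z) v) = v := by
  have hd : IsUnit (J R z).det := by rw [J_det]; exact isUnit_iff_ne_zero.2 hdet
  let L : Cm n ≃ₗ[ℂ] Cm n := LinearEquiv.ofInjective (Matrix.toLin' (J R z)) (by
      rw [← LinearMap.ker_eq_bot, Matrix.ker_toLin'_eq_bot_iff]
      intro v hv
      exact Matrix.eq_zero_of_mulVec_eq_zero (by rw [J_det]; exact hdet) hv) |>.trans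
    (LinearEquiv.ofTop _ (by
      rw [LinearMap.range_eq_top, ← LinearMap.injective_iff_surjective, ← LinearMap.ker_eq_bot,
        Matrix.ker_toLin'_eq_bot_iff]
      intro v hv
      exact Matrix.eq_zero_of_mulVec_eq_zero (by rw [J_det]; exact hdet) hv))
  let A : Cm n ≃L[ℂ] Cm n := L.toContinuousLinearEquiv
  have hA : HasFDerivAt (RR R) (A : Cm n →L[ℂ] Cm n) z := by
    refine (hasFDerivAt_RR R z).congr_fderiv ?_
    ext v
    rfl
  have hc : ContDiffAt ℂ 1 (RR R) z := (contDiff_RR R).contDiffAt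
  let φ := hc.toOpenPartialHomeomorph (RR R) hA one_ne_zero
  have hφ : ∀ y, φ y = RR R y := fun y => rfl
  have hz : z ∈ φ.source := hc.mem_toOpenPartialHomeomorph_source hA one_ne_zero
  have hz' : RR R z ∈ φ.target := by
    rw [← hφ z]; exact φ.map_source hz
  have hinv : ContDiffAt ℂ 1 φ.symm (RR R z) := hc.to_localInverse hA one_ne_zero
  have e1 : φ.symm (RR R z) = z := by rw [← hφ z]; exact φ.left_inv hz
  have h2 : ∀ᶠ w in 𝓝 (RR R z), RR R (φ.symm w) = w := by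
    filter_upwards [φ.open_target.mem_nhds hz'] with w hw
    exact φ.right_inv hw
  refine ⟨φ.symm, e1, ?_, ?_, ?_⟩
  · filter_upwards [h2, hinv.eventually (by simp)] with w a b
    exact ⟨a, b.differentiableAt one_ne_zero⟩
  · filter_upwards [φ.open_source.mem_nhds hz] with y hy
    exact φ.left_inv hy
  · intro v
    have h3 : HasFDerivAt (fun w => RR R (φ.symm w))
        ((LinearMap.toContinuousLinearMap (Matrix.toLin' (J R z))).comp
          (fderiv ℂ φ.symm (RR R z))) (RR R z) := by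
      have h4 := hasFDerivAt_RR R (φ.symm (RR R z))
      have h5 := h4.comp (RR R z) (hinv.differentiableAt one_ne_zero).hasFDerivAt
      rw [e1] at h5
      exact h5
    have h6 : HasFDerivAt (fun w => RR R (φ.symm w)) (ContinuousLinearMap.id ℂ (Cm n)) (RR R z) :=
      (hasFDerivAt_id _).congr_of_eventuallyEq h2
    have h7 := congrArg (fun T : Cm n →L[ℂ] Cm n => T v) (h3.unique h6)
    simpa using h7

/-- bound for the inverse of the Jacobian matrix -/
theorem adj_bound (R : Fin n → MvPolynomial (Fin n) ℂ) : ∃ (t : ℕ) (C : ℝ), 0 ≤ C ∧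
    ∀ (z : Cm n) (x v : Cm n), Matrix.mulVec (J R z) x = v →
      ‖eval z (JP R).det‖ * ‖x‖ ≤ C * (1 + ‖z‖) ^ t * ‖v‖ := by
  have h : C1.PG (fun z : Cm n => ∑ i, ∑ j, ‖eval z ((JP R).adjugate i j)‖) :=
    C1.PG.sum _ _ fun i _ => C1.PG.sum _ _ fun j _ => C1.PG.eval _
  obtain ⟨t, C, hC, h⟩ := h
  refine ⟨t, C, hC, fun z x v hx => ?_⟩
  have h1 : eval z (JP R).det • x = Matrix.mulVec ((JP R).adjugate.map (eval z)) v := by
    have h2 : (JP R).adjugate.map (eval z) = (J R z).adjugate :=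
      (RingHom.map_adjugate (eval z) (JP R))
    rw [h2, ← hx, Matrix.mulVec_mulVec, Matrix.adjugate_mul, J_det, Matrix.smul_mulVec,
      Matrix.one_mulVec]
  rw [← norm_smul, h1]
  refine le_trans ?_ (mul_le_mul_of_nonneg_right (h z) (norm_nonneg v))
  rw [pi_norm_le_iff_of_nonneg (by positivity)]
  intro i
  calc ‖Matrix.mulVec ((JP R).adjugate.map (eval z)) v i‖
      = ‖∑ j, eval z ((JP R).adjugate i j) * v j‖ := rfl
    _ ≤ ∑ j, ‖eval z ((JP R).adjugate i j) * v j‖ := norm_sum_le _ _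
    _ ≤ ∑ j, ‖eval z ((JP R).adjugate i j)‖ * ‖v‖ := by
        refine Finset.sum_le_sum fun j _ => ?_
        rw [norm_mul]
        exact mul_le_mul_of_nonneg_left (norm_le_pi_norm v j) (norm_nonneg _)
    _ = (∑ j, ‖eval z ((JP R).adjugate i j)‖) * ‖v‖ := by rw [Finset.sum_mul]
    _ ≤ _ := by
        refine mul_le_mul_of_nonneg_right ?_ (norm_nonneg v)
        exact Finset.single_le_sum (f := fun i => ∑ j, ‖eval z ((JP R).adjugate i j)‖)
          (fun i _ => Finset.sum_nonneg fun j _ => norm_nonneg _) (Finset.mem_univ i)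

/-! ### Splitting the coordinates of the target -/

variable {N m : ℕ}

/-- assemble a point -/
def mk (e : Fin n ≃ Fin N ⊕ Fin m) (y : Cm N) (w : Cm m) : Cm n := fun i => Sum.elim y w (e i)

/-- the linear part -/
def inr (e : Fin n ≃ Fin N ⊕ Fin m) : Cm m →L[ℂ] Cm n :=
  ContinuousLinearMap.pi fun i => Sum.elim (fun _ => 0)
    (fun j => (ContinuousLinearMap.proj j : Cm m →L[ℂ] ℂ)) (e i)

theorem inr_norm (e : Fin n ≃ Fin N ⊕ Fin m) (v : Cm m) : ‖inr e v‖ ≤ ‖v‖ := by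
  rw [pi_norm_le_iff_of_nonneg (norm_nonneg _)]
  intro i
  change ‖(Sum.elim (fun _ => (0 : Cm m →L[ℂ] ℂ))
    (fun j => (ContinuousLinearMap.proj j : Cm m →L[ℂ] ℂ)) (e i)) v‖ ≤ ‖v‖
  rcases e i with k | j
  · simp
  · exact norm_le_pi_norm v j

theorem mk_eq (e : Fin n ≃ Fin N ⊕ Fin m) (y : Cm N) (w : Cm m) : mk e y w = mk e y 0 + inr e w := by
  funext i
  change Sum.elim y w (e i) = Sum.elim y 0 (e i) + (Sum.elim (fun _ => (0 : Cm m →L[ℂ] ℂ))
    (fun j => (ContinuousLinearMap.proj j : Cm m →L[ℂ] ℂ)) (e i)) w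
  rcases e i with k | j
  · simp
  · simp

theorem mk_norm (e : Fin n ≃ Fin N ⊕ Fin m) (y : Cm N) (w : Cm m) : ‖mk e y w‖ ≤ ‖y‖ + ‖w‖ := by
  rw [pi_norm_le_iff_of_nonneg (by positivity)]
  intro i
  change ‖Sum.elim y w (e i)‖ ≤ _
  rcases e i with k | j
  · exact (norm_le_pi_norm y k).trans (le_add_of_nonneg_right (norm_nonneg _))
  · exact (norm_le_pi_norm w j).trans (le_add_of_nonneg_left (norm_nonneg _))

theorem hasFDerivAt_mk (e : Fin n ≃ Fin N ⊕ Fin m) (y : Cm N) (w : Cm m) :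
    HasFDerivAt (mk e y) (inr e) w := by
  have : mk e y = fun w => mk e y 0 + inr e w := funext fun w => mk_eq e y w
  rw [this]
  exact (inr e).hasFDerivAt.const_add _

/-- the polynomial map assembled from `P` and `π` -/
def RP (e : Fin n ≃ Fin N ⊕ Fin m) (P : Fin N → MvPolynomial (Fin n) ℂ)
    (π : Fin m → MvPolynomial (Fin n) ℂ) : Fin n → MvPolynomial (Fin n) ℂ :=
  fun i => Sum.elim P π (e i)

theorem RR_RP (e : Fin n ≃ Fin N ⊕ Fin m) (P : Fin N → MvPolynomial (Fin n) ℂ)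
    (π : Fin m → MvPolynomial (Fin n) ℂ) (z : Cm n) :
    RR (RP e P π) z = mk e (fun i => eval z (P i)) (fun j => eval z (π j)) := by
  funext i
  change eval z (Sum.elim P π (e i)) = Sum.elim _ _ (e i)
  rcases e i with k | j
  · rfl
  · rfl

theorem mk_inj (e : Fin n ≃ Fin N ⊕ Fin m) {y y' : Cm N} {w w' : Cm m}
    (h : mk e y w = mk e y' w') : y = y' ∧ w = w' := by
  constructor
  · funext k
    have := congrFun h (e.symm (Sum.inl k))
    simpa [mk] using this
  · funext k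
    have := congrFun h (e.symm (Sum.inr k))
    simpa [mk] using this

/-- restriction of a polynomial to `{y} × ℂᵐ` -/
def res (e : Fin n ≃ Fin N ⊕ Fin m) (y : Cm N) (a : MvPolynomial (Fin n) ℂ) :
    MvPolynomial (Fin m) ℂ :=
  aeval (fun i => Sum.elim (fun k => C (y k)) (fun j => X j) (e i)) a

theorem eval_res (e : Fin n ≃ Fin N ⊕ Fin m) (y : Cm N) (a : MvPolynomial (Fin n) ℂ) (w : Cm m) :
    eval w (res e y a) = eval (mk e y w) a := by
  unfold res
  induction a using MvPolynomial.induction_on with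
  | C a => simp
  | add p q hp hq => rw [map_add, map_add, hp, hq, map_add]
  | mul_X p i hp =>
    rw [map_mul, map_mul, hp, map_mul, aeval_X, eval_X]
    congr 1
    change eval w (Sum.elim (fun k => C (y k)) (fun j => X j) (e i)) = Sum.elim y w (e i)
    rcases e i with k | j
    · simp
    · simp

/-- existence of the sheet, with the choice of the projection made -/
theorem sheet_of' (e : Fin n ≃ Fin N ⊕ Fin m) (P : Fin N → MvPolynomial (Fin n) ℂ)
    (π : Fin m → MvPolynomial (Fin n) ℂ)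
    (a : MvPolynomial (Fin n) ℂ) (s D : ℕ) (C : ℝ) (hC : 0 ≤ C)
    (hc1 : ∀ z : Cm n, (∀ j, ‖z j‖ * ‖eval (RR (RP e P π) z) a‖
        ≤ C * (1 + ‖RR (RP e P π) z‖) ^ s) ∧
      ‖eval (RR (RP e P π) z) a‖
        ≤ C * (1 + ‖RR (RP e P π) z‖) ^ s * ‖eval z (JP (RP e P π)).det‖)
    (hc2 : ∀ w : Cm n, eval w a ≠ 0 → {z : Cm n | RR (RP e P π) z = w}.Finite ∧
      {z : Cm n | RR (RP e P π) z = w}.ncard ≤ D)
    (ζ₁ : Cm n) (hζ₁ : eval (RR (RP e P π) ζ₁) a ≠ 0) :
    ∃ S : Sheet n m, ζ₁ ∈ S.T ∧ (∀ z ∈ S.T, ∀ i, eval z (P i) = eval ζ₁ (P i)) ∧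
      (∀ z, S.pr z = fun j => eval z (π j)) ∧ S.a0 = res e (fun i => eval ζ₁ (P i)) a := by
  let R := RP e P π
  have hc1' : ∀ z : Cm n, (∀ j, ‖z j‖ * ‖eval (RR R z) a‖ ≤ C * (1 + ‖RR R z‖) ^ s) ∧
      ‖eval (RR R z) a‖ ≤ C * (1 + ‖RR R z‖) ^ s * ‖eval z (JP R).det‖ := hc1
  have hc2' : ∀ w : Cm n, eval w a ≠ 0 → {z : Cm n | RR R z = w}.Finite ∧
      {z : Cm n | RR R z = w}.ncard ≤ D := hc2
  set y₀ : Cm N := fun i => eval ζ₁ (P i) with hy₀
  let a0 := res e y₀ a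
  let pr : Cm n → Cm m := fun z j => eval z (π j)
  have hpr : Continuous pr := continuous_pi fun j => MvPolynomial.continuous_eval (π j)
  have hRR : ∀ z, RR R z = mk e (fun i => eval z (P i)) (pr z) := fun z => RR_RP e P π z
  let Z : Set (Cm n) := {z | (∀ i, eval z (P i) = y₀ i) ∧ eval (pr z) a0 ≠ 0}
  have hZR : ∀ z, (∀ i, eval z (P i) = y₀ i) → RR R z = mk e y₀ (pr z) := by
    intro z hz
    rw [hRR, show (fun i => eval z (P i)) = y₀ from funext hz]
  have hZa : ∀ z, (∀ i, eval z (P i) = y₀ i) → eval (RR R z) a = eval (pr z) a0 := by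
    intro z hz
    rw [hZR z hz]
    exact (eval_res e y₀ a (pr z)).symm
  have hζ₁Z : ζ₁ ∈ Z := by
    refine ⟨fun i => rfl, ?_⟩
    rw [← hZa ζ₁ fun i => rfl]
    exact hζ₁
  have hZd : ∀ z ∈ Z, eval z (JP R).det ≠ 0 := by
    intro z hz h0
    have h1 := (hc1' z).2
    rw [h0, norm_zero, mul_zero] at h1
    exact hz.2 ((hZa z hz.1) ▸ norm_le_zero_iff.1 h1)
  choose! τ ht1 ht2 ht3 ht4 using fun z (h : eval z (JP R).det ≠ 0) => local_inv R z h
  let σ : Cm n → Cm m → Cm n := fun z w => τ z (mk e y₀ w)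
  have hmk : Continuous (mk e y₀) := by
    rw [continuous_iff_continuousAt]
    exact fun w => (hasFDerivAt_mk e y₀ w).continuousAt
  have hoff : IsOpen {w : Cm m | eval w a0 ≠ 0} := Sheet.isOpen_off a0
  have hσ0 : ∀ z ∈ Z, σ z (pr z) = z := by
    intro z hz
    have := ht1 z (hZd z hz)
    rwa [hZR z hz.1] at this
  have hσ : ∀ z ∈ Z, ∀ᶠ w in 𝓝 (pr z), σ z w ∈ Z ∧ pr (σ z w) = w ∧
      DifferentiableAt ℂ (σ z) w := by
    intro z hz
    have h1 := ht2 z (hZd z hz)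
    rw [hZR z hz.1] at h1
    filter_upwards [hmk.continuousAt.eventually h1, hoff.mem_nhds hz.2] with w h2 h3
    have h4 := h2.1
    rw [hRR] at h4
    obtain ⟨h5, h6⟩ := mk_inj e h4
    refine ⟨⟨fun i => congrFun h5 i, ?_⟩, h6, ?_⟩
    · change eval (pr (τ z (mk e y₀ w))) a0 ≠ 0
      rw [h6]; exact h3
    · exact h2.2.comp w (hasFDerivAt_mk e y₀ w).differentiableAt
  let T := connectedComponentIn Z ζ₁
  have hTZ : T ⊆ Z := connectedComponentIn_subset _ _
  have hζ₁T : ζ₁ ∈ T := mem_connectedComponentIn hζ₁Z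
  have hconn : IsPreconnected T := isPreconnected_connectedComponentIn
  have hσT : ∀ z ∈ T, ∀ᶠ w in 𝓝 (pr z), σ z w ∈ T ∧ pr (σ z w) = w ∧
      DifferentiableAt ℂ (σ z) w := by
    intro z hz
    obtain ⟨r, hr, hB⟩ := Metric.eventually_nhds_iff_ball.1 (hσ z (hTZ hz))
    have h1 : IsPreconnected (σ z '' ball (pr z) r) :=
      (convex_ball (pr z) r).isPreconnected.image _
        fun w hw => (hB w hw).2.2.continuousAt.continuousWithinAt
    have h2 : σ z '' ball (pr z) r ⊆ Z := by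
      rintro _ ⟨w, hw, rfl⟩
      exact (hB w hw).1
    have h3 : z ∈ σ z '' ball (pr z) r := ⟨pr z, mem_ball_self hr, hσ0 z (hTZ hz)⟩
    have h4 := h1.subset_connectedComponentIn h3 h2
    have h5 : connectedComponentIn Z z = T := (connectedComponentIn_eq hz).symm
    rw [h5] at h4
    filter_upwards [ball_mem_nhds _ hr] with w hw
    exact ⟨h4 ⟨w, hw, rfl⟩, (hB w hw).2.1, (hB w hw).2.2⟩
  -- growth
  obtain ⟨t, C2, hC2, hadj⟩ := adj_bound R
  obtain ⟨s1, A, hA, hgr⟩ := C1.PG.eval a0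
  let Y : ℝ := 1 + ‖y₀‖
  have hY : 1 ≤ Y := by simp only [Y]; linarith [norm_nonneg y₀]
  have hRn : ∀ z ∈ Z, 1 + ‖RR R z‖ ≤ Y * (1 + ‖pr z‖) := by
    intro z hz
    rw [hZR z hz.1]
    have h1 := mk_norm e y₀ (pr z)
    have h2 : 0 ≤ ‖y₀‖ * ‖pr z‖ := by positivity
    simp only [Y]
    linarith [h1, h2]
  have hRs : ∀ z ∈ Z, (1 + ‖RR R z‖) ^ s ≤ Y ^ s * (1 + ‖pr z‖) ^ s := by
    intro z hz
    rw [← mul_pow]
    exact pow_le_pow_left₀ (by positivity) (hRn z hz) s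
  have hb1 : ∀ z ∈ Z, ∀ j, ‖z j‖ * ‖eval (pr z) a0‖ ≤ C * Y ^ s * (1 + ‖pr z‖) ^ s := by
    intro z hz j
    have h1 := (hc1' z).1 j
    rw [hZa z hz.1] at h1
    refine h1.trans ?_
    rw [mul_assoc]
    exact mul_le_mul_of_nonneg_left (hRs z hz) hC
  have hb2 : ∀ z ∈ Z, ‖eval (pr z) a0‖
      ≤ C * Y ^ s * (1 + ‖pr z‖) ^ s * ‖eval z (JP R).det‖ := by
    intro z hz
    have h1 := (hc1' z).2
    rw [hZa z hz.1] at h1
    refine h1.trans (mul_le_mul_of_nonneg_right ?_ (norm_nonneg _))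
    rw [mul_assoc]
    exact mul_le_mul_of_nonneg_left (hRs z hz) hC
  have hb3 : ∀ z ∈ Z, (1 + ‖z‖) * ‖eval (pr z) a0‖
      ≤ (A + C * Y ^ s) * (1 + ‖pr z‖) ^ (max s s1) := by
    intro z hz
    have h1 : ‖z‖ * ‖eval (pr z) a0‖ ≤ C * Y ^ s * (1 + ‖pr z‖) ^ s := by
      have hpos : 0 < ‖eval (pr z) a0‖ := norm_pos_iff.2 hz.2
      rw [← le_div_iff₀ hpos]
      rw [pi_norm_le_iff_of_nonneg (by positivity)]
      intro j
      rw [le_div_iff₀ hpos]
      exact hb1 z hz j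
    have h2 := hgr (pr z)
    have h3 := mul_le_mul_of_nonneg_left (C1.pw (pr z) (le_max_left s s1))
      (show 0 ≤ C * Y ^ s by positivity)
    have h4 := mul_le_mul_of_nonneg_left (C1.pw (pr z) (le_max_right s s1)) hA
    calc (1 + ‖z‖) * ‖eval (pr z) a0‖ = ‖eval (pr z) a0‖ + ‖z‖ * ‖eval (pr z) a0‖ := by ring
      _ ≤ A * (1 + ‖pr z‖) ^ (max s s1) + C * Y ^ s * (1 + ‖pr z‖) ^ (max s s1) :=
        add_le_add (h2.trans h4) (h1.trans h3)
      _ = _ := by ring
  have hb4 : ∀ z ∈ Z, ‖fderiv ℂ (σ z) (pr z)‖ * ‖eval z (JP R).det‖ ≤ C2 * (1 + ‖z‖) ^ t := by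
    intro z hz
    have hpos : 0 < ‖eval z (JP R).det‖ := norm_pos_iff.2 (hZd z hz)
    rw [← le_div_iff₀ hpos]
    refine ContinuousLinearMap.opNorm_le_bound _ (by positivity) fun v => ?_
    have h1 : fderiv ℂ (σ z) (pr z) v = fderiv ℂ (τ z) (RR R z) (inr e v) := by
      have h2 := (ht2 z (hZd z hz)).self_of_nhds.2
      rw [hZR z hz.1] at h2
      have h3 := h2.hasFDerivAt.comp (pr z) (hasFDerivAt_mk e y₀ (pr z))
      have h4 : fderiv ℂ (σ z) (pr z) = (fderiv ℂ (τ z) (mk e y₀ (pr z))).comp (inr e) :=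
        h3.fderiv
      rw [h4, hZR z hz.1]
      rfl
    have h5 := hadj z _ _ (ht4 z (hZd z hz) (inr e v))
    rw [← h1] at h5
    rw [div_mul_eq_mul_div, le_div_iff₀ hpos, mul_comm]
    exact h5.trans (mul_le_mul_of_nonneg_left (inr_norm e v) (by positivity))
  have hb5 : ∀ z ∈ Z, ‖fderiv ℂ (σ z) (pr z)‖ * ‖eval (pr z) a0‖ ^ (1 + t)
      ≤ (C * Y ^ s * C2 * (A + C * Y ^ s) ^ t) * (1 + ‖pr z‖) ^ (s + max s s1 * t) := by
    intro z hz
    have h1 := hb2 z hz
    have h2 := hb3 z hz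
    have h3 := hb4 z hz
    set α := ‖eval (pr z) a0‖ with hα
    set β := 1 + ‖pr z‖ with hβ
    set d := ‖fderiv ℂ (σ z) (pr z)‖ with hd
    set δ := ‖eval z (JP R).det‖ with hδ
    have hα0 : 0 ≤ α := norm_nonneg _
    have hβ0 : 0 ≤ β := by positivity
    have hd0 : 0 ≤ d := norm_nonneg _
    have hK0 : 0 ≤ C * Y ^ s * β ^ s := by positivity
    calc d * α ^ (1 + t) = (d * α ^ t) * α := by rw [pow_add, pow_one]; ring
      _ ≤ (d * α ^ t) * (C * Y ^ s * β ^ s * δ) :=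
          mul_le_mul_of_nonneg_left h1 (by positivity)
      _ = (C * Y ^ s * β ^ s) * α ^ t * (d * δ) := by ring
      _ ≤ (C * Y ^ s * β ^ s) * α ^ t * (C2 * (1 + ‖z‖) ^ t) :=
          mul_le_mul_of_nonneg_left h3 (by positivity)
      _ = (C * Y ^ s * β ^ s) * C2 * ((1 + ‖z‖) * α) ^ t := by rw [mul_pow]; ring
      _ ≤ (C * Y ^ s * β ^ s) * C2 * ((A + C * Y ^ s) * β ^ (max s s1)) ^ t := by
          refine mul_le_mul_of_nonneg_left ?_ (by positivity)
          exact pow_le_pow_left₀ (by positivity) h2 t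
      _ = _ := by rw [mul_pow, ← pow_mul, pow_add]; ring
  -- properness
  have hprop : ∀ K : Set (Cm m), IsCompact K → (∀ w ∈ K, eval w a0 ≠ 0) →
      IsCompact (T ∩ pr ⁻¹' K) := by
    intro K hK hKa
    rcases K.eq_empty_or_nonempty with rfl | hKne
    · simp
    refine Metric.isCompact_of_isClosed_isBounded ?_ ?_
    · rw [← closure_subset_iff_isClosed]
      intro z hz
      have hzK : pr z ∈ K := by
        have h1 : closure (T ∩ pr ⁻¹' K) ⊆ pr ⁻¹' K :=
          closure_minimal inter_subset_right (hK.isClosed.preimage hpr)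
        exact h1 hz
      have hzP : ∀ i, eval z (P i) = y₀ i := by
        intro i
        have h1 : IsClosed {z : Cm n | eval z (P i) = y₀ i} :=
          isClosed_eq (MvPolynomial.continuous_eval (P i)) continuous_const
        have h2 : closure (T ∩ pr ⁻¹' K) ⊆ {z : Cm n | eval z (P i) = y₀ i} :=
          closure_minimal (fun y hy => (hTZ hy.1).1 i) h1
        exact h2 hz
      have hzZ : z ∈ Z := ⟨hzP, hKa _ hzK⟩
      refine ⟨?_, hzK⟩
      have h3 : IsPreconnected (insert z T) := by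
        refine hconn.subset_closure (subset_insert _ _) ?_
        rintro y (rfl | hy)
        · exact closure_mono inter_subset_left hz
        · exact subset_closure hy
      have h4 : insert z T ⊆ Z := insert_subset hzZ hTZ
      exact h3.subset_connectedComponentIn (mem_insert_of_mem _ hζ₁T) h4 (mem_insert _ _)
    · obtain ⟨w₁, hw₁, hmin⟩ := hK.exists_isMinOn hKne
        (f := fun w => ‖eval w a0‖) (MvPolynomial.continuous_eval a0).norm.continuousOn
      have hδ : 0 < ‖eval w₁ a0‖ := norm_pos_iff.2 (hKa w₁ hw₁)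
      obtain ⟨M, hM⟩ := hK.isBounded.exists_norm_le
      rw [isBounded_iff_forall_norm_le]
      refine ⟨(A + C * Y ^ s) * (1 + M) ^ (max s s1) / ‖eval w₁ a0‖, fun z hz => ?_⟩
      have h1 := hb3 z (hTZ hz.1)
      have h2 : ‖eval w₁ a0‖ ≤ ‖eval (pr z) a0‖ := hmin hz.2
      have h3 : ‖pr z‖ ≤ M := hM _ hz.2
      rw [le_div_iff₀ hδ]
      calc ‖z‖ * ‖eval w₁ a0‖ ≤ (1 + ‖z‖) * ‖eval (pr z) a0‖ :=
            mul_le_mul (by linarith) h2 (norm_nonneg _) (by positivity)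
        _ ≤ (A + C * Y ^ s) * (1 + ‖pr z‖) ^ (max s s1) := h1
        _ ≤ _ := by
            refine mul_le_mul_of_nonneg_left ?_ (by positivity)
            exact pow_le_pow_left₀ (by positivity) (by linarith) _
  refine ⟨{ T := T, pr := pr, a0 := a0, σ := σ
            a0_ne := fun h => ?_
            pr_cont := hpr
            conn := hconn
            off := fun z hz => (hTZ hz).2
            sec := fun z hz => hσ0 z (hTZ hz)
            sec_ev := hσT
            sec_inv := fun z hz => ?_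
            proper := hprop
            deg := D
            fin := fun w hw => ?_
            s := s + max s s1 * t
            K := C * Y ^ s + C * Y ^ s * C2 * (A + C * Y ^ s) ^ t
            K_nn := by positivity
            bd := fun z hz j => ?_
            k := 1 + t
            dbd := fun z hz => ?_ }, hζ₁T, fun z hz i => (hTZ hz).1 i, fun z => rfl, rfl⟩
  · exact hζ₁Z.2 (by rw [h, map_zero])
  · have h1 := ht3 z (hZd z (hTZ hz))
    rw [eventually_nhdsWithin_iff]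
    filter_upwards [h1] with y h2 hy
    rw [hZR y (hTZ hy).1] at h2
    exact h2
  · have hw' : eval (mk e y₀ w) a ≠ 0 := by
      have := eval_res e y₀ a w
      rw [← this]; exact hw
    obtain ⟨h1, h2⟩ := hc2' _ hw'
    have hsub : T ∩ pr ⁻¹' {w} ⊆ {z : Cm n | RR R z = mk e y₀ w} := by
      rintro z ⟨hz, hzw⟩
      rw [Set.mem_ofPred_eq, hZR z (hTZ hz).1]
      rw [show pr z = w from hzw]
    exact ⟨h1.subset hsub, (Set.ncard_le_ncard hsub h1).trans h2⟩
  · refine (hb1 z (hTZ hz) j).trans ?_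
    refine mul_le_mul ?_ (C1.pw _ (Nat.le_add_right _ _)) (by positivity) (by positivity)
    exact le_add_of_nonneg_right (by positivity)
  · refine (hb5 z (hTZ hz)).trans ?_
    refine mul_le_mul_of_nonneg_right ?_ (by positivity)
    exact le_add_of_nonneg_left (by positivity)

/-- existence of the sheet -/
theorem sheet_of (e : Fin n ≃ Fin N ⊕ Fin m) (P : Fin N → MvPolynomial (Fin n) ℂ)
    (π : Fin m → MvPolynomial (Fin n) ℂ) (hdet : (JP (RP e P π)).det ≠ 0) :
    ∃ a : MvPolynomial (Fin n) ℂ, a ≠ 0 ∧ ∀ ζ₁ : Cm n, eval (RR (RP e P π) ζ₁) a ≠ 0 →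
      ∃ S : Sheet n m, ζ₁ ∈ S.T ∧ (∀ z ∈ S.T, ∀ i, eval z (P i) = eval ζ₁ (P i)) ∧
        ∀ z, S.pr z = fun j => eval z (π j) := by
  obtain ⟨a, ha, s, D, C, hC, hc1, hc2⟩ := C1.c1 (RP e P π) hdet
  refine ⟨a, ha, fun ζ₁ hζ₁ => ?_⟩
  obtain ⟨S, h1, h2, h3, -⟩ := sheet_of' e P π a s D C hC hc1 hc2 ζ₁ hζ₁
  exact ⟨S, h1, h2, h3⟩

/-! ### Choice of the projection -/

/-- a linear form as a polynomial -/
def lin (ℓ : Cm n →ₗ[ℂ] ℂ) : MvPolynomial (Fin n) ℂ := ∑ i, C (ℓ (Pi.single i 1)) * X i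

theorem eval_lin (ℓ : Cm n →ₗ[ℂ] ℂ) (z : Cm n) : eval z (lin ℓ) = ℓ z := by
  have h : z = ∑ i, z i • (Pi.single i (1 : ℂ) : Cm n) := by
    funext j
    simp [Finset.sum_apply, Pi.single_apply]
  conv_rhs => rw [h, map_sum]
  simp [lin, mul_comm]

theorem pderiv_lin (ℓ : Cm n →ₗ[ℂ] ℂ) (j : Fin n) :
    pderiv j (lin ℓ) = C (ℓ (Pi.single j 1)) := by
  rw [lin, map_sum, Finset.sum_eq_single j]
  · rw [pderiv_C_mul, pderiv_X_self, mul_one]
  · intro b _ hb
    rw [pderiv_C_mul, pderiv_X_of_ne hb, mul_zero]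
  · simp

theorem exists_proj (P : Fin N → MvPolynomial (Fin n) ℂ) (ζ : Cm n)
    (hP : Function.Surjective (fderiv ℂ (fun ζ : Cm n => fun i => eval ζ (P i)) ζ)) :
    ∃ m : ℕ, N + m = n ∧ ∃ (e : Fin n ≃ Fin N ⊕ Fin m) (π : Fin m → MvPolynomial (Fin n) ℂ),
      (JP (RP e P π)).det ≠ 0 ∧ ∀ j, ∃ ℓ : Cm n →ₗ[ℂ] ℂ, π j = lin ℓ := by
  set D : Cm n →ₗ[ℂ] Cm N := (fderiv ℂ (fun ζ : Cm n => fun i => eval ζ (P i)) ζ).toLinearMap
    with hD
  have hDs : Function.Surjective D := hP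
  have hDv : ∀ v k, D v k = ∑ j, eval ζ (pderiv j (P k)) * v j := by
    intro v k
    have h1 : HasFDerivAt (fun ζ : Cm n => fun i => eval ζ (P i))
        (ContinuousLinearMap.pi fun i => ∑ j, eval ζ (pderiv j (P i)) •
          (ContinuousLinearMap.proj j : Cm n →L[ℂ] ℂ)) ζ :=
      hasFDerivAt_pi.2 fun i => hasFDerivAt_eval (P i) ζ
    rw [hD, h1.fderiv]
    simp
  have hrk := LinearMap.finrank_range_add_finrank_ker D
  rw [LinearMap.range_eq_top.2 hDs, finrank_top, Module.finrank_fin_fun,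
    Module.finrank_fin_fun] at hrk
  refine ⟨Module.finrank ℂ (LinearMap.ker D), hrk, ?_⟩
  set m := Module.finrank ℂ (LinearMap.ker D) with hm
  obtain ⟨q, hq⟩ := LinearMap.exists_leftInverse_of_injective (LinearMap.ker D).subtype
    (LinearMap.ker_eq_bot.2 (Subtype.val_injective))
  let E : LinearMap.ker D ≃ₗ[ℂ] (Fin m → ℂ) := LinearEquiv.ofFinrankEq _ _ (by
    rw [Module.finrank_fin_fun])
  let ℓ : Fin m → Cm n →ₗ[ℂ] ℂ := fun j => (LinearMap.proj j).comp (E.toLinearMap.comp q)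
  let e : Fin n ≃ Fin N ⊕ Fin m := (finCongr hrk.symm).trans finSumFinEquiv.symm
  refine ⟨e, fun j => lin (ℓ j), ?_, fun j => ⟨ℓ j, rfl⟩⟩
  intro hdet
  have h0 : (J (RP e P fun j => lin (ℓ j)) ζ).det = 0 := by rw [J_det, hdet, map_zero]
  obtain ⟨x, hx, hJ⟩ := Matrix.exists_mulVec_eq_zero_iff.2 h0
  apply hx
  have hJi : ∀ i, ∑ j, eval ζ (pderiv j (RP e P (fun j => lin (ℓ j)) i)) * x j = 0 :=
    fun i => congrFun hJ i
  have hDx : D x = 0 := by
    funext k
    rw [hDv]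
    have h1 := hJi (e.symm (Sum.inl k))
    simpa [RP] using h1
  have hℓx : ∀ j, ℓ j x = 0 := by
    intro j
    have h1 := hJi (e.symm (Sum.inr j))
    have h2 : RP e P (fun j => lin (ℓ j)) (e.symm (Sum.inr j)) = lin (ℓ j) := by simp [RP]
    rw [h2] at h1
    simp only [pderiv_lin, eval_C] at h1
    rw [← eval_lin (ℓ j) x]
    rw [← h1, lin, map_sum]
    exact Finset.sum_congr rfl fun i _ => by rw [map_mul, eval_C, eval_X]
  have hqx : q x = 0 := by
    have h1 : E (q x) = 0 := funext fun j => hℓx j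
    exact (LinearEquiv.map_eq_zero_iff E).1 h1
  have h2 : q ((LinearMap.ker D).subtype ⟨x, hDx⟩) = ⟨x, hDx⟩ :=
    congrArg (fun T : LinearMap.ker D →ₗ[ℂ] LinearMap.ker D => T ⟨x, hDx⟩) hq
  have h3 : (⟨x, hDx⟩ : LinearMap.ker D) = 0 := by
    rw [← h2]; exact hqx
  exact congrArg Subtype.val h3

end Ex

/-- **EX.** -/
theorem exists_sheet {n N : ℕ} (P : Fin N → MvPolynomial (Fin n) ℂ)
    (hP : ∃ ζ, Function.Surjective (fderiv ℂ (fun ζ : Cm n => fun i => eval ζ (P i)) ζ)) :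
    ∃ m, N + m = n ∧ ∃ b : MvPolynomial (Fin n) ℂ, b ≠ 0 ∧ ∀ ζ₁, eval ζ₁ b ≠ 0 →
      ∃ S : Sheet n m, ζ₁ ∈ S.T ∧ (∀ z ∈ S.T, ∀ i, eval z (P i) = eval ζ₁ (P i)) ∧
        Differentiable ℂ S.pr := by
  obtain ⟨ζ, hζ⟩ := hP
  obtain ⟨m, hm, e, π, hdet, hπ⟩ := Ex.exists_proj P ζ hζ
  obtain ⟨a, ha, h⟩ := Ex.sheet_of e P π hdet
  refine ⟨m, hm, aeval (Ex.RP e P π) a, ?_, fun ζ₁ hζ₁ => ?_⟩
  · intro h0
    apply ha
    refine C1.c1_inj (Ex.RP e P π) hdet a fun z => ?_
    rw [← C1.eval_aeval, h0, map_zero]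
  · rw [C1.eval_aeval] at hζ₁
    obtain ⟨S, h1, h2, h3⟩ := h ζ₁ hζ₁
    refine ⟨S, h1, h2, ?_⟩
    have : S.pr = fun z j => eval z (π j) := funext h3
    rw [this, differentiable_pi]
    exact fun j => H5.C2.differentiable_eval (π j)

end Vale.Agent.P284.H913
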