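import Vale.Agent.P284.H913.TubeC
import Vale.Agent.P281.MF.Hol
import Vale.Agent.P272.K.INT.Part
import Mathlib.Analysis.Calculus.InverseFunctionTheorem.ContDiff

/-!
# P284, theorem A, tube lemma: adapted local coordinates; the tube lemma
-/

open scoped Topology ENNReal Manifold ContDiff
open Filter Set Metric MeasureTheory

noncomputable section

namespace Vale.Agent.P284.H913.Tube

open Vale.Agent.P272.K Vale.Agent.P284.H913.Ex

section loc
variable {n N m : ℕ}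

theorem holo_contDiffAt' {f : Cm n → Cm N} {z : Cm n}
    (hh : ∀ᶠ y in 𝓝 z, DifferentiableAt ℂ f y) : ContDiffAt ℂ 1 f z := by
  obtain ⟨r, hr, hball⟩ := Metric.eventually_nhds_iff_ball.1 hh
  exact (Vale.Agent.P281.MF.analyticAt_of_differentiableOn isOpen_ball
    (fun y hy => (hball y hy).differentiableWithinAt) (mem_ball_self hr)).contDiffAt

theorem loc_coord (e₀ : Fin n ≃ Fin N ⊕ Fin m) {f : Cm n → Cm N} {z₀ : Cm n} {ρ : ℝ} (hρ : 0 < ρ)
    (hf : ∀ z ∈ ball z₀ ρ, DifferentiableAt ℂ f z)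
    (hs : Function.Surjective (fderiv ℂ f z₀)) :
    ∃ φ : OpenPartialHomeomorph (Cm n) (Cm n), z₀ ∈ φ.source ∧ φ.source ⊆ ball z₀ ρ ∧
      (∀ z ∈ φ.source, yp e₀ (φ z) = f z) ∧ (∀ z ∈ φ.source, ContDiffAt ℂ 1 φ z) ∧
      (∀ w ∈ φ.target, ContDiffAt ℂ 1 φ.symm w) ∧
      ∃ C : ℝ, ∀ w ∈ φ.target, ‖fderiv ℂ φ.symm w‖ ≤ C := by
  have hcard : n = N + m := by simpa using Fintype.card_congr e₀
  set D : Cm n →ₗ[ℂ] Cm N := (fderiv ℂ f z₀).toLinearMap with hD
  have hDs : Function.Surjective D := hs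
  have hrk := LinearMap.finrank_range_add_finrank_ker D
  rw [LinearMap.range_eq_top.2 hDs, finrank_top, Module.finrank_fin_fun,
    Module.finrank_fin_fun] at hrk
  obtain ⟨q, hq⟩ := LinearMap.exists_leftInverse_of_injective (LinearMap.ker D).subtype
    (LinearMap.ker_eq_bot.2 (Subtype.val_injective))
  let E : LinearMap.ker D ≃ₗ[ℂ] (Fin m → ℂ) := LinearEquiv.ofFinrankEq _ _ (by
    rw [Module.finrank_fin_fun]; omega)
  let L : Cm n →L[ℂ] Cm m := LinearMap.toContinuousLinearMap (E.toLinearMap.comp q)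
  let G : Cm n → Cm n := fun z => Ex.mk e₀ (f z) (L z)
  have hGd : ∀ z ∈ ball z₀ ρ, ContDiffAt ℂ 1 G z := by
    intro z hz
    have h1 : ContDiffAt ℂ 1 f z := holo_contDiffAt'
      ((isOpen_ball.eventually_mem hz).mono fun y hy => hf y hy)
    have h2 : ContDiffAt ℂ 1 L z := L.contDiff.contDiffAt
    rw [contDiffAt_pi]
    intro i
    change ContDiffAt ℂ 1 (fun z => Sum.elim (f z) (L z) (e₀ i)) z
    rcases e₀ i with k | j
    · exact contDiffAt_pi.1 h1 k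
    · exact contDiffAt_pi.1 h2 j
  let G' : Cm n →L[ℂ] Cm n := ContinuousLinearMap.pi fun i =>
    Sum.elim (fun k => (ContinuousLinearMap.proj k : Cm N →L[ℂ] ℂ).comp (fderiv ℂ f z₀))
      (fun j => (ContinuousLinearMap.proj j : Cm m →L[ℂ] ℂ).comp L) (e₀ i)
  have hz₀b : z₀ ∈ ball z₀ ρ := mem_ball_self hρ
  have hG' : HasFDerivAt G G' z₀ := by
    rw [hasFDerivAt_pi']
    intro i
    have h1 := (hf z₀ hz₀b).hasFDerivAt
    have h2 : HasFDerivAt (fun z => L z) L z₀ := L.hasFDerivAt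
    change HasFDerivAt (fun z => Sum.elim (f z) (L z) (e₀ i)) (Sum.elim (fun k =>
      (ContinuousLinearMap.proj k : Cm N →L[ℂ] ℂ).comp (fderiv ℂ f z₀))
      (fun j => (ContinuousLinearMap.proj j : Cm m →L[ℂ] ℂ).comp L) (e₀ i)) z₀
    rcases e₀ i with k | j
    · exact (hasFDerivAt_pi'.1 h1) k
    · exact (hasFDerivAt_pi'.1 h2) j
  have hinj : Function.Injective G' := by
    rw [injective_iff_map_eq_zero]
    intro v hv
    have hDv : D v = 0 := by
      funext k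
      have h1 : G' v (e₀.symm (Sum.inl k)) = 0 := congrFun hv _
      change fderiv ℂ f z₀ v k = 0
      simpa [G'] using h1
    have hLv : L v = 0 := by
      funext k
      have h1 : G' v (e₀.symm (Sum.inr k)) = 0 := congrFun hv _
      simpa [G'] using h1
    have hqx : q v = 0 := (LinearEquiv.map_eq_zero_iff E).1 hLv
    have h2 : q ((LinearMap.ker D).subtype ⟨v, hDv⟩) = ⟨v, hDv⟩ :=
      congrArg (fun T : LinearMap.ker D →ₗ[ℂ] LinearMap.ker D => T ⟨v, hDv⟩) hq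
    have h3 : (⟨v, hDv⟩ : LinearMap.ker D) = 0 := by
      rw [← h2]; exact hqx
    exact congrArg Subtype.val h3
  let A : Cm n ≃L[ℂ] Cm n :=
    (LinearEquiv.ofInjectiveEndo G'.toLinearMap hinj).toContinuousLinearEquiv
  have hA : HasFDerivAt G (A : Cm n →L[ℂ] Cm n) z₀ := by
    refine hG'.congr_fderiv ?_
    ext v
    rfl
  have hc : ContDiffAt ℂ 1 G z₀ := hGd z₀ hz₀b
  let φ₀ := hc.toOpenPartialHomeomorph G hA one_ne_zero
  have hφ₀ : ∀ y, φ₀ y = G y := fun y => rfl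
  have hz : z₀ ∈ φ₀.source := hc.mem_toOpenPartialHomeomorph_source hA one_ne_zero
  have hz' : G z₀ ∈ φ₀.target := by
    rw [← hφ₀ z₀]; exact φ₀.map_source hz
  have hinv : ContDiffAt ℂ 1 φ₀.symm (G z₀) := hc.to_localInverse hA one_ne_zero
  have e1 : φ₀.symm (G z₀) = z₀ := by rw [← hφ₀ z₀]; exact φ₀.left_inv hz
  have h2 : ∀ᶠ w in 𝓝 (G z₀), ContDiffAt ℂ 1 φ₀.symm w := hinv.eventually (by simp)
  have h3 : ∀ᶠ w in 𝓝 (G z₀), ‖fderiv ℂ φ₀.symm w‖ < ‖fderiv ℂ φ₀.symm (G z₀)‖ + 1 := by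
    have hcf : ContinuousAt (fderiv ℂ φ₀.symm) (G z₀) :=
      (hinv.fderiv_right (m := 0) (by simp)).continuousAt
    exact hcf.norm.eventually_lt continuousAt_const (lt_add_one _)
  have h4 : ∀ᶠ w in 𝓝 (G z₀), φ₀.symm w ∈ ball z₀ ρ := by
    have : ContinuousAt φ₀.symm (G z₀) := hinv.continuousAt
    refine this.preimage_mem_nhds ?_
    rw [e1]
    exact isOpen_ball.mem_nhds hz₀b
  obtain ⟨S, hS, hSo, hSm⟩ := _root_.eventually_nhds_iff.1 (h2.and (h3.and h4))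
  let φ : OpenPartialHomeomorph (Cm n) (Cm n) := (φ₀.symm.restrOpen S hSo).symm
  have hφc : ∀ z, φ z = G z := fun z => rfl
  have hφs : φ.source = φ₀.source ∩ φ₀ ⁻¹' S := rfl
  have hφt : φ.target = φ₀.target ∩ S := rfl
  have hφsy : ∀ w, φ.symm w = φ₀.symm w := fun w => rfl
  have hsub : φ.source ⊆ ball z₀ ρ := by
    rw [hφs]
    rintro z ⟨hz1, hz2⟩
    have := (hS _ hz2).2.2
    rwa [φ₀.left_inv hz1] at this
  refine ⟨φ, ?_, hsub, ?_, ?_, ?_, ‖fderiv ℂ φ₀.symm (G z₀)‖ + 1, ?_⟩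
  · rw [hφs]; exact ⟨hz, hSm⟩
  · intro z _
    rw [hφc]
    exact yp_mk e₀ _ _
  · intro z hz
    exact hGd z (hsub hz)
  · intro w hw
    rw [hφt] at hw
    exact (hS w hw.2).1
  · intro w hw
    rw [hφt] at hw
    exact (hS w hw.2).2.1.le

end loc

variable {n : ℕ} {X : Type} [TopologicalSpace X] [ChartedSpace (Cm n) X]
  {E : Type} [TopologicalSpace E] {N m : ℕ}

/-- near `y` the derivative of `u j` along the fibre of `F` tends to `0` in `L¹` -/
def VD (p : E → X) (F : E → Cm N) (u : ℕ → E → ℂ) (y : E) : Prop :=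
  ∃ e : Chart n X, At e (p y) ∧ ∃ (O : Set E) (f : Cm n → Cm N) (h : ℕ → Cm n → ℂ) (ρ : ℝ)
    (g : ℕ → Cm n → ℝ≥0∞), IsOpen O ∧ y ∈ O ∧ 0 < ρ ∧ (∀ y' ∈ O, F y' = f (e (p y'))) ∧
    (∀ j, ∀ y' ∈ O, u j y' = h j (e (p y'))) ∧
    (∀ z ∈ ball (e (p y)) ρ, DifferentiableAt ℂ f z) ∧
    Function.Surjective (fderiv ℂ f (e (p y))) ∧
    (∀ j, ∀ z ∈ ball (e (p y)) ρ, ContDiffAt ℝ 1 (h j) z) ∧ (∀ j, Measurable (g j)) ∧
    (∀ j, ∀ z ∈ ball (e (p y)) ρ, ∀ v, fderiv ℂ f z v = 0 →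
      ‖fderiv ℝ (h j) z v‖ₑ ≤ g j z * ‖v‖ₑ) ∧
    Tendsto (fun j => ∫⁻ z in ball (e (p y)) ρ, g j z) atTop (𝓝 0)

variable [IsManifold 𝓘(ℂ, Cm n) ω X]

theorem box_of_vd {p : E → X} (hp : IsCoveringMap p) (e₀ : Fin n ≃ Fin N ⊕ Fin m)
    {F : E → Cm N} {u : ℕ → E → ℂ} {y : E} (hvd : VD (n := n) p F u y) : Box p F u e₀ y := by
  classical
  obtain ⟨e, he, O, f, h, ρ, g, hO, hyO, hρ, hFf, huh, hfd, hfs, hh, hgm, hgv, hgT⟩ := hvd
  obtain ⟨φ, hz₀, hφρ, hφf, hφd, hφsd, C, hC⟩ := loc_coord e₀ hρ hfd hfs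
  obtain ⟨l, hyl, hl⟩ := hp.isLocalHomeomorph y
  obtain ⟨O', hO', hzO', hO's, C', hC', htr⟩ := transfer φ hz₀
    (fun z hz => (hφd z hz).restrict_scalars ℝ) isOpen_ball (mem_ball_self hρ)
  let ψ : OpenPartialHomeomorph E (Cm n) := (l.trans e).trans φ
  have hψc : ∀ y', ψ y' = φ (e (p y')) := fun y' => by rw [hl]; rfl
  have hψs : ∀ y', y' ∈ ψ.source ↔ y' ∈ l.source ∧ p y' ∈ e.source ∧ e (p y') ∈ φ.source := by
    intro y'
    rw [hl]
    simp [ψ, and_assoc]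
  have hyψ : y ∈ ψ.source := (hψs y).2 ⟨hyl, he.2, hz₀⟩
  set w₀ := ψ y with hw₀
  have hw₀t : w₀ ∈ ψ.target := ψ.map_source hyψ
  have n1 : ∀ᶠ w in 𝓝 w₀, w ∈ ψ.target := ψ.open_target.eventually_mem hw₀t
  have n2 : ∀ᶠ w in 𝓝 w₀, ψ.symm w ∈ O := by
    have hc := ψ.continuousAt_symm hw₀t
    refine hc.preimage_mem_nhds ?_
    rw [hw₀, ψ.left_inv hyψ]
    exact hO.mem_nhds hyO
  have n3 : ∀ᶠ w in 𝓝 w₀, φ.symm w ∈ O' := by
    have h1 : w₀ ∈ φ.target := by rw [hw₀, hψc]; exact φ.map_source hz₀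
    have hc := φ.continuousAt_symm h1
    refine hc.preimage_mem_nhds ?_
    rw [hw₀, hψc, φ.left_inv hz₀]
    exact hO'.mem_nhds hzO'
  obtain ⟨R, hR, hball⟩ := Metric.eventually_nhds_iff_ball.1 (n1.and (n2.and n3))
  let β : OpenPartialHomeomorph E (Cm n) := (ψ.symm.restrOpen (ball w₀ R) isOpen_ball).symm
  have hβc : ∀ y', β y' = φ (e (p y')) := hψc
  have hβs : β.source = ψ.source ∩ ψ ⁻¹' ball w₀ R := rfl
  have hβt0 : β.target = ψ.target ∩ ball w₀ R := rfl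
  have hβt : β.target = ball w₀ R := by
    rw [hβt0]; exact inter_eq_right.2 fun w hw => (hball w hw).1
  have hβsy : ∀ w, β.symm w = ψ.symm w := fun w => rfl
  have hyβ : y ∈ β.source := by rw [hβs]; exact ⟨hyψ, mem_ball_self hR⟩
  have hβy : β y = w₀ := rfl
  -- facts on the source
  have hsrc : ∀ y' ∈ β.source, y' ∈ O ∧ p y' ∈ e.source ∧ e (p y') ∈ φ.source ∧
      e (p y') ∈ O' ∧ φ.symm (β y') = e (p y') := by
    intro y' hy'
    rw [hβs] at hy'
    obtain ⟨h1, h2⟩ := hy'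
    have h3 := hball _ h2
    obtain ⟨h4, h5, h6⟩ := (hψs y').1 h1
    have e1 : φ.symm (ψ y') = e (p y') := by rw [hψc, φ.left_inv h6]
    refine ⟨?_, h5, h6, ?_, e1⟩
    · have := h3.2.1; rwa [ψ.left_inv h1] at this
    · have := h3.2.2; rwa [e1] at this
  have htgt : ∀ w ∈ β.target, β.symm w ∈ β.source ∧ e (p (β.symm w)) = φ.symm w ∧
      p (β.symm w) = e.symm (φ.symm w) ∧ w ∈ φ.target ∧ φ.symm w ∈ O' := by
    intro w hw
    have h1 := β.map_target hw
    obtain ⟨h2, h3, h4, h5, h6⟩ := hsrc _ h1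
    rw [β.right_inv hw] at h6
    refine ⟨h1, h6.symm, ?_, ?_, ?_⟩
    · rw [h6, e.left_inv h3]
    · have h7 := φ.map_source h4
      rwa [← hβc, β.right_inv hw] at h7
    · rw [h6]; exact h5
  have hnice : Nice p β := by
    intro y' hy' e' he'
    obtain ⟨h2, h3, h4, h5, h6⟩ := hsrc _ hy'
    have hAt : At e (p y') := ⟨he.1, h3⟩
    constructor
    · have h7 : ∀ᶠ w in 𝓝 (β y'), e' (p (β.symm w)) = e' (e.symm (φ.symm w)) :=
        (β.open_target.eventually_mem (β.map_source hy')).mono fun w hw => by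
          rw [(htgt w hw).2.2.1]
      refine ContDiffAt.congr_of_eventuallyEq ?_ h7
      have h8 : ContDiffAt ℝ 1 (fun z => e' (e.symm z)) (φ.symm (β y')) := by
        rw [h6]
        exact ((INT.transition_contDiffAt hAt he').of_le le_top).restrict_scalars ℝ
      exact h8.comp (β y') ((hφsd _ (htgt _ (β.map_source hy')).2.2.2.1).restrict_scalars ℝ)
    · refine ⟨fun z => φ (e (e'.symm z)), ?_, ?_⟩
      · have h7 : ∀ᶠ y'' in 𝓝 y', p y'' ∈ e'.source :=
          hp.continuous.continuousAt.preimage_mem_nhds (e'.open_source.mem_nhds he'.2)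
        refine h7.mono fun y'' hy'' => ?_
        change β y'' = φ (e (e'.symm (e' (p y''))))
        rw [e'.left_inv hy'', hβc]
      · have h8 : ContDiffAt ℝ 1 φ ((fun z => e (e'.symm z)) (e' (p y'))) := by
          change ContDiffAt ℝ 1 φ (e (e'.symm (e' (p y'))))
          rw [e'.left_inv he'.2]
          exact (hφd _ h4).restrict_scalars ℝ
        exact h8.comp (e' (p y'))
          (((INT.transition_contDiffAt he' hAt).of_le le_top).restrict_scalars ℝ)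
  have hu : ∀ j, ∀ w ∈ β.target, (fun w => u j (β.symm w)) =ᶠ[𝓝 w] fun w => h j (φ.symm w) := by
    intro j w hw
    refine (β.open_target.eventually_mem hw).mono fun w' hw' => ?_
    obtain ⟨h1, h2, -⟩ := htgt w' hw'
    change u j (β.symm w') = h j (φ.symm w')
    rw [huh j _ (hsrc _ h1).1, h2]
  have hb : ∀ w ∈ β.target, φ.symm w ∈ ball (e (p y)) ρ := fun w hw =>
    (hO's (htgt w hw).2.2.2.2).1
  let Ψ : Cm n → Cm n := β.target.piecewise φ.symm fun _ => e (p y)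
  have hΨm : Measurable Ψ := by
    refine ContinuousOn.measurable_piecewise ?_ continuousOn_const β.open_target.measurableSet
    exact fun w hw => (hφsd w (htgt w hw).2.2.2.1).continuousAt.continuousWithinAt
  have hΨ : ∀ w ∈ β.target, Ψ w = φ.symm w := fun w hw => piecewise_eq_of_mem _ _ _ hw
  refine ⟨β, hnice, hyβ, R, hR, hβt, ?_, fun j w => ENNReal.ofReal C * g j (Ψ w), ?_, ?_, ?_, ?_⟩
  · intro y' hy'
    obtain ⟨h2, h3, h4, h5, h6⟩ := hsrc _ hy'
    rw [hβc, hφf _ h4, hFf _ h2]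
  · exact fun j => ((hgm j).comp hΨm).const_mul _
  · intro j w hw
    refine ContDiffAt.congr_of_eventuallyEq ?_ (hu j w hw)
    exact (hh j _ (hb w hw)).comp w ((hφsd w (htgt w hw).2.2.2.1).restrict_scalars ℝ)
  · intro j w hw τ
    have hd1 : DifferentiableAt ℂ φ.symm w :=
      (hφsd w (htgt w hw).2.2.2.1).differentiableAt one_ne_zero
    have hd2 := (hh j _ (hb w hw)).differentiableAt one_ne_zero
    have e1 : fderiv ℝ (fun w => u j (β.symm w)) w (inr e₀ τ) =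
        fderiv ℝ (h j) (φ.symm w) (fderiv ℂ φ.symm w (inr e₀ τ)) := by
      rw [(hu j w hw).fderiv_eq]
      have h1 := hd2.hasFDerivAt.comp w (hd1.hasFDerivAt.restrictScalars ℝ)
      have h2 : (fun w => h j (φ.symm w)) = h j ∘ φ.symm := rfl
      rw [h2, h1.fderiv]
      rfl
    have hv0 : fderiv ℂ f (φ.symm w) (fderiv ℂ φ.symm w (inr e₀ τ)) = 0 := by
      have h1 : HasFDerivAt (fun w => f (φ.symm w))
          ((fderiv ℂ f (φ.symm w)).comp (fderiv ℂ φ.symm w)) w :=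
        (hfd _ (hb w hw)).hasFDerivAt.comp w hd1.hasFDerivAt
      have h2 : (fun w => f (φ.symm w)) =ᶠ[𝓝 w] yp e₀ := by
        refine (β.open_target.eventually_mem hw).mono fun w' hw' => ?_
        have h3 := (htgt w' hw').2.2.2.1
        change f (φ.symm w') = yp e₀ w'
        rw [← hφf _ (φ.map_target h3), φ.right_inv h3]
      have h3 : HasFDerivAt (yp e₀) (ContinuousLinearMap.pi fun k : Fin N =>
          (ContinuousLinearMap.proj (e₀.symm (Sum.inl k)) : Cm n →L[ℂ] ℂ)) w :=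
        hasFDerivAt_pi'.2 fun k => (ContinuousLinearMap.proj (R := ℂ) (φ := fun _ : Fin n => ℂ)
          (e₀.symm (Sum.inl k))).hasFDerivAt
      have h4 := (h1.congr_of_eventuallyEq h2.symm).unique h3
      have h5 := congrArg (fun T : Cm n →L[ℂ] Cm N => T (inr e₀ τ)) h4
      change fderiv ℂ f (φ.symm w) (fderiv ℂ φ.symm w (inr e₀ τ)) = _ at h5
      rw [h5]
      funext k
      simp [inr]
    have hvn : ‖fderiv ℂ φ.symm w (inr e₀ τ)‖ ≤ C * ‖τ‖ := by
      calc ‖fderiv ℂ φ.symm w (inr e₀ τ)‖ ≤ ‖fderiv ℂ φ.symm w‖ * ‖inr e₀ τ‖ :=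
            ContinuousLinearMap.le_opNorm _ _
        _ ≤ C * ‖τ‖ := mul_le_mul (hC w (htgt w hw).2.2.2.1) (inr_norm e₀ τ) (norm_nonneg _)
            ((norm_nonneg _).trans (hC w (htgt w hw).2.2.2.1))
    have hC0 : 0 ≤ C := (norm_nonneg _).trans (hC w (htgt w hw).2.2.2.1)
    change _ ≤ ENNReal.ofReal C * g j (Ψ w) * ‖τ‖ₑ
    rw [e1, hΨ w hw]
    refine (hgv j _ (hb w hw) _ hv0).trans ?_
    have h6 : ‖fderiv ℂ φ.symm w (inr e₀ τ)‖ₑ ≤ ENNReal.ofReal C * ‖τ‖ₑ := by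
      rw [← ofReal_norm, ← ofReal_norm, ← ENNReal.ofReal_mul hC0]
      exact ENNReal.ofReal_le_ofReal hvn
    calc g j (φ.symm w) * ‖fderiv ℂ φ.symm w (inr e₀ τ)‖ₑ
        ≤ g j (φ.symm w) * (ENNReal.ofReal C * ‖τ‖ₑ) := by gcongr
      _ = _ := by ring
  · let A : Set (Cm n) := φ.source ∩ φ ⁻¹' β.target
    have hA : φ '' A = β.target := by
      ext w
      constructor
      · rintro ⟨z, hz, rfl⟩; exact hz.2
      · intro hw
        have h1 := (htgt w hw).2.2.2.1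
        exact ⟨φ.symm w, ⟨φ.map_target h1, by rw [mem_preimage, φ.right_inv h1]; exact hw⟩,
          φ.right_inv h1⟩
    have hAO : A ⊆ O' := by
      rintro z ⟨hz1, hz2⟩
      have := (htgt _ hz2).2.2.2.2
      rwa [φ.left_inv hz1] at this
    have hAm : MeasurableSet A := (φ.isOpen_inter_preimage β.open_target).measurableSet
    have hle : ∀ j, ∫⁻ w in β.target, ENNReal.ofReal C * g j (Ψ w) ≤
        ENNReal.ofReal C * (C' * ∫⁻ z in ball (e (p y)) ρ, g j z) := by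
      intro j
      rw [lintegral_const_mul' _ _ ENNReal.ofReal_ne_top]
      gcongr
      rw [setLIntegral_congr_fun β.open_target.measurableSet (fun w hw => by rw [hΨ w hw])]
      rw [← hA]
      refine (htr (g j) A hAO hAm).trans ?_
      gcongr
      exact fun z hz => (hO's (hAO hz)).1
    have h0 : Tendsto (fun j => ENNReal.ofReal C * (C' * ∫⁻ z in ball (e (p y)) ρ, g j z))
        atTop (𝓝 0) := by
      have t1 := ENNReal.Tendsto.const_mul hgT (Or.inr hC')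
      have t2 := ENNReal.Tendsto.const_mul t1 (Or.inr (ENNReal.ofReal_ne_top (r := C)))
      simpa using t2
    exact tendsto_of_tendsto_of_tendsto_of_le_of_le tendsto_const_nhds h0 (fun _ => bot_le) hle

/-- **tube lemma** -/
theorem tube {p : E → X} (hp : IsCoveringMap p) {F : E → Cm N} {u : ℕ → E → ℂ}
    {V : Set E} (hV : IsPreconnected V) {y₀ : Cm N} (hVF : ∀ y ∈ V, F y = y₀)
    (hb : ∀ y ∈ V, VD (n := n) p F u y) (T : E ≃ₜ E) (hT : ∀ y, p (T y) = p y)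
    (hTF : ∀ y, F (T y) = F y) {c : ℂ} (hTu : ∀ j y, u j (T y) = u j y + c) {x : E} (hx : x ∈ V)
    (hTx : T x ∈ V) : c = 0 := by
  have hN : N ≤ n := by
    obtain ⟨e, he, O, f, h, ρ, g, hO, hyO, hρ, hFf, huh, hfd, hfs, hh, hgm, hgv, hgT⟩ := hb x hx
    have h1 := LinearMap.finrank_range_le (fderiv ℂ f (e (p x))).toLinearMap
    rw [LinearMap.range_eq_top.2 hfs, finrank_top, Module.finrank_fin_fun,
      Module.finrank_fin_fun] at h1
    exact h1
  obtain ⟨m, hm⟩ := Nat.exists_eq_add_of_le hN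
  let e₀ : Fin n ≃ Fin N ⊕ Fin m := (finCongr hm).trans finSumFinEquiv.symm
  exact tube_box (e := e₀) hV hVF (fun y hy => box_of_vd hp e₀ (hb y hy)) T hT hTF hTu hx hTx

end Vale.Agent.P284.H913.Tube
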