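import Vale.Agent.P284.H894.V.Spec
import Vale.Agent.P260.H573.BlockF

/-!
# P284, block V18: a finitely generated amenable group with a finite dimensional real representation
of infinite image has a subgroup of finite index which maps onto `ℤ`.
-/

open scoped Pointwise
open Set

noncomputable section

namespace Vale.Agent.P284.H913.V

open Vale.Agent.P284.H894.V

universe u

theorem VirtIndicable.of_surj_int {G : Type*} [Group G] (φ : G →* Multiplicative ℤ)
    (hφ : Function.Surjective φ) : VirtIndicable G :=
  ⟨⊤, inferInstance, φ.comp (⊤ : Subgroup G).subtype, fun x => by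
    obtain ⟨g, hg⟩ := hφ x
    exact ⟨⟨g, Subgroup.mem_top g⟩, hg⟩⟩

theorem VirtIndicable.of_surjective {G S : Type*} [Group G] [Group S] (f : G →* S)
    (hf : Function.Surjective f) (h : VirtIndicable S) : VirtIndicable G := by
  obtain ⟨L, hL, φ, hφ⟩ := h
  refine ⟨L.comap f, ?_, φ.comp (f.subgroupComap L), ?_⟩
  · rw [Subgroup.finiteIndex_iff, Subgroup.index_comap_of_surjective L hf]
    exact hL.index_ne_zero
  · intro x
    obtain ⟨l, hl⟩ := hφ x
    obtain ⟨g, hg⟩ := hf l
    refine ⟨⟨g, ?_⟩, ?_⟩
    · rw [Subgroup.mem_comap, hg]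
      exact l.2
    · rw [MonoidHom.comp_apply, ← hl]
      congr 1
      exact Subtype.ext hg

theorem VirtIndicable.of_subgroup {G : Type*} [Group G] (H : Subgroup G) [hH : H.FiniteIndex]
    (h : VirtIndicable H) : VirtIndicable G := by
  obtain ⟨L, hL, φ, hφ⟩ := h
  have e := L.equivMapOfInjective H.subtype (Subgroup.subtype_injective H)
  refine ⟨L.map H.subtype, ?_, φ.comp e.symm.toMonoidHom, ?_⟩
  · rw [Subgroup.finiteIndex_iff, Subgroup.index_map_subtype]
    exact mul_ne_zero hL.index_ne_zero hH.index_ne_zero
  · exact hφ.comp e.symm.surjective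

/-- A finitely generated infinite abelian group maps onto `ℤ`. -/
theorem exists_surj_int (A : Type u) [CommGroup A] [Group.FG A] [Infinite A] :
    ∃ φ : A →* Multiplicative ℤ, Function.Surjective φ := by
  obtain ⟨ι, j, hι, hj, p, hp, e, ⟨f⟩⟩ := CommGroup.equiv_free_prod_prod_multiplicative_zmod A
  rcases isEmpty_or_nonempty j with hje | ⟨⟨j0⟩⟩
  · exfalso
    have : ∀ i, Finite (Multiplicative (ZMod (p i ^ e i))) := fun i => by
      have : NeZero (p i ^ e i) := ⟨pow_ne_zero _ (hp i).ne_zero⟩
      exact inferInstanceAs (Finite (ZMod (p i ^ e i)))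
    have : Finite ((j → Multiplicative ℤ) × ((i : ι) → Multiplicative (ZMod (p i ^ e i)))) :=
      inferInstance
    exact (Finite.of_equiv _ f.symm.toEquiv).not_infinite inferInstance
  · refine ⟨((Pi.evalMonoidHom (fun _ : j => Multiplicative ℤ) j0).comp
      (MonoidHom.fst _ _)).comp f.toMonoidHom, ?_⟩
    intro x
    refine ⟨f.symm (fun _ => x, 1), ?_⟩
    simp

/-- A finitely generated infinite solvable group is virtually indicable. -/
theorem virtIndicable_of_derived (d : ℕ) : ∀ (S : Type u) [Group S], Group.FG S → Infinite S →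
    derivedSeries S d = ⊥ → VirtIndicable S := by
  induction d with
  | zero =>
    intro S _ _ hi h
    exfalso
    rw [derivedSeries_zero] at h
    have := Subgroup.subsingleton_iff.1 (subsingleton_of_bot_eq_top h.symm)
    exact not_finite S
  | succ d ih =>
    intro S _ hfg hi h
    by_cases hab : Infinite (Abelianization S)
    · have : Group.FG (Abelianization S) :=
        Group.fg_of_surjective (f := Abelianization.of) (QuotientGroup.mk'_surjective _)
      obtain ⟨φ, hφ⟩ := exists_surj_int (Abelianization S)
      exact VirtIndicable.of_surj_int (φ.comp Abelianization.of)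
        (hφ.comp (QuotientGroup.mk'_surjective _))
    · have hfin : Finite (Abelianization S) := not_infinite_iff_finite.1 hab
      have hK : (commutator S).FiniteIndex := by
        rw [Subgroup.finiteIndex_iff_finite_quotient]
        exact hfin
      have hKfg : Group.FG (commutator S) := Subgroup.fg_of_index_ne_zero _
      have hKi : Infinite (commutator S) := by
        by_contra hcon
        have : Finite (commutator S) := not_infinite_iff_finite.1 hcon
        have : Finite S := by
          exact Finite.of_equiv _ (Subgroup.groupEquivQuotientProdSubgroup (s := commutator S)).symm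
        exact not_finite S
      have key : ∀ k, (derivedSeries (commutator S) k).map (commutator S).subtype ≤
          derivedSeries S (k + 1) := by
        intro k
        induction k with
        | zero =>
          rw [derivedSeries_zero, derivedSeries_one]
          intro x hx
          obtain ⟨y, -, rfl⟩ := hx
          exact y.2
        | succ k ihk =>
          rw [derivedSeries_succ, derivedSeries_succ S (k + 1), Subgroup.map_commutator]
          exact Subgroup.commutator_mono ihk ihk
      have hK0 : derivedSeries (commutator S) d = ⊥ := by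
        have h1 := key d
        rw [h, le_bot_iff, Subgroup.map_eq_bot_iff_of_injective _
          (Subgroup.subtype_injective _)] at h1
        exact h1
      exact VirtIndicable.of_subgroup (commutator S) (ih _ hKfg hKi hK0)

theorem folner_conv {A : Type*} [Group A] (h : Vale.Agent.P284.H894.G.Folner A) :
    Vale.Agent.P260.F.Folner A := by
  classical
  intro E ε hε
  obtain ⟨F, hF, hne, hb⟩ := h (E : Set A) E.finite_toSet ε hε
  refine ⟨hF.toFinset, by simpa using hne, fun g hg => ?_⟩
  have h1 := hb g (by exact_mod_cast hg)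
  have h2 : (((hF.toFinset.image (g * ·)) \ hF.toFinset : Finset A) : Set A) = (g • F) \ F := by
    ext x
    rw [Finset.coe_sdiff, Finset.coe_image, hF.coe_toFinset]
    rfl
  have h3 : ((hF.toFinset.image (g * ·)) \ hF.toFinset).card = ((g • F) \ F).ncard := by
    rw [← h2, Set.ncard_coe_finset]
  have h4 : hF.toFinset.card = F.ncard := by
    rw [← Set.ncard_coe_finset, hF.coe_toFinset]
  rw [h4]
  refine le_trans (le_of_eq ?_) h1
  rw [← h3]

/-- If the image of a subgroup of finite index is finite, the image is finite. -/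
theorem finite_range_of {G M : Type*} [Group G] [Group M] (f : G →* M) (H : Subgroup G)
    [H.FiniteIndex] (h : ((H.map f : Subgroup M) : Set M).Finite) : (Set.range f).Finite := by
  have h1 : (Set.range f) ⊆ Set.image2 (fun (q : G ⧸ H) (s : M) => f q.out * s) Set.univ
      ((H.map f : Subgroup M) : Set M) := by
    rintro _ ⟨g, rfl⟩
    refine ⟨(g : G ⧸ H), mem_univ _, f ((g : G ⧸ H).out⁻¹ * g), ?_, ?_⟩
    · refine ⟨_, ?_, rfl⟩
      have h2 : ((g : G ⧸ H).out : G ⧸ H) = (g : G ⧸ H) := QuotientGroup.out_eq' _
      exact QuotientGroup.eq.1 h2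
    · simp only
      rw [← map_mul, mul_inv_cancel_left]
  have : Finite (G ⧸ H) := Subgroup.finiteIndex_iff_finite_quotient.1 inferInstance
  exact (Set.Finite.image2 _ Set.finite_univ h).subset h1

/-- **V18**. -/
theorem v18Stmt : V18Stmt := by
  intro Γ _ hfg hF V _ _ _ ρ hinf
  obtain ⟨b⟩ : Nonempty (Module.Basis (Fin (Module.finrank ℝ V)) ℝ V) :=
    ⟨Module.finBasis ℝ V⟩
  obtain ⟨e, he⟩ : ∃ e : (V →ₗ[ℝ] V) →* Matrix (Fin (Module.finrank ℝ V))
      (Fin (Module.finrank ℝ V)) ℝ, Function.Injective e :=
    ⟨((LinearMap.toMatrixAlgEquiv b : (V →ₗ[ℝ] V) ≃ₐ[ℝ] _) : (V →ₗ[ℝ] V) →* _),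
      (LinearMap.toMatrixAlgEquiv b).injective⟩
  let ρ' : Γ →* Matrix.GeneralLinearGroup (Fin (Module.finrank ℝ V)) ℝ :=
    (Units.map e).comp ρ.toHomUnits
  have hρ' : ∀ g, ((ρ' g : Matrix.GeneralLinearGroup (Fin (Module.finrank ℝ V)) ℝ) :
      Matrix (Fin (Module.finrank ℝ V)) (Fin (Module.finrank ℝ V)) ℝ) = e (ρ g) := fun g => rfl
  have hinf' : (Set.range ρ').Infinite := by
    intro hcon
    apply hinf
    have h1 : (e '' Set.range ρ).Finite := by
      refine (hcon.image (fun u : Matrix.GeneralLinearGroup (Fin (Module.finrank ℝ V)) ℝ =>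
        (u : Matrix (Fin (Module.finrank ℝ V)) (Fin (Module.finrank ℝ V)) ℝ))).subset ?_
      rintro _ ⟨_, ⟨g, rfl⟩, rfl⟩
      exact ⟨ρ' g, ⟨g, rfl⟩, hρ' g⟩
    exact h1.of_finite_image he.injOn
  obtain ⟨H, hH, ⟨d, hd⟩⟩ := Vale.Agent.P260.F.amenable_linear ℝ _ Γ hfg (folner_conv hF) ρ'
  have hHfg : Group.FG H := Subgroup.fg_of_index_ne_zero _
  have hsurj : Function.Surjective (ρ'.subgroupMap H) := ρ'.subgroupMap_surjective H
  have hSfg : Group.FG (H.map ρ') := Group.fg_of_surjective hsurj
  have hSi : Infinite (H.map ρ') := by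
    by_contra hcon
    have h2 : Finite (H.map ρ') := not_infinite_iff_finite.1 hcon
    exact hinf' (finite_range_of ρ' H (Set.toFinite _))
  exact VirtIndicable.of_subgroup H (VirtIndicable.of_surjective _ hsurj
    (virtIndicable_of_derived d _ hSfg hSi hd))

end Vale.Agent.P284.H913.V

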