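import Vale.Agent.P284.H913.LimAbs
import Vale.Agent.P284.H287.T.Bd
import Vale.Agent.P284.H731.T8c
import Vale.Agent.P284.H513.V11

/-!
# P284, theorem T, T9L (helper913): the limit of almost pluriharmonic affine sections
-/

open scoped Manifold ContDiff Topology Pointwise ComplexConjugate ComplexOrder InnerProductSpace
open Filter Set Metric MeasureTheory

noncomputable section

namespace Vale.Agent.P284.H913.LF

open Vale.Agent.P272.K Vale.Agent.P284.H894 Vale.Agent.P284.H894.V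
  Vale.Agent.P284.H287.T Vale.Agent.P284.H409.T Vale.Agent.P284.H913.V

variable {n : ℕ} {Γ : Type} [Group Γ] {C : Coc n Γ}
  {H : Type} [NormedAddCommGroup H] [InnerProductSpace ℝ H]
  {π : Γ →* (H ≃ₗᵢ[ℝ] H)} {b : Γ → H} {u : Γ → C.I → Cm n → H}

lemma lam_le (K : KM C) : 0 ≤ K.Lam := by
  obtain ⟨a⟩ := C.ne
  have hz : C.c a ∈ C.Ω a := mem_ball_self (by have := C.r_pos a; linarith)
  exact K.lam_pos.le.trans ((K.vol_low a _ hz).trans (K.vol_up a _ hz))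

lemma int_low (P : PU C) (K : KM C) {F : C.I → Cm n → ℝ} (hF : BD C F)
    (h0 : ∀ a, ∀ z ∈ C.Ω a, 0 ≤ F a z) (a : C.I) :
    ∫ z in C.V a, F a z ≤ K.lam⁻¹ * BInt P K F := by
  have h1 := hF.le P K h0 a
  have hlow : K.lam * ∫ z in C.V a, F a z ≤ ∫ z in C.V a, F a z * vol (K.w a) z := by
    rw [← integral_const_mul]
    refine setIntegral_mono_on ((intV (hF.cont a)).const_mul _)
      (intV ((hF.cont a).mul (vol_cont K a))) (isOpen_V C a).measurableSet fun z hz => ?_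
    rw [mul_comm]
    exact mul_le_mul_of_nonneg_left (K.vol_low a z (V_sub C a hz)) (h0 a z (V_sub C a hz))
  rw [inv_mul_eq_div, le_div_iff₀ K.lam_pos, mul_comm]
  exact hlow.trans h1

/-- the metric densities of an affine section are functions on the base -/
lemma chg_sec (K : KM C) (hu : Sec C π b u) {a d : C.I} {z : Cm n} (hz : z ∈ C.O a d) :
    grH (K.w a) (u 1 a) (u 1 a) z = grH (K.w d) (u 1 d) (u 1 d) (C.T a d z) ∧
    hhH (K.w a) (u 1 a) (u 1 a) z = hhH (K.w d) (u 1 d) (u 1 d) (C.T a d z) := by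
  have hza : z ∈ C.Ω a := C.O_sub a d hz
  have hzd : C.T a d z ∈ C.Ω d := C.O_sub d a (C.T_mem a d z hz)
  have hT : ∀ᶠ y in 𝓝 z, DifferentiableAt ℂ (C.T a d) y := by
    filter_upwards [(C.O_open a d).mem_nhds hz] with y hy
    exact T_diff C hy
  have hev := H731.T8.sec_one_ev hu hz
  have hs : ContDiffAt ℝ ∞ (fun y => π (C.κ a d z) (u 1 d y) + b (C.κ a d z)) (C.T a d z) :=
    (((π (C.κ a d z)).toContinuousLinearEquiv.contDiff.contDiffAt).comp _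
      (hu.smooth 1 d _ hzd)).add contDiffAt_const
  have h := chg Vale.Agent.P284.H730.V.vpStmt (K.w a) (K.w d) (u 1 a) (u 1 a)
    (fun y => π (C.κ a d z) (u 1 d y) + b (C.κ a d z))
    (fun y => π (C.κ a d z) (u 1 d y) + b (C.κ a d z)) (C.T a d) z hT ((K.ku a).pos z hza)
    ((K.ku d).pos _ hzd) (K.change a d z hz) (hu.smooth 1 a z hza) (hu.smooth 1 a z hza)
    hs hs hev hev
  refine ⟨h.2.1.trans ?_, h.2.2.trans ?_⟩
  · exact grH_iso _ _ _ _ _ _ _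
  · exact hhH_iso _ _ _ _ _ _ _

theorem BD_gr (K : KM C) (hu : Sec C π b u) :
    BD C (fun a z => grH (K.w a) (u 1 a) (u 1 a) z) where
  cont a z hz := (H731.T8.grH_smooth (K.ku a) hz (hu.smooth 1 a z hz)
    (hu.smooth 1 a z hz)).continuousAt.continuousWithinAt
  compat _ _ _ hz _ _ := (chg_sec K hu hz).1

theorem BD_hh (K : KM C) (hu : Sec C π b u) :
    BD C (fun a z => hhH (K.w a) (u 1 a) (u 1 a) z) where
  cont a z hz := (H731.T8.hhH_smooth (K.ku a) hz (hu.smooth 1 a z hz)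
    (hu.smooth 1 a z hz)).continuousAt.continuousWithinAt
  compat _ _ _ hz _ _ := (chg_sec K hu hz).2

/-- components of an affine section -/
theorem app0 (P : PU C) (K : KM C) (hu : Sec C π b u) {B₁ B₂ : ℝ}
    (h1 : BInt P K (fun a z => grH (K.w a) (u 1 a) (u 1 a) z) ≤ B₁)
    (h2 : BInt P K (fun a z => hhH (K.w a) (u 1 a) (u 1 a) z) ≤ B₂) (e : H) :
    App0 C (K.lam⁻¹ * K.Lam * B₁ * ‖e‖ ^ 2) (K.lam⁻¹ * K.Lam ^ 2 * B₂ * ‖e‖ ^ 2)
      (fun γ a z => ⟪u γ a z, e⟫_ℝ) := by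
  have hP := Vale.Agent.P284.H730.V.vpStmt
  have hΛ := lam_le K
  have hpos : ∀ a, ∀ z ∈ C.Ω a, (K.w a z).PosDef := fun a z hz => (K.ku a).pos z hz
  have g0 : ∀ a, ∀ z ∈ C.Ω a, 0 ≤ grH (K.w a) (u 1 a) (u 1 a) z := fun a z hz =>
    grH_nonneg hP (hpos a z hz) ((hu.smooth 1 a z hz).differentiableAt (by simp))
  have h0 : ∀ a, ∀ z ∈ C.Ω a, 0 ≤ hhH (K.w a) (u 1 a) (u 1 a) z := fun a z hz =>
    hhH_nonneg hP (hpos a z hz) (hu.smooth 1 a z hz)
  have hcong : ∀ γ a, ∀ z ∈ C.Ω a, u γ a =ᶠ[𝓝 z] fun y => π γ (u 1 a y) + b γ := by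
    intro γ a z hz
    have := H731.T8.sec_equi_ev hu γ 1 hz
    rwa [mul_one] at this
  refine ⟨fun γ a z hz => cmp_contDiffAt (hu.smooth γ a z hz) e,
    fun γ a d z hz => by rw [hu.compat γ a d z hz], fun γ a => ?_, fun γ a => ?_⟩
  · have e1 : ∫ z in C.V a, D1 (fun y => ⟪u γ a y, e⟫_ℝ) z ≤
        ∫ z in C.V a, (K.Lam * ‖e‖ ^ 2) * grH (K.w a) (u 1 a) (u 1 a) z := by
      refine integral_mono_of_nonneg (Eventually.of_forall fun z =>
        Finset.sum_nonneg fun _ _ => sq_nonneg _) ((intV ((BD_gr K hu).cont a)).const_mul _) ?_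
      filter_upwards [ae_restrict_mem (isOpen_V C a).measurableSet] with z hz
      have hzΩ := V_sub C a hz
      have hd : DifferentiableAt ℝ (u γ a) z :=
        (hu.smooth γ a z hzΩ).differentiableAt (by simp)
      have e2 := D1_cmp_le hd e
      have e3 := (D1H_le hP (hpos a z hzΩ) K.lam_pos (K.low a z hzΩ) (K.up a z hzΩ) hd).1
      have e4 : grH (K.w a) (u γ a) (u γ a) z = grH (K.w a) (u 1 a) (u 1 a) z :=
        (grH_congr _ (hcong γ a z hzΩ) (hcong γ a z hzΩ)).trans (grH_iso _ _ _ _ _ _ _)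
      rw [e4] at e3
      calc D1 (fun y => ⟪u γ a y, e⟫_ℝ) z ≤ ‖e‖ ^ 2 * D1H (u γ a) z := e2
        _ ≤ ‖e‖ ^ 2 * (K.Lam * grH (K.w a) (u 1 a) (u 1 a) z) :=
          mul_le_mul_of_nonneg_left e3 (sq_nonneg _)
        _ = _ := by ring
    refine e1.trans ?_
    rw [integral_const_mul]
    have e5 := (int_low P K (BD_gr K hu) g0 a).trans
      (mul_le_mul_of_nonneg_left h1 (inv_nonneg.2 K.lam_pos.le))
    calc K.Lam * ‖e‖ ^ 2 * ∫ z in C.V a, grH (K.w a) (u 1 a) (u 1 a) z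
        ≤ K.Lam * ‖e‖ ^ 2 * (K.lam⁻¹ * B₁) := mul_le_mul_of_nonneg_left e5 (by positivity)
      _ = _ := by ring
  · have e1 : ∫ z in C.V a, D2 (fun y => ⟪u γ a y, e⟫_ℝ) z ≤
        ∫ z in C.V a, (K.Lam ^ 2 * ‖e‖ ^ 2) * hhH (K.w a) (u 1 a) (u 1 a) z := by
      refine integral_mono_of_nonneg (Eventually.of_forall fun z =>
        H35.V.D2_nonneg _ _) ((intV ((BD_hh K hu).cont a)).const_mul _) ?_
      filter_upwards [ae_restrict_mem (isOpen_V C a).measurableSet] with z hz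
      have hzΩ := V_sub C a hz
      have hd := hu.smooth γ a z hzΩ
      have e2 := D2_cmp_le (hd.of_le two_le) e
      have e3 := D2H_le hP (hpos a z hzΩ) K.lam_pos (K.low a z hzΩ) (K.up a z hzΩ) hd
      have e4 : hhH (K.w a) (u γ a) (u γ a) z = hhH (K.w a) (u 1 a) (u 1 a) z :=
        (hhH_congr _ (hcong γ a z hzΩ) (hcong γ a z hzΩ)).trans (hhH_iso _ _ _ _ _ _ _)
      rw [e4] at e3
      calc D2 (fun y => ⟪u γ a y, e⟫_ℝ) z ≤ ‖e‖ ^ 2 * D2H (u γ a) z := e2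
        _ ≤ ‖e‖ ^ 2 * (K.Lam ^ 2 * hhH (K.w a) (u 1 a) (u 1 a) z) :=
          mul_le_mul_of_nonneg_left e3 (sq_nonneg _)
        _ = _ := by ring
    refine e1.trans ?_
    rw [integral_const_mul]
    have e5 := (int_low P K (BD_hh K hu) h0 a).trans
      (mul_le_mul_of_nonneg_left h2 (inv_nonneg.2 K.lam_pos.le))
    calc K.Lam ^ 2 * ‖e‖ ^ 2 * ∫ z in C.V a, hhH (K.w a) (u 1 a) (u 1 a) z
        ≤ K.Lam ^ 2 * ‖e‖ ^ 2 * (K.lam⁻¹ * B₂) := mul_le_mul_of_nonneg_left e5 (by positivity)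
      _ = _ := by ring

/-- **T9L** -/
theorem t9LStmt : T9LStmt := by
  intro n Γ _ C P K H _ _ _ π b u hu ⟨B₀, hB₀⟩ ⟨B₁, hB₁⟩ hhh
  obtain ⟨a₀, -, ha₀⟩ := Finset.exists_min_image Finset.univ C.r
    ⟨Classical.arbitrary C.I, Finset.mem_univ _⟩
  have hδ : 0 < C.r a₀ / 4 := by have := C.r_pos a₀; positivity
  have hδ' : ∀ a, 4 * (C.r a₀ / 4) ≤ C.r a := fun a => by
    have := ha₀ a (Finset.mem_univ a); linarith
  obtain ⟨η, B, hM⟩ := Vale.Agent.P284.H513.V.v11Stmt n _ hδ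
  obtain ⟨M₀, hM₀⟩ := L2_bound P K π b B₀
  refine lim_abs hu hδ hδ' hM (C₁ := K.lam⁻¹ * K.Lam * B₁)
    (ε := fun k => K.lam⁻¹ * K.Lam ^ 2 *
      BInt P K (fun a z => hhH (K.w a) (u k 1 a) (u k 1 a) z)) ?_
    (fun k e => app0 P K (hu k) (hB₁ k) le_rfl e) (fun k a => hM₀ (u k) (hu k) (hB₀ k) a)
  simpa using hhh.const_mul (K.lam⁻¹ * K.Lam ^ 2)

end Vale.Agent.P284.H913.LF

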