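import Vale.Agent.P284.H913.Area

/-!
# P284, block E1: sheets with an L² bound, for almost every base point
-/

open scoped Topology ENNReal
open Filter Set Metric MvPolynomial MeasureTheory

noncomputable section

namespace Vale.Agent.P284.H913

open Vale.Agent.P272.K

namespace Ex

variable {n N m : ℕ}

/-! ### An integrability criterion -/

theorem fin_int (f : Cm n → ℝ≥0∞) {C : ℝ≥0∞} (hC : C ≠ ∞) {r q : ℕ} (hq : r + 2 ≤ q)
    (hint : ∀ j : ℕ, ∫⁻ z in ball 0 ((j : ℝ) + 1), f z ≤ C * ((j : ℝ≥0∞) + 1) ^ r) :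
    ∫⁻ z, f z * ENNReal.ofReal (1 / (1 + ‖z‖) ^ q) < ∞ := by
  let A : ℕ → Set (Cm n) := fun j => ball 0 ((j : ℝ) + 1) \ ball 0 (j : ℝ)
  have hA : (⋃ j, A j) = univ := by
    refine eq_univ_of_forall fun z => mem_iUnion.2 ⟨⌊‖z‖⌋₊, ?_, ?_⟩
    · rw [mem_ball_zero_iff]; exact Nat.lt_floor_add_one _
    · rw [mem_ball_zero_iff, not_lt]; exact Nat.floor_le (norm_nonneg _)
  have hAm : ∀ j, MeasurableSet (A j) := fun j => measurableSet_ball.diff measurableSet_ball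
  have h1 : ∀ j, ∫⁻ z in A j, f z * ENNReal.ofReal (1 / (1 + ‖z‖) ^ q)
      ≤ C * ENNReal.ofReal (1 / ((j : ℝ) + 1) ^ 2) := by
    intro j
    have hj : (0 : ℝ) < (j : ℝ) + 1 := by positivity
    calc ∫⁻ z in A j, f z * ENNReal.ofReal (1 / (1 + ‖z‖) ^ q)
        ≤ ∫⁻ z in A j, f z * ENNReal.ofReal (1 / ((j : ℝ) + 1) ^ q) := by
          refine setLIntegral_mono' (hAm j) fun z hz => ?_
          have h0 : (j : ℝ) ≤ ‖z‖ := by
            have := hz.2
            rwa [mem_ball_zero_iff, not_lt] at this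
          refine mul_le_mul_right ?_ (f z)
          refine ENNReal.ofReal_le_ofReal ?_
          refine one_div_le_one_div_of_le (by positivity) ?_
          exact pow_le_pow_left₀ (by positivity) (by linarith) _
      _ ≤ ∫⁻ z in ball 0 ((j : ℝ) + 1), f z * ENNReal.ofReal (1 / ((j : ℝ) + 1) ^ q) :=
          lintegral_mono_set sdiff_subset
      _ = (∫⁻ z in ball 0 ((j : ℝ) + 1), f z) * ENNReal.ofReal (1 / ((j : ℝ) + 1) ^ q) :=
          lintegral_mul_const' _ _ ENNReal.ofReal_ne_top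
      _ ≤ C * ((j : ℝ≥0∞) + 1) ^ r * ENNReal.ofReal (1 / ((j : ℝ) + 1) ^ q) := by
          gcongr
          exact hint j
      _ = C * ENNReal.ofReal (((j : ℝ) + 1) ^ r * (1 / ((j : ℝ) + 1) ^ q)) := by
          rw [ENNReal.ofReal_mul (by positivity), ENNReal.ofReal_pow hj.le,
            ENNReal.ofReal_add (by positivity) zero_le_one, ENNReal.ofReal_natCast,
            ENNReal.ofReal_one, mul_assoc]
      _ ≤ C * ENNReal.ofReal (1 / ((j : ℝ) + 1) ^ 2) := by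
          gcongr
          have h2 : ((j : ℝ) + 1) ^ (r + 2) ≤ ((j : ℝ) + 1) ^ q :=
            pow_le_pow_right₀ (by linarith [Nat.cast_nonneg (α := ℝ) j]) hq
          rw [mul_one_div, div_le_div_iff₀ (by positivity) (by positivity), one_mul, ← pow_add]
          exact h2
  calc ∫⁻ z, f z * ENNReal.ofReal (1 / (1 + ‖z‖) ^ q)
      = ∫⁻ z in ⋃ j, A j, f z * ENNReal.ofReal (1 / (1 + ‖z‖) ^ q) := by
        rw [hA, Measure.restrict_univ]
    _ ≤ ∑' j, ∫⁻ z in A j, f z * ENNReal.ofReal (1 / (1 + ‖z‖) ^ q) := lintegral_iUnion_le _ _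
    _ ≤ ∑' j : ℕ, C * ENNReal.ofReal (1 / ((j : ℝ) + 1) ^ 2) := ENNReal.tsum_le_tsum h1
    _ = C * ∑' j : ℕ, ENNReal.ofReal (1 / ((j : ℝ) + 1) ^ 2) := ENNReal.tsum_mul_left
    _ < ∞ := by
        refine ENNReal.mul_lt_top hC.lt_top ?_
        have h3 : Summable fun j : ℕ => 1 / ((j : ℝ) + 1) ^ 2 := by
          have := (summable_nat_add_iff 1).2 (Real.summable_one_div_nat_pow.2 one_lt_two)
          simpa using this
        exact h3.tsum_ofReal_lt_top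

/-! ### Fubini -/

theorem mk_mp (e : Fin n ≃ Fin N ⊕ Fin m) :
    MeasurePreserving (fun q : Cm N × Cm m => mk e q.1 q.2) volume volume := by
  have h1 := volume_measurePreserving_sumPiEquivProdPi_symm (fun _ : Fin N ⊕ Fin m => ℂ)
  have h2 := volume_measurePreserving_piCongrLeft (fun _ : Fin n => ℂ) e.symm
  have h3 := h2.comp h1
  refine (congrArg (fun φ => MeasurePreserving φ volume volume) ?_).mp h3
  funext q i
  obtain ⟨b, rfl⟩ := e.symm.surjective i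
  rw [Function.comp_apply, MeasurableEquiv.coe_piCongrLeft, Equiv.piCongrLeft_apply_apply]
  rcases b with k | j
  · simp [mk, MeasurableEquiv.coe_sumPiEquivProdPi_symm]
  · simp [mk, MeasurableEquiv.coe_sumPiEquivProdPi_symm]

theorem ae_slice (e : Fin n ≃ Fin N ⊕ Fin m) {H : Cm n → ℝ≥0∞} (hH : Measurable H)
    (hfin : ∫⁻ v, H v < ∞) : ∀ᵐ y : Cm N, ∫⁻ w : Cm m, H (mk e y w) < ∞ := by
  have h1 : ∫⁻ q : Cm N × Cm m, H (mk e q.1 q.2) = ∫⁻ v, H v :=
    (mk_mp e).lintegral_comp hH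
  have hm : Measurable fun q : Cm N × Cm m => H (mk e q.1 q.2) := hH.comp (mk_mp e).measurable
  rw [Measure.volume_eq_prod, lintegral_prod _ hm.aemeasurable] at h1
  exact ae_lt_top hm.lintegral_prod_right' (by rw [h1]; exact hfin.ne)

theorem null_pre (e : Fin n ≃ Fin N ⊕ Fin m) (P : Fin N → MvPolynomial (Fin n) ℂ)
    (π : Fin m → MvPolynomial (Fin n) ℂ) {Y : Set (Cm N)} (hY : volume Y = 0) :
    ∀ᵐ z : Cm n, z ∈ Og (RP e P π) → (fun i => eval z (P i)) ∉ Y := by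
  obtain ⟨S, hSm, hSi, hSU, -⟩ := exists_pieces (RP e P π)
  set Y' := toMeasurable volume Y with hY'
  have hY'0 : volume Y' = 0 := by rw [hY', measure_toMeasurable, hY]
  have hY'm : MeasurableSet Y' := measurableSet_toMeasurable _ _
  have hPm : Measurable fun z : Cm n => (fun i => eval z (P i) : Cm N) :=
    (continuous_pi fun i => MvPolynomial.continuous_eval (P i)).measurable
  have hnull : volume {v : Cm n | ∃ y ∈ Y', ∃ w : Cm m, v = mk e y w} = 0 := by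
    have h1 : MeasurableSet {v : Cm n | (fun k => v (e.symm (Sum.inl k)) : Cm N) ∈ Y'} := by
      refine measurableSet_preimage (f := fun v : Cm n => (fun k => v (e.symm (Sum.inl k)) : Cm N))
        (by fun_prop) hY'm
    have h2 : {v : Cm n | ∃ y ∈ Y', ∃ w : Cm m, v = mk e y w} ⊆
        {v : Cm n | (fun k => v (e.symm (Sum.inl k)) : Cm N) ∈ Y'} := by
      rintro v ⟨y, hy, w, rfl⟩
      have : (fun k => mk e y w (e.symm (Sum.inl k)) : Cm N) = y := by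
        funext k; simp [mk]
      simpa [this] using hy
    refine measure_mono_null h2 ?_
    rw [← (mk_mp e).measure_preimage h1.nullMeasurableSet]
    have h3 : (fun q : Cm N × Cm m => mk e q.1 q.2) ⁻¹'
        {v : Cm n | (fun k => v (e.symm (Sum.inl k)) : Cm N) ∈ Y'} = Y' ×ˢ univ := by
      ext ⟨y, w⟩
      have : (fun k => mk e y w (e.symm (Sum.inl k)) : Cm N) = y := by
        funext k; simp [mk]
      simp [this]
    rw [h3, Measure.volume_eq_prod, Measure.prod_prod, hY'0, zero_mul]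
  have h4 : ∀ i, volume (S i ∩ {z : Cm n | (fun i => eval z (P i) : Cm N) ∈ Y'}) = 0 := by
    intro i
    set T := S i ∩ {z : Cm n | (fun i => eval z (P i) : Cm N) ∈ Y'} with hT
    have hTm : MeasurableSet T := (hSm i).inter (hPm hY'm)
    have h5 := lintegral_abs_det_fderiv_eq_addHaar_image volume hTm
      (fun z _ => (hasFDerivAt_real (RP e P π) z).hasFDerivWithinAt)
      ((hSi i).mono inter_subset_left)
    have h6 : volume (RR (RP e P π) '' T) = 0 := by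
      refine measure_mono_null ?_ hnull
      rintro _ ⟨z, hz, rfl⟩
      exact ⟨_, hz.2, _, RR_RP e P π z⟩
    rw [h6, lintegral_eq_zero_iff' (by
      refine (Measurable.ennreal_ofReal ?_).aemeasurable
      simp only [real_det]
      exact ((MvPolynomial.continuous_eval _).norm.pow 2).measurable)] at h5
    have h7 : ∀ᵐ z ∂(volume.restrict T), False := by
      filter_upwards [h5, ae_restrict_mem hTm] with z hz hzT
      have h8 : z ∈ Og (RP e P π) := hSU.le (mem_iUnion.2 ⟨i, hzT.1⟩)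
      simp only [real_det, Pi.zero_apply, ENNReal.ofReal_eq_zero] at hz
      have h9 : 0 < ‖eval z (JP (RP e P π)).det‖ := norm_pos_iff.2 h8
      exact absurd hz (not_le.2 (by positivity))
    rw [← Measure.restrict_apply_univ]
    have h10 := ae_iff.1 h7
    simpa using h10
  have h5 : volume (⋃ i, S i ∩ {z : Cm n | (fun i => eval z (P i) : Cm N) ∈ Y'}) = 0 :=
    measure_iUnion_null h4
  rw [ae_iff]
  refine measure_mono_null (fun z hz => ?_) h5
  rw [Set.mem_ofPred_eq] at hz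
  push Not at hz
  obtain ⟨i, hi⟩ := mem_iUnion.1 (hSU.ge hz.1)
  exact mem_iUnion.2 ⟨i, hi, subset_toMeasurable _ _ hz.2⟩

/-- the weighted integral over the source is finite -/
theorem weight_fin (R : Fin n → MvPolynomial (Fin n) ℂ) (a : MvPolynomial (Fin n) ℂ) (s : ℕ)
    (C : ℝ) (hC : 0 ≤ C)
    (hc : ∀ z : Cm n, ∀ j, ‖z j‖ * ‖eval (RR R z) a‖ ≤ C * (1 + ‖RR R z‖) ^ s)
    (f : Cm n → ℝ≥0∞) {C₁ : ℝ≥0∞} (hC₁ : C₁ ≠ ∞) {r : ℕ}
    (hint : ∀ j : ℕ, ∫⁻ z in ball 0 ((j : ℝ) + 1), f z ≤ C₁ * ((j : ℝ≥0∞) + 1) ^ r) :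
    ∃ k M : ℕ, ∫⁻ z in Og R, ENNReal.ofReal (‖eval z (JP R).det‖ ^ 2) *
      (f z * ENNReal.ofReal (‖eval (RR R z) a‖ ^ k / (1 + ‖RR R z‖) ^ M)) < ∞ := by
  obtain ⟨s1, A, hA, hgr⟩ := C1.PG.eval a
  obtain ⟨t, C3, hC3, hdet⟩ := C1.PG.eval (JP R).det
  let k := 2 * t + (r + 2)
  let s2 := max s s1
  have hb : ∀ z : Cm n, (1 + ‖z‖) * ‖eval (RR R z) a‖ ≤ (A + C) * (1 + ‖RR R z‖) ^ s2 := by
    intro z
    have h1 : ‖z‖ * ‖eval (RR R z) a‖ ≤ C * (1 + ‖RR R z‖) ^ s := by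
      rcases (norm_nonneg (eval (RR R z) a)).eq_or_lt with h0 | hpos
      · rw [← h0, mul_zero]; positivity
      · rw [← le_div_iff₀ hpos, pi_norm_le_iff_of_nonneg (by positivity)]
        intro j
        rw [le_div_iff₀ hpos]
        exact hc z j
    have h2 := hgr (RR R z)
    have h3 := mul_le_mul_of_nonneg_left (C1.pw (RR R z) (le_max_left s s1)) hC
    have h4 := mul_le_mul_of_nonneg_left (C1.pw (RR R z) (le_max_right s s1)) hA
    calc (1 + ‖z‖) * ‖eval (RR R z) a‖ = ‖eval (RR R z) a‖ + ‖z‖ * ‖eval (RR R z) a‖ := by ring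
      _ ≤ A * (1 + ‖RR R z‖) ^ s2 + C * (1 + ‖RR R z‖) ^ s2 :=
        add_le_add (h2.trans h4) (h1.trans h3)
      _ = _ := by ring
  refine ⟨k, s2 * k, ?_⟩
  have hpt : ∀ z : Cm n, ‖eval z (JP R).det‖ ^ 2 *
      (‖eval (RR R z) a‖ ^ k / (1 + ‖RR R z‖) ^ (s2 * k))
      ≤ (C3 ^ 2 * (A + C) ^ k) * (1 / (1 + ‖z‖) ^ (r + 2)) := by
    intro z
    have h1 : ‖eval (RR R z) a‖ ^ k * (1 + ‖z‖) ^ k ≤ (A + C) ^ k * (1 + ‖RR R z‖) ^ (s2 * k) := by
      rw [← mul_pow, pow_mul, ← mul_pow, mul_comm]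
      exact pow_le_pow_left₀ (by positivity) (hb z) k
    have h2 : ‖eval (RR R z) a‖ ^ k / (1 + ‖RR R z‖) ^ (s2 * k) ≤ (A + C) ^ k / (1 + ‖z‖) ^ k := by
      rw [div_le_div_iff₀ (by positivity) (by positivity)]
      exact h1
    have h3 : ‖eval z (JP R).det‖ ^ 2 ≤ C3 ^ 2 * (1 + ‖z‖) ^ (2 * t) := by
      rw [mul_comm 2 t, pow_mul, ← mul_pow]
      exact pow_le_pow_left₀ (norm_nonneg _) (hdet z) 2
    calc ‖eval z (JP R).det‖ ^ 2 * (‖eval (RR R z) a‖ ^ k / (1 + ‖RR R z‖) ^ (s2 * k))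
        ≤ (C3 ^ 2 * (1 + ‖z‖) ^ (2 * t)) * ((A + C) ^ k / (1 + ‖z‖) ^ k) :=
          mul_le_mul h3 h2 (by positivity) (by positivity)
      _ = (C3 ^ 2 * (A + C) ^ k) * (1 / (1 + ‖z‖) ^ (r + 2)) := by
          have hne : (1 + ‖z‖) ≠ 0 := by positivity
          have : (1 + ‖z‖) ^ k = (1 + ‖z‖) ^ (2 * t) * (1 + ‖z‖) ^ (r + 2) := pow_add _ _ _
          rw [this]
          field_simp
  have hfin := fin_int (q := r + 2) f hC₁ le_rfl hint
  calc ∫⁻ z in Og R, ENNReal.ofReal (‖eval z (JP R).det‖ ^ 2) *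
        (f z * ENNReal.ofReal (‖eval (RR R z) a‖ ^ k / (1 + ‖RR R z‖) ^ (s2 * k)))
      ≤ ∫⁻ z, ENNReal.ofReal (‖eval z (JP R).det‖ ^ 2) *
        (f z * ENNReal.ofReal (‖eval (RR R z) a‖ ^ k / (1 + ‖RR R z‖) ^ (s2 * k))) :=
        setLIntegral_le_lintegral _ _
    _ ≤ ∫⁻ z, ENNReal.ofReal (C3 ^ 2 * (A + C) ^ k) *
        (f z * ENNReal.ofReal (1 / (1 + ‖z‖) ^ (r + 2))) := by
        refine lintegral_mono fun z => ?_
        calc ENNReal.ofReal (‖eval z (JP R).det‖ ^ 2) *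
              (f z * ENNReal.ofReal (‖eval (RR R z) a‖ ^ k / (1 + ‖RR R z‖) ^ (s2 * k)))
            = f z * ENNReal.ofReal (‖eval z (JP R).det‖ ^ 2 *
              (‖eval (RR R z) a‖ ^ k / (1 + ‖RR R z‖) ^ (s2 * k))) := by
              rw [ENNReal.ofReal_mul (by positivity)]; ring
          _ ≤ f z * ENNReal.ofReal ((C3 ^ 2 * (A + C) ^ k) * (1 / (1 + ‖z‖) ^ (r + 2))) := by
              exact mul_le_mul_right (ENNReal.ofReal_le_ofReal (hpt z)) (f z)
          _ = _ := by rw [ENNReal.ofReal_mul (by positivity)]; ring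
    _ = ENNReal.ofReal (C3 ^ 2 * (A + C) ^ k) *
        ∫⁻ z, f z * ENNReal.ofReal (1 / (1 + ‖z‖) ^ (r + 2)) :=
        lintegral_const_mul' _ _ ENNReal.ofReal_ne_top
    _ < ∞ := ENNReal.mul_lt_top ENNReal.ofReal_lt_top hfin

end Ex

/-- **E1.** -/
theorem exists_sheet_L2 {n N : ℕ} (P : Fin N → MvPolynomial (Fin n) ℂ)
    (hP : ∃ ζ, Function.Surjective (fderiv ℂ (fun ζ : Cm n => fun i => eval ζ (P i)) ζ))
    (f : Cm n → ℝ≥0∞) (hf : Measurable f) (C₁ : ℝ≥0∞) (hC₁ : C₁ ≠ ∞) (r : ℕ)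
    (hint : ∀ j : ℕ, ∫⁻ z in ball 0 ((j : ℝ) + 1), f z ≤ C₁ * ((j : ℝ≥0∞) + 1) ^ r) :
    ∃ m, N + m = n ∧ ∃ b : MvPolynomial (Fin n) ℂ, b ≠ 0 ∧ ∀ᵐ ζ₁ : Cm n, eval ζ₁ b ≠ 0 →
      ∃ S : Sheet n m, ζ₁ ∈ S.T ∧ (∀ z ∈ S.T, ∀ i, eval z (P i) = eval ζ₁ (P i)) ∧
        Differentiable ℂ S.pr ∧ ∃ k M : ℕ,
          ∫⁻ w, ∑' z : S.fib w, f z * ENNReal.ofReal (‖eval w S.a0‖ ^ k / (1 + ‖w‖) ^ M) < ∞ := by
  obtain ⟨ζ, hζ⟩ := hP
  obtain ⟨m, hm, e, π, hdet, hπ⟩ := Ex.exists_proj P ζ hζ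
  obtain ⟨a, ha, s, D, C, hC, hc1, hc2⟩ := C1.c1 (Ex.RP e P π) hdet
  set R := Ex.RP e P π with hR
  obtain ⟨k, M, hkM⟩ := Ex.weight_fin R a s C hC (fun z => (hc1 z).1) f hC₁ hint
  have hRc : Continuous (Ex.RR R) := (Ex.contDiff_RR R).continuous
  have hFm : Measurable fun z : Cm n =>
      f z * ENNReal.ofReal (‖eval (Ex.RR R z) a‖ ^ k / (1 + ‖Ex.RR R z‖) ^ M) := by
    refine hf.mul (Measurable.ennreal_ofReal (Continuous.measurable ?_))
    refine Continuous.div (((MvPolynomial.continuous_eval a).comp hRc).norm.pow k)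
      ((continuous_const.add hRc.norm).pow M) fun z => ?_
    positivity
  obtain ⟨H, hHm, hHi, hHF⟩ := Ex.area R _ hFm
  have hHfin : ∫⁻ v, H v < ∞ := by rw [hHi]; exact hkM
  have hae := Ex.ae_slice e hHm hHfin
  have hnull := Ex.null_pre e P π (ae_iff.1 hae)
  refine ⟨m, hm, aeval R a, ?_, ?_⟩
  · intro h0
    apply ha
    refine C1.c1_inj R hdet a fun z => ?_
    rw [← C1.eval_aeval, h0, map_zero]
  filter_upwards [hnull] with ζ₁ hζ hb
  rw [C1.eval_aeval] at hb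
  have hb' : eval (Ex.RR R ζ₁) a ≠ 0 := hb
  have hOg : ∀ z : Cm n, eval (Ex.RR R z) a ≠ 0 → z ∈ Ex.Og R := by
    intro z hz h0
    have h1 := (hc1 z).2
    have h2 : eval z (Matrix.of fun i j => pderiv j (R i)).det = 0 := h0
    rw [h2, norm_zero, mul_zero] at h1
    exact hz (norm_le_zero_iff.1 h1)
  obtain ⟨S, h1, h2, h3, h4⟩ := Ex.sheet_of' e P π a s D C hC hc1 hc2 ζ₁ hb'
  refine ⟨S, h1, h2, ?_, k, M, ?_⟩
  · have : S.pr = fun z j => eval z (π j) := funext h3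
    rw [this, differentiable_pi]
    exact fun j => H5.C2.differentiable_eval (π j)
  set y₀ : Cm N := fun i => eval ζ₁ (P i) with hy₀
  have h5 : ∫⁻ w : Cm m, H (Ex.mk e y₀ w) < ∞ := by
    have := hζ (hOg ζ₁ hb')
    by_contra hno
    exact this hno
  have hRz : ∀ z ∈ S.T, Ex.RR R z = Ex.mk e y₀ (S.pr z) := by
    intro z hz
    rw [hR, Ex.RR_RP, h3 z, show (fun i => eval z (P i)) = y₀ from funext (h2 z hz)]
  have ha0 : ∀ w, eval w S.a0 = eval (Ex.mk e y₀ w) a := by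
    intro w; rw [h4, Ex.eval_res]
  let Y : ℝ := 1 + ‖y₀‖
  have hY : 1 ≤ Y := by simp only [Y]; linarith [norm_nonneg y₀]
  have hmkn : ∀ w : Cm m, 1 + ‖Ex.mk e y₀ w‖ ≤ Y * (1 + ‖w‖) := by
    intro w
    have h1 := Ex.mk_norm e y₀ w
    have h2 : 0 ≤ ‖y₀‖ * ‖w‖ := by positivity
    simp only [Y]
    linarith
  have hmain : ∀ w : Cm m, ∑' z : S.fib w, f z *
      ENNReal.ofReal (‖eval w S.a0‖ ^ k / (1 + ‖w‖) ^ M)
      ≤ ENNReal.ofReal (Y ^ M) * H (Ex.mk e y₀ w) := by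
    intro w
    have hz1 : ∀ z : S.fib w, (z : Cm n) ∈ Ex.Og R ∧ Ex.RR R z = Ex.mk e y₀ w := by
      intro z
      have hzT : (z : Cm n) ∈ S.T := z.2.1
      have hzw : S.pr z = w := z.2.2
      have e1 := hRz z hzT
      rw [hzw] at e1
      refine ⟨hOg z ?_, e1⟩
      rw [e1, ← ha0]
      have := S.off z hzT
      rwa [hzw] at this
    let j : S.fib w → {z : Cm n | z ∈ Ex.Og R ∧ Ex.RR R z = Ex.mk e y₀ w} := fun z => ⟨z, hz1 z⟩
    have hj : Function.Injective j := fun z z' h => by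
      have := congrArg Subtype.val h
      exact Subtype.ext this
    calc ∑' z : S.fib w, f z * ENNReal.ofReal (‖eval w S.a0‖ ^ k / (1 + ‖w‖) ^ M)
        ≤ ∑' z : S.fib w, ENNReal.ofReal (Y ^ M) *
          ((fun z : {z : Cm n | z ∈ Ex.Og R ∧ Ex.RR R z = Ex.mk e y₀ w} => f z *
            ENNReal.ofReal (‖eval (Ex.RR R z) a‖ ^ k / (1 + ‖Ex.RR R z‖) ^ M)) (j z)) := by
          refine ENNReal.tsum_le_tsum fun z => ?_
          have e1 : Ex.RR R (z : Cm n) = Ex.mk e y₀ w := (hz1 z).2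
          simp only [j, e1]
          rw [ha0 w]
          calc f z * ENNReal.ofReal (‖eval (Ex.mk e y₀ w) a‖ ^ k / (1 + ‖w‖) ^ M)
              ≤ f z * ENNReal.ofReal (Y ^ M *
                (‖eval (Ex.mk e y₀ w) a‖ ^ k / (1 + ‖Ex.mk e y₀ w‖) ^ M)) := by
                gcongr
                have h6 : (1 + ‖Ex.mk e y₀ w‖) ^ M ≤ Y ^ M * (1 + ‖w‖) ^ M := by
                  rw [← mul_pow]
                  exact pow_le_pow_left₀ (by positivity) (hmkn w) M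
                rw [← mul_div_assoc, div_le_div_iff₀ (by positivity) (by positivity)]
                calc ‖eval (Ex.mk e y₀ w) a‖ ^ k * (1 + ‖Ex.mk e y₀ w‖) ^ M
                    ≤ ‖eval (Ex.mk e y₀ w) a‖ ^ k * (Y ^ M * (1 + ‖w‖) ^ M) :=
                      mul_le_mul_of_nonneg_left h6 (by positivity)
                  _ = _ := by ring
            _ = _ := by rw [ENNReal.ofReal_mul (by positivity)]; ring
      _ = ENNReal.ofReal (Y ^ M) * ∑' z : S.fib w,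
          ((fun z : {z : Cm n | z ∈ Ex.Og R ∧ Ex.RR R z = Ex.mk e y₀ w} => f z *
            ENNReal.ofReal (‖eval (Ex.RR R z) a‖ ^ k / (1 + ‖Ex.RR R z‖) ^ M)) (j z)) :=
          ENNReal.tsum_mul_left
      _ ≤ ENNReal.ofReal (Y ^ M) * ∑' z : {z : Cm n | z ∈ Ex.Og R ∧ Ex.RR R z = Ex.mk e y₀ w},
          f z * ENNReal.ofReal (‖eval (Ex.RR R z) a‖ ^ k / (1 + ‖Ex.RR R z‖) ^ M) := by
          gcongr
          exact ENNReal.tsum_comp_le_tsum_of_injective hj _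
      _ ≤ _ := by
          gcongr
          exact hHF (Ex.mk e y₀ w)
  calc ∫⁻ w, ∑' z : S.fib w, f z * ENNReal.ofReal (‖eval w S.a0‖ ^ k / (1 + ‖w‖) ^ M)
      ≤ ∫⁻ w, ENNReal.ofReal (Y ^ M) * H (Ex.mk e y₀ w) := lintegral_mono hmain
    _ = ENNReal.ofReal (Y ^ M) * ∫⁻ w, H (Ex.mk e y₀ w) :=
        lintegral_const_mul' _ _ ENNReal.ofReal_ne_top
    _ < ∞ := ENNReal.mul_lt_top ENNReal.ofReal_lt_top h5

end Vale.Agent.P284.H913
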