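import Vale.Agent.P284.H913.SheetEx
import Vale.Agent.P272.K.INT.Dens
import Mathlib.MeasureTheory.Function.Jacobian
import Mathlib.MeasureTheory.Constructions.Polish.Basic
import Mathlib.Analysis.PSeries

/-!
# P284, block E1: the area formula with multiplicity for a polynomial map, and L² sheets
-/

open scoped Topology ContDiff ENNReal
open Filter Set Metric MvPolynomial MeasureTheory

noncomputable section

namespace Vale.Agent.P284.H913

open Vale.Agent.P272.K

namespace Ex

variable {n : ℕ}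

theorem real_det (R : Fin n → MvPolynomial (Fin n) ℂ) (z : Cm n) :
    |(fderiv ℝ (RR R) z).det| = ‖eval z (JP R).det‖ ^ 2 := by
  have hT : DifferentiableAt ℂ (RR R) z := (hasFDerivAt_RR R z).differentiableAt
  rw [Vale.Agent.P272.K.INT.det_fderiv_real hT, abs_of_nonneg (by positivity), ← J_det]
  congr 3
  ext p i
  have h4 : HasFDerivAt (fun w => RR R w p) (∑ i, eval z (pderiv i (R p)) •
      (ContinuousLinearMap.proj i : Cm n →L[ℂ] ℂ)) z := hasFDerivAt_eval (R p) z
  rw [Matrix.of_apply, Vale.Agent.P272.K.INT.dz_of_holo h4.differentiableAt, h4.fderiv]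
  simp [J, JP, Pi.single_apply]

theorem hasFDerivAt_real (R : Fin n → MvPolynomial (Fin n) ℂ) (z : Cm n) :
    HasFDerivAt (RR R) (fderiv ℝ (RR R) z) z :=
  ((hasFDerivAt_RR R z).differentiableAt.restrictScalars ℝ).hasFDerivAt

/-- the regular set -/
def Og (R : Fin n → MvPolynomial (Fin n) ℂ) : Set (Cm n) := {z | eval z (JP R).det ≠ 0}

theorem isOpen_Og (R : Fin n → MvPolynomial (Fin n) ℂ) : IsOpen (Og R) :=
  isOpen_ne_fun (MvPolynomial.continuous_eval _) continuous_const

/-- decomposition of the regular set into countably many pieces on which the map is injective -/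
theorem exists_pieces (R : Fin n → MvPolynomial (Fin n) ℂ) : ∃ S : ℕ → Set (Cm n),
    (∀ i, MeasurableSet (S i)) ∧ (∀ i, InjOn (RR R) (S i)) ∧ (⋃ i, S i) = Og R ∧
      Pairwise (Function.onFun Disjoint S) := by
  have h1 : ∀ z ∈ Og R, ∃ U : Set (Cm n), IsOpen U ∧ z ∈ U ∧ InjOn (RR R) U := by
    intro z hz
    obtain ⟨τ, -, -, h3, -⟩ := local_inv R z hz
    obtain ⟨U, h, hU, hzU⟩ := _root_.eventually_nhds_iff.1 h3
    refine ⟨U, hU, hzU, fun x hx y hy hxy => ?_⟩
    rw [← h x hx, ← h y hy, hxy]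
  choose! U hU hzU hinj using h1
  obtain ⟨t, htO, htc, hcov⟩ := TopologicalSpace.countable_cover_nhdsWithin (s := Og R) (f := U)
    fun z hz => mem_nhdsWithin_of_mem_nhds ((hU z hz).mem_nhds (hzU z hz))
  rcases (Og R).eq_empty_or_nonempty with hO | ⟨z₀, hz₀⟩
  · exact ⟨fun _ => ∅, fun _ => MeasurableSet.empty, fun _ => injOn_empty _, by simp [hO],
      fun i j _ => by simp [Function.onFun]⟩
  have htne : t.Nonempty := by
    obtain ⟨x, hx, -⟩ := mem_iUnion₂.1 (hcov hz₀)
    exact ⟨x, hx⟩
  obtain ⟨g, hg⟩ := htc.exists_eq_range htne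
  let V : ℕ → Set (Cm n) := fun i => U (g i) ∩ Og R
  have hgt : ∀ i, g i ∈ Og R := fun i => htO (hg ▸ mem_range_self i)
  refine ⟨disjointed V, fun i => ?_, fun i => ?_, ?_, disjoint_disjointed V⟩
  · exact MeasurableSet.disjointed (fun i => ((hU _ (hgt i)).inter (isOpen_Og R)).measurableSet) i
  · exact (hinj _ (hgt i)).mono ((disjointed_subset V i).trans inter_subset_left)
  · rw [iUnion_disjointed]
    apply subset_antisymm
    · exact iUnion_subset fun i => inter_subset_right
    · intro z hz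
      obtain ⟨x, hx, hzx⟩ := mem_iUnion₂.1 (hcov hz)
      rw [hg] at hx
      obtain ⟨i, rfl⟩ := hx
      exact mem_iUnion.2 ⟨i, hzx, hz⟩

/-- **area formula** (as a measurable majorant of the sum over the fibre) -/
theorem area (R : Fin n → MvPolynomial (Fin n) ℂ) (F : Cm n → ℝ≥0∞) (hF : Measurable F) :
    ∃ H : Cm n → ℝ≥0∞, Measurable H ∧
      ∫⁻ v, H v = ∫⁻ z in Og R, ENNReal.ofReal (‖eval z (JP R).det‖ ^ 2) * F z ∧
      ∀ v, ∑' z : {z : Cm n | z ∈ Og R ∧ RR R z = v}, F z ≤ H v := by
  obtain ⟨S, hSm, hSi, hSU, hSd⟩ := exists_pieces R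
  have hcont : Continuous (RR R) := (contDiff_RR R).continuous
  have hg : ∀ i, ∃ g : Cm n → ℝ≥0∞, Measurable g ∧ ∀ z ∈ S i, g (RR R z) = F z := by
    intro i
    have he := hcont.continuousOn.measurableEmbedding (hSm i) (hSi i)
    obtain ⟨g, hg, hgF⟩ := he.exists_measurable_extend (hF.comp measurable_subtype_coe)
      (fun _ => inferInstance)
    exact ⟨g, hg, fun z hz => congrFun hgF ⟨z, hz⟩⟩
  choose g hgm hgF using hg
  have him : ∀ i, MeasurableSet (RR R '' S i) := fun i =>
    (hSm i).image_of_continuousOn_injOn hcont.continuousOn (hSi i)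
  refine ⟨fun v => ∑' i, (RR R '' S i).indicator (g i) v, ?_, ?_, ?_⟩
  · exact Measurable.ennreal_tsum fun i => (hgm i).indicator (him i)
  · rw [lintegral_tsum fun i => ((hgm i).indicator (him i)).aemeasurable]
    rw [← hSU, lintegral_iUnion hSm hSd]
    refine tsum_congr fun i => ?_
    rw [lintegral_indicator (him i)]
    rw [lintegral_image_eq_lintegral_abs_det_fderiv_mul volume (hSm i)
      (fun z _ => (hasFDerivAt_real R z).hasFDerivWithinAt) (hSi i)]
    refine setLIntegral_congr_fun (hSm i) fun z hz => ?_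
    simp only [real_det, hgF i z hz]
  · intro v
    have h1 : ∀ z : {z : Cm n | z ∈ Og R ∧ RR R z = v}, ∃ i, (z : Cm n) ∈ S i := by
      intro z
      exact mem_iUnion.1 (hSU.ge z.2.1)
    choose ι hι using h1
    have hinj : Function.Injective ι := by
      intro z z' h
      have h2 := hι z'
      rw [← h] at h2
      exact Subtype.ext (hSi (ι z) (hι z) h2 (z.2.2.trans z'.2.2.symm))
    have h3 : ∀ z : {z : Cm n | z ∈ Og R ∧ RR R z = v},
        F z = (RR R '' S (ι z)).indicator (g (ι z)) v := by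
      intro z
      have hz : RR R z = v := z.2.2
      have h4 : v ∈ RR R '' S (ι z) := ⟨z, hι z, hz⟩
      rw [indicator_of_mem h4, ← hgF (ι z) z (hι z), hz]
    calc ∑' z : {z : Cm n | z ∈ Og R ∧ RR R z = v}, F z
        = ∑' z : {z : Cm n | z ∈ Og R ∧ RR R z = v},
            (fun i => (RR R '' S i).indicator (g i) v) (ι z) := tsum_congr h3
      _ ≤ _ := ENNReal.tsum_comp_le_tsum_of_injective hinj _

end Ex

end Vale.Agent.P284.H913
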