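import Vale.Agent.P284.H913.LimMo
import Vale.Agent.P284.H913.LimClose
import Vale.Agent.P284.H409.T.Spec
import Mathlib.Order.Filter.Ultrafilter.Basic
import Mathlib.Analysis.SpecificLimits.Basic

/-!
# P284, theorem T, LimF (helper913): the limit of almost pluriharmonic affine sections with values in a
finite-dimensional space
-/

open scoped Manifold ContDiff Topology Pointwise ComplexConjugate ComplexOrder InnerProductSpace
open Filter Set Metric MeasureTheory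

noncomputable section

namespace Vale.Agent.P284.H913.LF

open Vale.Agent.P272.K Vale.Agent.P284.H894 Vale.Agent.P284.H894.V Vale.Agent.P284.H35.V
  Vale.Agent.P284.H287.T Vale.Agent.P284.H409.T

variable {n : ℕ} {Γ : Type} [Group Γ] {C : Coc n Γ}
  {H : Type} [NormedAddCommGroup H] [InnerProductSpace ℝ H]

theorem lim_abs [FiniteDimensional ℝ H] {π : Γ →* (H ≃ₗᵢ[ℝ] H)} {b : Γ → H}
    {u : ℕ → Γ → C.I → Cm n → H} (hu : ∀ k, Sec C π b (u k)) {δ : ℝ} {η : Cm n → ℝ} {B : ℝ}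
    (hδ0 : 0 < δ) (hδ : ∀ a, 4 * δ ≤ C.r a) (hM : MolP n δ η B) {C₁ : ℝ} {ε : ℕ → ℝ}
    (hε : Tendsto ε atTop (𝓝 0))
    (hA : ∀ k (e : H), App0 C (C₁ * ‖e‖ ^ 2) (ε k * ‖e‖ ^ 2) (fun γ a z => ⟪u k γ a z, e⟫_ℝ))
    {M₀ : ℝ} (hL : ∀ k a, ∫ z in C.V a, ‖u k 1 a z‖ ^ 2 ≤ M₀) :
    ∃ h, LimSec C π b h := by
  classical
  have : CompleteSpace H := FiniteDimensional.complete ℝ H
  have : ProperSpace H := FiniteDimensional.proper ℝ H
  have hM' := hM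
  obtain ⟨hB, hηs, hη0, hηδ, hη1, hMol⟩ := hM'
  have hηc := hηs.continuous
  obtain ⟨S, hS⟩ := hηc.bounded_above_of_compact_support (compact_of hηδ)
  have hS' : ∀ t, η t ≤ S := fun t => (Real.le_norm_self _).trans (hS t)
  have hS0 : 0 ≤ S := (norm_nonneg _).trans (hS 0)
  set 𝒰 : Ultrafilter ℕ := hyperfilter ℕ with h𝒰
  have h𝒰top : (𝒰 : Filter ℕ) ≤ atTop := Nat.hyperfilter_le_atTop
  have hε𝒰 : Tendsto ε (𝒰 : Filter ℕ) (𝓝 0) := hε.mono_left h𝒰top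
  set L := √(B * C₁) with hLdef
  have hL0 : 0 ≤ L := Real.sqrt_nonneg _
  have hLe : ∀ e : H, √(B * (C₁ * ‖e‖ ^ 2)) = L * ‖e‖ := by
    intro e
    rw [← mul_assoc, Real.sqrt_mul' _ (sq_nonneg _), Real.sqrt_sq (norm_nonneg _)]
  -- geometry
  have hsub : ∀ a, ∀ z ∈ ball (C.c a) (11 / 4 * C.r a), closedBall z δ ⊆ C.V a := by
    intro a z hz y hy
    have hr := C.r_pos a
    have hd := hδ a
    show y ∈ ball (C.c a) (3 * C.r a)
    rw [mem_ball] at hz ⊢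
    rw [mem_closedBall] at hy
    linarith [dist_triangle y z (C.c a)]
  have hVΩ : ∀ a, C.V a ⊆ C.Ω a := fun a => V.V_sub C a
  have hcont : ∀ k γ a, ∀ z ∈ ball (C.c a) (11 / 4 * C.r a),
      ContinuousOn (u k γ a) (closedBall z δ) := fun k γ a z hz y hy =>
    ((hu k).smooth γ a y (hVΩ a (hsub a z hz hy))).continuousAt.continuousWithinAt
  have h2 : ∀ a, ∀ z ∈ ball (C.c a) (2 * C.r a), z ∈ ball (C.c a) (9 / 4 * C.r a) := fun a z hz =>
    ball_subset_ball (by linarith [C.r_pos a]) hz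
  have h3 : ∀ a, ∀ z ∈ ball (C.c a) (9 / 4 * C.r a), z ∈ ball (C.c a) (11 / 4 * C.r a) :=
    fun a z hz => ball_subset_ball (by linarith [C.r_pos a]) hz
  -- the mollified sections
  obtain ⟨M, hMdef⟩ : ∃ M : ℕ → Γ → C.I → Cm n → H, M = fun k γ a z => moH η (u k γ a) z :=
    ⟨_, rfl⟩
  have hin : ∀ k γ a, ∀ z ∈ ball (C.c a) (11 / 4 * C.r a), ∀ e : H,
      ⟪M k γ a z, e⟫_ℝ = mo η (fun y => ⟪u k γ a y, e⟫_ℝ) z := by
    intro k γ a z hz e
    rw [hMdef]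
    exact inner_moH hηc hηδ (hcont k γ a z hz) e
  have hequi : ∀ k g γ a, ∀ z ∈ ball (C.c a) (11 / 4 * C.r a),
      M k (g * γ) a z = π g (M k γ a z) + b g := by
    intro k g γ a z hz
    rw [hMdef]
    exact moH_equi hηc hηδ hη1 (hcont k γ a z hz) (π g) (b g) fun y hy =>
      (hu k).equi g γ a y (hVΩ a (hsub a z hz (ball_subset_closedBall hy)))
  have hbd : ∀ k γ a, ∀ z ∈ ball (C.c a) (11 / 4 * C.r a),
      M k γ a z ∈ closedBall (0 : H) (1 + S * M₀ + ‖b γ‖) := by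
    intro k γ a z hz
    have e1 : ‖M k 1 a z‖ ≤ 1 + S * M₀ := by
      have e2 := norm_moH_le hηc hηδ hη0 hη1 hS' (hsub a z hz) (hcont k 1 a z hz)
        (V.intV (nsq_cont (hu k) 1 a))
      rw [hMdef]
      refine e2.trans (add_le_add_right ?_ 1)
      exact mul_le_mul_of_nonneg_left (hL k a) hS0
    have e2 := hequi k γ 1 a z hz
    rw [mul_one] at e2
    rw [mem_closedBall_zero_iff, e2]
    refine (norm_add_le _ _).trans ?_
    rw [LinearIsometryEquiv.norm_map]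
    linarith
  -- pointwise limits
  have hlim0 : ∀ γ a z, ∃ x : H, z ∈ ball (C.c a) (11 / 4 * C.r a) →
      Tendsto (fun k => M k γ a z) (𝒰 : Filter ℕ) (𝓝 x) := by
    intro γ a z
    by_cases hz : z ∈ ball (C.c a) (11 / 4 * C.r a)
    · have h4 : ∀ᶠ k in (𝒰 : Filter ℕ), M k γ a z ∈ closedBall (0 : H) (1 + S * M₀ + ‖b γ‖) :=
        Eventually.of_forall fun k => hbd k γ a z hz
      obtain ⟨x, -, hx⟩ := (isCompact_closedBall (0 : H)
        (1 + S * M₀ + ‖b γ‖)).ultrafilter_le_nhds (𝒰.map fun k => M k γ a z)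
        (le_principal_iff.2 h4)
      exact ⟨x, fun _ => hx⟩
    · exact ⟨0, fun h => absurd h hz⟩
  choose Ψ hΨ using hlim0
  have hΨe : ∀ (e : H) γ a, ∀ z ∈ ball (C.c a) (11 / 4 * C.r a),
      Tendsto (fun k => mo η (fun y => ⟪u k γ a y, e⟫_ℝ) z) (𝒰 : Filter ℕ) (𝓝 ⟪Ψ γ a z, e⟫_ℝ) := by
    intro e γ a z hz
    have h4 : Tendsto (fun k => ⟪M k γ a z, e⟫_ℝ) (𝒰 : Filter ℕ) (𝓝 ⟪Ψ γ a z, e⟫_ℝ) :=
      (hΨ γ a z hz).inner tendsto_const_nhds
    refine h4.congr fun k => ?_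
    exact hin k γ a z hz e
  -- one ball
  have hloc : ∀ (e : H) γ a, _ := fun e γ a => limit_local (C.r_pos a) hδ0 (hδ a) hM
    (mul_nonneg hL0 (norm_nonneg e)) (m := fun k => mo η (fun y => ⟪u k γ a y, e⟫_ℝ))
    (Φ := fun z => ⟪Ψ γ a z, e⟫_ℝ) (𝒰 := (𝒰 : Filter ℕ)) (ε := fun k => B * (ε k * ‖e‖ ^ 2))
    (fun k => (hA k e).smooth_mo hM hδ γ a)
    (fun k z hz z' hz' => by
      have := (hA k e).lip hM hδ γ a z hz z' hz'
      rwa [hLe] at this)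
    (fun k z hz => by
      have hr := C.r_pos a
      have hd := hδ a
      have e2 := (hMol (C.c a) (11 / 4 * C.r a) (3 * C.r a) (by positivity) (by linarith) _
        ((hA k e).cdOn γ a)).2.2.2.2.1 z hz
      exact e2.trans (mul_le_mul_of_nonneg_left ((hA k e).d2 γ a) hB.le))
    (by simpa using (hε𝒰.mul_const (‖e‖ ^ 2)).const_mul B)
    (fun z hz => hΨe e γ a z hz)
  obtain ⟨U, hU⟩ : ∃ U : H → Γ → C.I → Cm n → ℝ, U = fun e γ a =>
    mo η ((closedBall (C.c a) (5 / 2 * C.r a)).indicator (fun z => ⟪Ψ γ a z, e⟫_ℝ)) := ⟨_, rfl⟩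
  have hUs : ∀ e γ a, ContDiff ℝ ∞ (U e γ a) := fun e γ a => by
    rw [hU]; exact (hloc e γ a).1
  have hUΦ : ∀ e γ a, ∀ z ∈ ball (C.c a) (9 / 4 * C.r a), U e γ a z = ⟪Ψ γ a z, e⟫_ℝ :=
    fun e γ a => by rw [hU]; exact (hloc e γ a).2.1
  have hUH : ∀ e γ a, ∀ z ∈ ball (C.c a) (9 / 4 * C.r a), cHess (U e γ a) z = 0 :=
    fun e γ a => by rw [hU]; exact (hloc e γ a).2.2
  set bs := stdOrthonormalBasis ℝ H with hbs
  obtain ⟨h, hh⟩ : ∃ h : Γ → C.I → Cm n → H, h = fun γ a z => ∑ i, U (bs i) γ a z • bs i :=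
    ⟨_, rfl⟩
  have hhΨ : ∀ γ a, ∀ z ∈ ball (C.c a) (9 / 4 * C.r a), h γ a z = Ψ γ a z := by
    intro γ a z hz
    rw [hh]
    show ∑ i, U (bs i) γ a z • bs i = Ψ γ a z
    have e1 : ∀ i, U (bs i) γ a z = ⟪bs i, Ψ γ a z⟫_ℝ := fun i => by
      rw [hUΦ (bs i) γ a z hz, real_inner_comm]
    simp only [e1]
    exact bs.sum_repr' (Ψ γ a z)
  have hlip : ∀ k γ a, ∀ z ∈ ball (C.c a) (11 / 4 * C.r a),
      ∀ z' ∈ ball (C.c a) (11 / 4 * C.r a), ‖M k γ a z - M k γ a z'‖ ≤ L * ‖z - z'‖ := by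
    intro k γ a z hz z' hz'
    set e := M k γ a z - M k γ a z' with he
    have e1 := (hA k e).lip hM hδ γ a z hz z' hz'
    rw [hLe, ← hin k γ a z hz e, ← hin k γ a z' hz' e, ← inner_sub_left, ← he,
      real_inner_self_eq_norm_sq] at e1
    have e2 := (le_abs_self _).trans e1
    rcases (norm_nonneg e).eq_or_lt with h0 | h0
    · rw [← h0]
      positivity
    · have e3 : ‖e‖ * ‖e‖ ≤ ‖e‖ * (L * ‖z - z'‖) := by
        calc ‖e‖ * ‖e‖ = ‖e‖ ^ 2 := by ring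
          _ ≤ L * ‖e‖ * ‖z - z'‖ := e2
          _ = _ := by ring
      exact le_of_mul_le_mul_left e3 h0
  have hΨlip : ∀ γ a, ∀ z ∈ ball (C.c a) (11 / 4 * C.r a),
      ∀ z' ∈ ball (C.c a) (11 / 4 * C.r a), ‖Ψ γ a z - Ψ γ a z'‖ ≤ L * ‖z - z'‖ := by
    intro γ a z hz z' hz'
    exact le_of_tendsto ((hΨ γ a z hz).sub (hΨ γ a z' hz')).norm
      (Eventually.of_forall fun k => hlip k γ a z hz z' hz')
  refine ⟨h, ?_, ?_, ?_, ?_, L, ?_⟩
  · -- smooth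
    intro γ a z _
    rw [hh]
    exact ContDiffAt.sum fun i _ => ((hUs (bs i) γ a).contDiffAt).smul contDiffAt_const
  · -- pluriharmonic
    intro γ a z hz e
    have hz9 := h2 a z hz
    rw [← hUH e γ a z hz9]
    refine cHess_congr' ?_
    filter_upwards [isOpen_ball.mem_nhds hz9] with y hy
    rw [hhΨ γ a y hy, hUΦ e γ a y hy]
  · -- compatibility
    intro γ a d z hz hza hzd
    rw [hhΨ γ a z (h2 a z hza), hhΨ _ d _ (h2 d _ hzd)]
    refine ext_inner_right ℝ fun e => ?_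
    have e1 := hΨe e γ a z (h3 a z (h2 a z hza))
    have e2 := hΨe e (γ * C.κ a d z) d (C.T a d z) (h3 d _ (h2 d _ hzd))
    have e3 := (e1.sub e2).abs
    have e4 : |⟪Ψ γ a z, e⟫_ℝ - ⟪Ψ (γ * C.κ a d z) d (C.T a d z), e⟫_ℝ| ≤ 0 := by
      refine le_of_forall_pos_le_add fun κ hκ => ?_
      rw [zero_add]
      obtain ⟨ε₀, hε₀, hcl⟩ := close hM hδ (C₁ * ‖e‖ ^ 2) hz hza hzd hκ
      have hεe : Tendsto (fun k => ε k * ‖e‖ ^ 2) (𝒰 : Filter ℕ) (𝓝 0) := by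
        simpa using hε𝒰.mul_const (‖e‖ ^ 2)
      refine le_of_tendsto e3 ?_
      filter_upwards [hεe.eventually (ge_mem_nhds hε₀)] with k hk
      exact hcl _ hk (fun γ a z => ⟪u k γ a z, e⟫_ℝ) (hA k e) γ
    have e5 := abs_eq_zero.1 (le_antisymm e4 (abs_nonneg _))
    linarith
  · -- equivariance
    intro g γ a z hz
    rw [hhΨ _ a z (h2 a z hz), hhΨ γ a z (h2 a z hz)]
    have hz' := h3 a z (h2 a z hz)
    have e1 := hΨ (g * γ) a z hz'
    have e2 : Tendsto (fun k => π g (M k γ a z) + b g) (𝒰 : Filter ℕ) (𝓝 (π g (Ψ γ a z) + b g)) :=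
      (((π g).continuous.tendsto _).comp (hΨ γ a z hz')).add_const _
    refine tendsto_nhds_unique e1 (e2.congr fun k => ?_)
    exact (hequi k g γ a z hz').symm
  · -- the gradient
    intro γ a z hz
    refine norm_fderiv_le_of_lip' ℝ hL0 ?_
    filter_upwards [isOpen_ball.mem_nhds (h2 a z hz)] with y hy
    rw [hhΨ γ a y hy, hhΨ γ a z (h2 a z hz)]
    exact hΨlip γ a y (h3 a y hy) z (h3 a z (h2 a z hz))

end Vale.Agent.P284.H913.LF
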