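import Vale.Agent.P284.H35.LimLoc
import Vale.Agent.P284.H639.T6
import Mathlib.Analysis.InnerProductSpace.PiL2

/-!
# P284, theorem T, LimF (helper913): vector valued mollification, `L²` bound for affine sections
-/

open scoped Manifold ContDiff Topology Pointwise ComplexConjugate ComplexOrder InnerProductSpace
open Filter Set Metric MeasureTheory

noncomputable section

namespace Vale.Agent.P284.H913.LF

open Vale.Agent.P272.K Vale.Agent.P284.H894 Vale.Agent.P284.H894.V Vale.Agent.P284.H287.T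

section moH
open Vale.Agent.P284.H35.V

variable {n : ℕ} {H : Type} [NormedAddCommGroup H] [InnerProductSpace ℝ H] [CompleteSpace H]
  {δ : ℝ} {η : Cm n → ℝ}

/-- vector valued mollification -/
def moH (η : Cm n → ℝ) (f : Cm n → H) (z : Cm n) : H := ∫ t, η t • f (z + t)

omit [CompleteSpace H] in
lemma integrable_moH (hη : Continuous η) (h : ∀ t, δ ≤ ‖t‖ → η t = 0) {f : Cm n → H} {z : Cm n}
    (hf : ContinuousOn f (closedBall z δ)) : Integrable (fun t => η t • f (z + t)) := by
  have h1 : IntegrableOn (fun t => η t • f (z + t)) (closedBall 0 δ) := by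
    refine ContinuousOn.integrableOn_compact (isCompact_closedBall _ _) ?_
    refine hη.continuousOn.smul (hf.comp (by fun_prop) ?_)
    intro t ht
    simpa using ht
  refine (integrableOn_iff_integrable_of_support_subset ?_).1 h1
  intro t ht
  by_contra hc
  refine ht ?_
  have : δ ≤ ‖t‖ := by
    have : ¬ ‖t‖ ≤ δ := by simpa using hc
    exact (not_le.1 this).le
  simp [h t this]

lemma inner_moH (hη : Continuous η) (h : ∀ t, δ ≤ ‖t‖ → η t = 0) {f : Cm n → H} {z : Cm n}
    (hf : ContinuousOn f (closedBall z δ)) (e : H) :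
    ⟪moH η f z, e⟫_ℝ = mo η (fun y => ⟪f y, e⟫_ℝ) z := by
  rw [real_inner_comm]
  unfold moH mo
  rw [← integral_inner (integrable_moH hη h hf)]
  refine integral_congr_ae (Eventually.of_forall fun t => ?_)
  show ⟪e, η t • f (z + t)⟫_ℝ = η t * ⟪f (z + t), e⟫_ℝ
  rw [real_inner_smul_right, real_inner_comm]

lemma moH_equi (hη : Continuous η) (h : ∀ t, δ ≤ ‖t‖ → η t = 0) (h1 : ∫ t, η t = 1)
    {f g : Cm n → H} {z : Cm n} (hf : ContinuousOn f (closedBall z δ)) (A : H ≃ₗᵢ[ℝ] H) (c : H)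
    (hfg : ∀ y ∈ ball z δ, g y = A (f y) + c) : moH η g z = A (moH η f z) + c := by
  have e1 : moH η g z = ∫ t, (A (η t • f (z + t)) + η t • c) := by
    unfold moH
    refine integral_congr_ae (Eventually.of_forall fun t => ?_)
    show η t • g (z + t) = A (η t • f (z + t)) + η t • c
    by_cases ht : δ ≤ ‖t‖
    · rw [h t ht]; simp
    · rw [hfg (z + t) (by simpa using not_le.1 ht), smul_add, map_smul]
  have hi := integrable_moH hη h hf
  have hi2 : Integrable (fun t => A (η t • f (z + t))) :=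
    (A.toContinuousLinearEquiv : H →L[ℝ] H).integrable_comp hi
  have hi3 : Integrable (fun t => η t • c) :=
    (hη.integrable_of_hasCompactSupport (compact_of h)).smul_const c
  rw [e1, integral_add hi2 hi3, integral_smul_const, h1, one_smul]
  congr 1
  exact (A.toContinuousLinearEquiv : H →L[ℝ] H).integral_comp_comm hi

omit [CompleteSpace H] in
/-- the mollified value is bounded by the `L²` norm -/
lemma norm_moH_le (hη : Continuous η) (h : ∀ t, δ ≤ ‖t‖ → η t = 0) (h0 : ∀ t, 0 ≤ η t)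
    (h1 : ∫ t, η t = 1) {S : ℝ} (hS : ∀ t, η t ≤ S) {f : Cm n → H} {z : Cm n} {U : Set (Cm n)}
    (hzU : closedBall z δ ⊆ U)
    (hf : ContinuousOn f (closedBall z δ)) (hfi : IntegrableOn (fun y => ‖f y‖ ^ 2) U) :
    ‖moH η f z‖ ≤ 1 + S * ∫ y in U, ‖f y‖ ^ 2 := by
  have hηi : Integrable η := hη.integrable_of_hasCompactSupport (compact_of h)
  have hi2 : Integrable (fun t => η t * ‖f (z + t)‖ ^ 2) :=
    integrable_mo hη h (f := fun y => ‖f y‖ ^ 2) (hf.norm.pow 2)
  have e1 : ‖moH η f z‖ ≤ ∫ t, (η t + η t * ‖f (z + t)‖ ^ 2) := by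
    refine (norm_integral_le_integral_norm _).trans ?_
    refine integral_mono (integrable_moH hη h hf).norm (hηi.add hi2) fun t => ?_
    show ‖η t • f (z + t)‖ ≤ η t + η t * ‖f (z + t)‖ ^ 2
    rw [norm_smul, Real.norm_of_nonneg (h0 t)]
    have h3 : ‖f (z + t)‖ ≤ 1 + ‖f (z + t)‖ ^ 2 := by
      nlinarith [sq_nonneg (‖f (z + t)‖ - 1), sq_nonneg ‖f (z + t)‖, norm_nonneg (f (z + t))]
    calc η t * ‖f (z + t)‖ ≤ η t * (1 + ‖f (z + t)‖ ^ 2) := mul_le_mul_of_nonneg_left h3 (h0 t)
      _ = _ := by ring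
  rw [integral_add hηi hi2, h1] at e1
  refine e1.trans (add_le_add_right ?_ 1)
  have e2 : ∫ t, η t * ‖f (z + t)‖ ^ 2 = ∫ y, η (y - z) * ‖f y‖ ^ 2 := by
    have h3 := integral_add_left_eq_self (μ := (volume : Measure (Cm n)))
      (fun y => η (y - z) * ‖f y‖ ^ 2) z
    simp only [add_sub_cancel_left] at h3
    exact h3
  have e3 : ∫ y, η (y - z) * ‖f y‖ ^ 2 = ∫ y in U, η (y - z) * ‖f y‖ ^ 2 := by
    symm
    refine setIntegral_eq_integral_of_forall_compl_eq_zero fun y hy => ?_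
    have h4 : δ ≤ ‖y - z‖ := by
      by_contra hc
      refine hy (hzU ?_)
      rw [mem_closedBall, dist_eq_norm]
      exact (not_le.1 hc).le
    rw [h _ h4, zero_mul]
  rw [e2, e3, ← integral_const_mul]
  refine integral_mono_of_nonneg (Eventually.of_forall fun y => ?_) (hfi.const_mul S)
    (Eventually.of_forall fun y => ?_)
  · exact mul_nonneg (h0 _) (sq_nonneg _)
  · exact mul_le_mul_of_nonneg_right (hS _) (sq_nonneg _)

end moH

section L2
open Vale.Agent.P284.H913.V Vale.Agent.P284.H639.T6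

variable {n : ℕ} {Γ : Type} [Group Γ] {C : Coc n Γ}
  {H : Type} [NormedAddCommGroup H] [InnerProductSpace ℝ H]

lemma nsq_cont {u : Γ → C.I → Cm n → H} {π : Γ →* (H ≃ₗᵢ[ℝ] H)} {b : Γ → H} (hu : Sec C π b u)
    (γ : Γ) (a : C.I) : ContinuousOn (fun z => ‖u γ a z‖ ^ 2) (C.Ω a) := fun z hz =>
  ((hu.smooth γ a z hz).continuousAt.norm.pow 2).continuousWithinAt

/-- the `L²` norm of an affine section on every ball -/
lemma L2_bound (P : PU C) (K : KM C) (π : Γ →* (H ≃ₗᵢ[ℝ] H)) (b : Γ → H) (B : ℝ) :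
    ∃ M : ℝ, ∀ u, Sec C π b u → BInt P K (fun a z => ‖u 1 a z‖ ^ 2) ≤ B →
      ∀ a, ∫ z in C.V a, ‖u 1 a z‖ ^ 2 ≤ M := by
  set β : ℝ := ∑ κ ∈ C.N, ‖b κ‖ ^ 2 with hβ
  have hβ0 : 0 ≤ β := Finset.sum_nonneg fun _ _ => sq_nonneg _
  have hβκ : ∀ κ ∈ C.N, ‖b κ‖ ^ 2 ≤ β := fun κ hκ =>
    Finset.single_le_sum (f := fun κ => ‖b κ‖ ^ 2) (fun _ _ => sq_nonneg _) hκ
  clear_value β
  refine ⟨K.lam⁻¹ * (2 * B + 2 * β * BInt P K (fun _ _ => 1)), fun u hu hB a => ?_⟩
  have hFc : ∀ a, ContinuousOn (fun z => ‖u 1 a z‖ ^ 2) (C.Ω a) := fun a => nsq_cont hu 1 a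
  -- the bound with the volume
  have key : ∫ z in C.V a, ‖u 1 a z‖ ^ 2 * vol (K.w a) z ≤
      2 * B + 2 * β * BInt P K (fun _ _ => 1) := by
    have e1 : ∫ z in C.V a, ‖u 1 a z‖ ^ 2 * vol (K.w a) z =
        ∑ d, ∫ z in C.V a, P.χ d a z * ‖u 1 a z‖ ^ 2 * vol (K.w a) z := by
      have hi : ∀ d ∈ (Finset.univ : Finset C.I),
          IntegrableOn (fun z => P.χ d a z * ‖u 1 a z‖ ^ 2 * vol (K.w a) z) (C.V a) := fun d _ =>
        intV (((chi_cont P d a).mul (hFc a)).mul (vol_cont K a))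
      rw [← integral_finsetSum _ hi]
      refine setIntegral_congr_fun (isOpen_V C a).measurableSet fun z hz => ?_
      show ‖u 1 a z‖ ^ 2 * vol (K.w a) z = ∑ d, P.χ d a z * ‖u 1 a z‖ ^ 2 * vol (K.w a) z
      rw [← Finset.sum_mul, ← Finset.sum_mul, P.sum_one a z (V_sub C a hz), one_mul]
    have e2 : ∀ d, ∫ z in C.V a, P.χ d a z * ‖u 1 a z‖ ^ 2 * vol (K.w a) z ≤
        ∫ z in C.V d, P.χ d d z * (2 * ‖u 1 d z‖ ^ 2 + 2 * β) * vol (K.w d) z := by
      intro d
      have gi : IntegrableOn (fun z => P.χ d d z * (2 * ‖u 1 d z‖ ^ 2 + 2 * β) * vol (K.w d) z)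
          (C.V d) :=
        intV (((chi_cont P d d).mul (((hFc d).const_mul 2).add continuousOn_const)).mul
          (vol_cont K d))
      rw [BD.restrict P K (F := fun a z => ‖u 1 a z‖ ^ 2) d a,
        transfer K (isOpen_DD C a d (isOpen_V C a) (isOpen_V C d)) (fun z hz => hz.1)
          (fun z => P.χ d a z * ‖u 1 a z‖ ^ 2)
          (fun y => P.χ d d y * ‖u 1 a (C.T d a y)‖ ^ 2) (fun z hz => by
            rw [T_T C hz.1, P.compat d a d z hz.1]), image_DD]
      have hDm : MeasurableSet (DD C d a (C.V d) (C.V a)) :=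
        (isOpen_DD C d a (isOpen_V C d) (isOpen_V C a)).measurableSet
      have hDs : DD C d a (C.V d) (C.V a) ⊆ C.V d := fun y hy => hy.2.1
      have hnn : ∀ y ∈ C.V d, 0 ≤ P.χ d d y * (2 * ‖u 1 d y‖ ^ 2 + 2 * β) * vol (K.w d) y :=
        fun y hy => mul_nonneg (mul_nonneg (P.nonneg d d y) (by positivity))
          (vol_nn K (V_sub C d hy))
      refine le_trans (b := ∫ y in DD C d a (C.V d) (C.V a),
        P.χ d d y * (2 * ‖u 1 d y‖ ^ 2 + 2 * β) * vol (K.w d) y) ?_ ?_
      · refine integral_mono_of_nonneg ?_ (gi.mono_set hDs) ?_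
        · filter_upwards [ae_restrict_mem hDm] with y hy
          exact mul_nonneg (mul_nonneg (P.nonneg d d y) (sq_nonneg _))
            (vol_nn K (V_sub C d hy.2.1))
        · filter_upwards [ae_restrict_mem hDm] with y hy
          have hz0 := C.T_mem d a y hy.1
          have h2 : u 1 a (C.T d a y) = π (C.κ a d (C.T d a y)) (u 1 d y) +
              b (C.κ a d (C.T d a y)) := by
            rw [hu.compat 1 a d _ hz0, T_T C hy.1, one_mul]
            have h3 := hu.equi (C.κ a d (C.T d a y)) 1 d y (V_sub C d hy.2.1)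
            rwa [mul_one] at h3
          have hκ : C.κ a d (C.T d a y) ∈ C.N :=
            C.κ_mem a d _ hz0 hy.2.2 (by rw [T_T C hy.1]; exact hy.2.1)
          have h4 : ‖u 1 a (C.T d a y)‖ ^ 2 ≤ 2 * ‖u 1 d y‖ ^ 2 + 2 * β := by
            rw [h2]
            have h5 := norm_add_le (π (C.κ a d (C.T d a y)) (u 1 d y)) (b (C.κ a d (C.T d a y)))
            rw [LinearIsometryEquiv.norm_map] at h5
            have h6 := hβκ _ hκ
            have h7 := norm_nonneg (π (C.κ a d (C.T d a y)) (u 1 d y) +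
              b (C.κ a d (C.T d a y)))
            nlinarith [sq_nonneg (‖u 1 d y‖ - ‖b (C.κ a d (C.T d a y))‖), norm_nonneg (u 1 d y),
              norm_nonneg (b (C.κ a d (C.T d a y)))]
          exact mul_le_mul_of_nonneg_right (mul_le_mul_of_nonneg_left h4 (P.nonneg d d y))
            (vol_nn K (V_sub C d hy.2.1))
      · refine setIntegral_mono_set gi ?_ (Eventually.of_forall fun y hy => hDs hy)
        filter_upwards [ae_restrict_mem (isOpen_V C d).measurableSet] with y hy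
        exact hnn y hy
    have e3 : ∑ d, ∫ z in C.V d, P.χ d d z * (2 * ‖u 1 d z‖ ^ 2 + 2 * β) * vol (K.w d) z =
        2 * BInt P K (fun a z => ‖u 1 a z‖ ^ 2) + 2 * β * BInt P K (fun _ _ => 1) := by
      unfold BInt
      rw [Finset.mul_sum, Finset.mul_sum, ← Finset.sum_add_distrib]
      refine Finset.sum_congr rfl fun d _ => ?_
      rw [← integral_const_mul, ← integral_const_mul, ← integral_add]
      · refine integral_congr_ae (Eventually.of_forall fun z => ?_)
        simp only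
        ring
      · exact (intV (((chi_cont P d d).mul (hFc d)).mul (vol_cont K d))).const_mul 2
      · exact (intV (((chi_cont P d d).mul continuousOn_const).mul (vol_cont K d))).const_mul _
    rw [e1]
    refine (Finset.sum_le_sum fun d _ => e2 d).trans ?_
    rw [e3]
    linarith
  have hlow : K.lam * ∫ z in C.V a, ‖u 1 a z‖ ^ 2 ≤
      ∫ z in C.V a, ‖u 1 a z‖ ^ 2 * vol (K.w a) z := by
    rw [← integral_const_mul]
    refine setIntegral_mono_on ((intV (hFc a)).const_mul _) (intV ((hFc a).mul (vol_cont K a)))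
      (isOpen_V C a).measurableSet fun z hz => ?_
    rw [mul_comm]
    exact mul_le_mul_of_nonneg_left (K.vol_low a z (V_sub C a hz)) (sq_nonneg _)
  rw [inv_mul_eq_div, le_div_iff₀ K.lam_pos, mul_comm]
  exact hlow.trans key

end L2

end Vale.Agent.P284.H913.LF
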