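import Vale.Agent.P284.H913.C1
import Vale.Agent.P272.K.Stmt
import Mathlib.Topology.Algebra.MvPolynomial
import Mathlib.Analysis.Complex.CauchyIntegral
import Mathlib.Analysis.Analytic.Uniqueness
import Mathlib.Topology.LocallyConstant.Basic

/-!
# P284, block S5N: sheets of a polynomial map and the norm lemma

A `Sheet n m` is a connected piece `T` of a level set of a polynomial map of `ℂⁿ`, spread finitely
over `{a0 ≠ 0} ⊂ ℂᵐ` by `pr`.
-/

open scoped Topology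
open Filter Set Metric MvPolynomial

noncomputable section

namespace Vale.Agent.P284.H913

open Vale.Agent.P272.K

/-- a sheet -/
structure Sheet (n m : ℕ) where
  /-- the piece of the level set -/
  T : Set (Cm n)
  /-- the projection -/
  pr : Cm n → Cm m
  /-- the equation of the hypersurface left out -/
  a0 : MvPolynomial (Fin m) ℂ
  /-- local sections -/
  σ : Cm n → Cm m → Cm n
  a0_ne : a0 ≠ 0
  pr_cont : Continuous pr
  conn : IsPreconnected T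
  off : ∀ z ∈ T, eval (pr z) a0 ≠ 0
  sec : ∀ z ∈ T, σ z (pr z) = z
  sec_ev : ∀ z ∈ T, ∀ᶠ w in 𝓝 (pr z), σ z w ∈ T ∧ pr (σ z w) = w ∧
    DifferentiableAt ℂ (σ z) w
  sec_inv : ∀ z ∈ T, ∀ᶠ y in 𝓝[T] z, σ z (pr y) = y
  proper : ∀ K : Set (Cm m), IsCompact K → (∀ w ∈ K, eval w a0 ≠ 0) → IsCompact (T ∩ pr ⁻¹' K)
  /-- bound for the number of points over a point -/
  deg : ℕ
  fin : ∀ w, eval w a0 ≠ 0 → (T ∩ pr ⁻¹' {w}).Finite ∧ (T ∩ pr ⁻¹' {w}).ncard ≤ deg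
  s : ℕ
  K : ℝ
  K_nn : 0 ≤ K
  bd : ∀ z ∈ T, ∀ j, ‖z j‖ * ‖eval (pr z) a0‖ ≤ K * (1 + ‖pr z‖) ^ s
  /-- exponent of the denominator in `dbd` -/
  k : ℕ
  dbd : ∀ z ∈ T, ‖fderiv ℂ (σ z) (pr z)‖ * ‖eval (pr z) a0‖ ^ k ≤ K * (1 + ‖pr z‖) ^ s

namespace Sheet

variable {n m : ℕ} (S : Sheet n m)

theorem isOpen_off (a : MvPolynomial (Fin m) ℂ) : IsOpen {w : Cm m | eval w a ≠ 0} :=
  isOpen_ne_fun (MvPolynomial.continuous_eval a) continuous_const

/-- agreement of the sections -/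
theorem agree (z : Cm n) (hz : z ∈ S.T) :
    ∀ᶠ w in 𝓝 (S.pr z), S.σ z w ∈ S.T ∧ S.pr (S.σ z w) = w ∧ DifferentiableAt ℂ (S.σ z) w ∧
      ∀ᶠ w' in 𝓝 w, S.σ (S.σ z w) w' = S.σ z w' := by
  filter_upwards [(S.sec_ev z hz).eventually_nhds] with w hw
  obtain ⟨h1, h2, h3⟩ := hw.self_of_nhds
  refine ⟨h1, h2, h3, ?_⟩
  have h4 : Tendsto (S.σ z) (𝓝 w) (𝓝[S.T] (S.σ z w)) :=
    tendsto_nhdsWithin_iff.2 ⟨h3.continuousAt, hw.mono fun w' h => h.1⟩
  filter_upwards [h4.eventually (S.sec_inv _ h1), hw] with w' h5 h6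
  rw [h6.2.1] at h5
  exact h5

theorem agree' (z : Cm n) (hz : z ∈ S.T) :
    ∀ᶠ y in 𝓝[S.T] z, S.σ z (S.pr y) = y ∧ ∀ᶠ w in 𝓝 (S.pr y), S.σ y w = S.σ z w := by
  have h1 : Tendsto S.pr (𝓝[S.T] z) (𝓝 (S.pr z)) :=
    S.pr_cont.continuousAt.tendsto.mono_left nhdsWithin_le_nhds
  filter_upwards [S.sec_inv z hz, h1.eventually (S.agree z hz)] with y h2 h3
  refine ⟨h2, ?_⟩
  have := h3.2.2.2
  rwa [h2] at this

/-- the points over `w` -/
def fib (w : Cm m) : Set (Cm n) := S.T ∩ S.pr ⁻¹' {w}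

/-- the points over the points near `w₀` -/
theorem fib_near (w₀ : Cm m) (h₀ : eval w₀ S.a0 ≠ 0) :
    ∀ᶠ w in 𝓝 w₀, S.fib w = (fun z => S.σ z w) '' (S.fib w₀) ∧
      InjOn (fun z => S.σ z w) (S.fib w₀) := by
  classical
  have hfin : (S.fib w₀).Finite := (S.fin w₀ h₀).1
  have hmem : ∀ z ∈ S.fib w₀, z ∈ S.T ∧ S.pr z = w₀ := fun z hz => ⟨hz.1, hz.2⟩
  -- the sections take values in the fibre
  have h1 : ∀ᶠ w in 𝓝 w₀, ∀ z ∈ S.fib w₀, S.σ z w ∈ S.fib w := by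
    rw [eventually_all_finite hfin]
    intro z hz
    have h := S.sec_ev z (hmem z hz).1
    rw [(hmem z hz).2] at h
    exact h.mono fun w hw => ⟨hw.1, hw.2.1⟩
  -- injectivity
  have h2 : ∀ᶠ w in 𝓝 w₀, InjOn (fun z => S.σ z w) (S.fib w₀) := by
    have h3 : ∀ᶠ w in 𝓝 w₀, ∀ z ∈ S.fib w₀, ∀ z' ∈ S.fib w₀, z ≠ z' → S.σ z w ≠ S.σ z' w := by
      rw [eventually_all_finite hfin]
      intro z hz
      rw [eventually_all_finite hfin]
      intro z' hz'
      by_cases hzz : z = z'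
      · exact Eventually.of_forall fun w h => absurd hzz h
      · have c1 := (S.sec_ev z (hmem z hz).1).self_of_nhds.2.2.continuousAt
        have c2 := (S.sec_ev z' (hmem z' hz').1).self_of_nhds.2.2.continuousAt
        rw [(hmem z hz).2] at c1
        rw [(hmem z' hz').2] at c2
        have e1 := S.sec z (hmem z hz).1
        have e2 := S.sec z' (hmem z' hz').1
        rw [(hmem z hz).2] at e1
        rw [(hmem z' hz').2] at e2
        have h5 : S.σ z w₀ ≠ S.σ z' w₀ := by rw [e1, e2]; exact hzz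
        have h6 := (isOpen_ne_fun (continuous_fst (X := Cm n) (Y := Cm n))
          continuous_snd).mem_nhds (show (S.σ z w₀, S.σ z' w₀).1 ≠ (S.σ z w₀, S.σ z' w₀).2 from h5)
        exact ((c1.prodMk c2).tendsto.eventually h6).mono fun w hw _ => hw
    filter_upwards [h3] with w hw z hz z' hz' h
    by_contra hne
    exact hw z hz z' hz' hne h
  -- no other points
  have h3 : ∀ᶠ w in 𝓝 w₀, ∀ y ∈ S.fib w, ∃ z ∈ S.fib w₀, S.σ z w = y := by
    have ho : ∀ z ∈ S.fib w₀, ∃ O : Set (Cm n), IsOpen O ∧ z ∈ O ∧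
        ∀ y ∈ O, y ∈ S.T → S.σ z (S.pr y) = y := by
      intro z hz
      have := S.sec_inv z (hmem z hz).1
      rw [eventually_nhdsWithin_iff] at this
      obtain ⟨O, h, hO, hzO⟩ := _root_.eventually_nhds_iff.1 this
      exact ⟨O, hO, hzO, h⟩
    choose! O hO hzO hOs using ho
    obtain ⟨ε, hε, hB⟩ := Metric.isOpen_iff.1 (isOpen_off S.a0) w₀ h₀
    have hK : IsCompact (S.T ∩ S.pr ⁻¹' (closedBall w₀ (ε / 2))) :=
      S.proper _ (isCompact_closedBall _ _) fun w hw =>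
        hB (lt_of_le_of_lt (mem_closedBall.1 hw) (by linarith))
    have hQ : IsCompact ((S.T ∩ S.pr ⁻¹' (closedBall w₀ (ε / 2))) \ ⋃ z ∈ S.fib w₀, O z) :=
      hK.diff (isOpen_biUnion fun z hz => hO z hz)
    have hQ2 : IsClosed (S.pr '' ((S.T ∩ S.pr ⁻¹' (closedBall w₀ (ε / 2))) \
        ⋃ z ∈ S.fib w₀, O z)) := (hQ.image S.pr_cont).isClosed
    have hn : w₀ ∉ S.pr '' ((S.T ∩ S.pr ⁻¹' (closedBall w₀ (ε / 2))) \
        ⋃ z ∈ S.fib w₀, O z) := by
      rintro ⟨y, ⟨⟨hyT, -⟩, hyO⟩, hy⟩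
      have hyf : y ∈ S.fib w₀ := ⟨hyT, hy⟩
      exact hyO (mem_iUnion₂.2 ⟨y, hyf, hzO y hyf⟩)
    filter_upwards [hQ2.isOpen_compl.mem_nhds hn, closedBall_mem_nhds w₀ (half_pos hε)] with
      w hw1 hw2 y hy
    have hyw : S.pr y = w := hy.2
    have : y ∈ ⋃ z ∈ S.fib w₀, O z := by
      by_contra hno
      exact hw1 ⟨y, ⟨⟨hy.1, by rw [mem_preimage, hyw]; exact hw2⟩, hno⟩, hyw⟩
    obtain ⟨z, hz, hyO⟩ := mem_iUnion₂.1 this
    refine ⟨z, hz, ?_⟩
    have := hOs z hz y hyO hy.1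
    rwa [hyw] at this
  filter_upwards [h1, h2, h3] with w k1 k2 k3
  refine ⟨?_, k2⟩
  ext y
  constructor
  · intro hy
    obtain ⟨z, hz, h⟩ := k3 y hy
    exact ⟨z, hz, h⟩
  · rintro ⟨z, hz, rfl⟩
    exact k1 z hz

/-- the norm of a function on `T` -/
def nm (g : Cm n → ℂ) (w : Cm m) : ℂ := ∏ᶠ z ∈ S.fib w, g z

theorem nm_near (g : Cm n → ℂ) (w₀ : Cm m) (h₀ : eval w₀ S.a0 ≠ 0) :
    ∀ᶠ w in 𝓝 w₀, S.nm g w = ∏ z ∈ (S.fin w₀ h₀).1.toFinset, g (S.σ z w) := by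
  classical
  filter_upwards [S.fib_near w₀ h₀] with w hw
  have hcoe : S.fib w₀ = ((S.fin w₀ h₀).1.toFinset : Set (Cm n)) := by
    rw [Set.Finite.coe_toFinset]; rfl
  rw [nm, hw.1, finprod_mem_image hw.2, hcoe, finprod_mem_coe_finset]

/-- functions holomorphic along `T` -/
def Hol (g : Cm n → ℂ) : Prop :=
  ∀ z ∈ S.T, ∀ᶠ w in 𝓝 (S.pr z), DifferentiableAt ℂ (fun w => g (S.σ z w)) w

theorem nm_diff (g : Cm n → ℂ) (hg : S.Hol g) (w₀ : Cm m) (h₀ : eval w₀ S.a0 ≠ 0) :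
    ∀ᶠ w in 𝓝 w₀, DifferentiableAt ℂ (S.nm g) w := by
  classical
  have h1 : ∀ᶠ w in 𝓝 w₀, ∀ z ∈ (S.fin w₀ h₀).1.toFinset,
      DifferentiableAt ℂ (fun w => g (S.σ z w)) w := by
    rw [eventually_all_finset]
    intro z hz
    rw [Set.Finite.mem_toFinset] at hz
    have h := hg z hz.1
    have e : S.pr z = w₀ := hz.2
    rwa [e] at h
  filter_upwards [(S.nm_near g w₀ h₀).eventually_nhds, h1] with w h2 h3
  refine DifferentiableAt.congr_of_eventuallyEq ?_ h2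
  have h4 := HasFDerivAt.finsetProd fun z hz => (h3 z hz).hasFDerivAt
  refine h4.differentiableAt.congr_of_eventuallyEq (Eventually.of_forall fun w => rfl)

theorem ball_zero {m : ℕ} {h : Cm m → ℂ} {c : Cm m} {r : ℝ}
    (hd : ∀ w ∈ ball c r, DifferentiableAt ℂ h w) {w₁ : Cm m} (hw₁ : w₁ ∈ ball c r)
    (h0 : ∀ᶠ w in 𝓝 w₁, h w = 0) : ∀ w ∈ ball c r, h w = 0 := by
  intro w hw
  let L : ℂ → Cm m := fun t => w₁ + t • (w - w₁)
  have hL : Continuous L := by fun_prop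
  have hLd : Differentiable ℂ L := by fun_prop
  have hconv : Convex ℝ (L ⁻¹' ball c r) := by
    have h1 : Convex ℝ (ball (c - w₁) r) := convex_ball _ _
    have h2 : IsLinearMap ℝ (fun t : ℂ => t • (w - w₁)) :=
      ⟨fun a b => add_smul _ _ _, fun a b => smul_assoc _ _ _⟩
    have h3 := h1.is_linear_preimage h2
    refine (congrArg (Convex ℝ) (Set.ext fun t => ?_)).mp h3
    simp only [mem_preimage, mem_ball, dist_eq_norm, L]
    rw [show t • (w - w₁) - (c - w₁) = w₁ + t • (w - w₁) - c by abel]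
  have hopen : IsOpen (L ⁻¹' ball c r) := isOpen_ball.preimage hL
  have hdiff : DifferentiableOn ℂ (h ∘ L) (L ⁻¹' ball c r) := fun t ht =>
    ((hd _ ht).comp t (hLd t)).differentiableWithinAt
  have han := hdiff.analyticOnNhd hopen
  have h00 : (0 : ℂ) ∈ L ⁻¹' ball c r := by
    change L 0 ∈ ball c r
    simpa [L] using hw₁
  have h11 : (1 : ℂ) ∈ L ⁻¹' ball c r := by
    change L 1 ∈ ball c r
    simpa [L] using hw
  have hev : (h ∘ L) =ᶠ[𝓝 0] 0 := by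
    have : Tendsto L (𝓝 0) (𝓝 w₁) := by
      have h3 := hL.tendsto 0
      rwa [show L 0 = w₁ by simp [L]] at h3
    exact this.eventually h0
  have := han.eqOn_zero_of_preconnected_of_eventuallyEq_zero hconv.isPreconnected h00 hev h11
  simpa [L] using this

/-- `g` vanishes along `T` near `z` -/
def Van (g : Cm n → ℂ) (z : Cm n) : Prop := ∀ᶠ w in 𝓝 (S.pr z), g (S.σ z w) = 0

theorem van_loc (g : Cm n → ℂ) (hg : S.Hol g) (z : Cm n) (hz : z ∈ S.T) :
    ∀ᶠ y in 𝓝[S.T] z, (S.Van g y ↔ S.Van g z) := by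
  obtain ⟨r, hr, hB⟩ := Metric.eventually_nhds_iff_ball.1 (hg z hz)
  have h1 : Tendsto S.pr (𝓝[S.T] z) (𝓝 (S.pr z)) :=
    S.pr_cont.continuousAt.tendsto.mono_left nhdsWithin_le_nhds
  filter_upwards [S.agree' z hz, h1.eventually (ball_mem_nhds _ hr)] with y hy hyB
  constructor
  · intro h
    have h2 : ∀ᶠ w in 𝓝 (S.pr y), g (S.σ z w) = 0 := by
      filter_upwards [h, hy.2] with w a b
      rwa [b] at a
    have h3 := ball_zero hB hyB h2
    filter_upwards [ball_mem_nhds _ hr] with w hw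
    exact h3 w hw
  · intro h
    have h3 := ball_zero hB (mem_ball_self hr) h
    filter_upwards [isOpen_ball.mem_nhds hyB, hy.2] with w hw b
    rw [b]
    exact h3 w hw

/-- the identity theorem along `T` -/
theorem ident (g : Cm n → ℂ) (hg : S.Hol g) (z₁ : Cm n) (h₁ : z₁ ∈ S.T)
    (h : S.Van g z₁) : ∀ z ∈ S.T, g z = 0 := by
  have : PreconnectedSpace S.T := Subtype.preconnectedSpace S.conn
  have hlc : IsLocallyConstant (fun y : S.T => S.Van g y) := by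
    rw [IsLocallyConstant.iff_eventually_eq]
    intro z
    have h1 := S.van_loc g hg z z.2
    have h2 : Tendsto (Subtype.val : S.T → Cm n) (𝓝 z) (𝓝[S.T] (z : Cm n)) :=
      tendsto_nhdsWithin_iff.2 ⟨continuous_subtype_val.continuousAt,
        Eventually.of_forall fun y => y.2⟩
    exact (h2.eventually h1).mono fun y hy => propext hy
  intro z hz
  have h3 : S.Van g z₁ = S.Van g z := hlc.apply_eq_of_preconnectedSpace ⟨z₁, h₁⟩ ⟨z, hz⟩
  have h4 : S.Van g z := h3 ▸ h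
  have h5 := h4.self_of_nhds
  rwa [S.sec z hz] at h5

end Sheet

end Vale.Agent.P284.H913
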