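import Vale.Agent.P284.H913.Sheet
import Vale.Agent.P284.H5.C2
import Mathlib.RingTheory.Polynomial.Basic

/-!
# P284, block S5N: the norm lemma

A function holomorphic along a sheet, of polynomial growth with denominators, which vanishes to a
high order at one point, vanishes identically.
-/

open scoped Topology
open Filter Set Metric MvPolynomial Asymptotics

noncomputable section

namespace Vale.Agent.P284.H913

open Vale.Agent.P272.K

/-! ### A polynomial vanishing to an order larger than its degree -/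

theorem poly_vanish {p : Polynomial ℂ} {D : ℕ} (hd : p.natDegree ≤ D)
    (h : (fun t : ℂ => p.eval t) =O[𝓝 0] fun t => ‖t‖ ^ (D + 1)) : p = 0 := by
  by_contra hp
  obtain ⟨q, hpq, hq⟩ := Polynomial.exists_eq_pow_rootMultiplicity_mul_and_not_dvd p hp 0
  simp only [map_zero, sub_zero] at hpq hq
  set r := Polynomial.rootMultiplicity 0 p with hr
  have hq' : q ≠ 0 := fun h0 => hp (by rw [hpq, h0, mul_zero])
  have hrD : r ≤ D := by
    refine le_trans ?_ hd
    conv_rhs => rw [hpq]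
    rw [Polynomial.natDegree_mul (pow_ne_zero _ Polynomial.X_ne_zero) hq', Polynomial.natDegree_X_pow]
    exact Nat.le_add_right _ _
  have hq0 : q.eval 0 ≠ 0 := by
    intro h0
    apply hq
    rw [Polynomial.X_dvd_iff, Polynomial.coeff_zero_eq_eval_zero]
    exact h0
  obtain ⟨C, hC⟩ := h.bound
  have h1 : ∀ᶠ t : ℂ in 𝓝[≠] 0, ‖q.eval t‖ ≤ C * ‖t‖ ^ (D + 1 - r) := by
    filter_upwards [hC.filter_mono nhdsWithin_le_nhds, self_mem_nhdsWithin] with t ht ht0
    have htp : 0 < ‖t‖ ^ r := pow_pos (norm_pos_iff.2 ht0) _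
    rw [hpq, Polynomial.eval_mul, Polynomial.eval_pow, Polynomial.eval_X, norm_mul, norm_pow,
      norm_pow, norm_norm] at ht
    refine le_of_mul_le_mul_left ?_ htp
    calc ‖t‖ ^ r * ‖q.eval t‖ ≤ C * ‖t‖ ^ (D + 1) := ht
      _ = C * ‖t‖ ^ (r + (D + 1 - r)) := by rw [Nat.add_sub_cancel' (by omega)]
      _ = ‖t‖ ^ r * (C * ‖t‖ ^ (D + 1 - r)) := by rw [pow_add]; ring
  have h2 : Tendsto (fun t : ℂ => ‖q.eval t‖) (𝓝[≠] 0) (𝓝 ‖q.eval 0‖) :=
    (q.continuous.norm.tendsto 0).mono_left nhdsWithin_le_nhds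
  have h3 : Tendsto (fun t : ℂ => C * ‖t‖ ^ (D + 1 - r)) (𝓝[≠] 0) (𝓝 0) := by
    have : Continuous fun t : ℂ => C * ‖t‖ ^ (D + 1 - r) := by fun_prop
    have h4 := (this.tendsto 0).mono_left (nhdsWithin_le_nhds (s := {0}ᶜ))
    simpa [show D + 1 - r ≠ 0 by omega] using h4
  have h5 := le_of_tendsto_of_tendsto h2 h3 h1
  exact hq0 (norm_le_zero_iff.1 h5)

theorem eval_aeval_poly {m : ℕ} (f : Fin m → Polynomial ℂ) (q : MvPolynomial (Fin m) ℂ) (t : ℂ) :
    (MvPolynomial.aeval f q).eval t = eval (fun i => (f i).eval t) q := by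
  induction q using MvPolynomial.induction_on with
  | C a => simp
  | add a b ha hb => rw [map_add, Polynomial.eval_add, ha, hb, map_add]
  | mul_X a i ha => rw [map_mul, Polynomial.eval_mul, ha, map_mul, aeval_X, eval_X]

theorem mvpoly_vanish {m : ℕ} {q : MvPolynomial (Fin m) ℂ} {D : ℕ} (hd : q.totalDegree ≤ D)
    (w₀ : Cm m) (h : (fun w : Cm m => eval w q) =O[𝓝 w₀] fun w => ‖w - w₀‖ ^ (D + 1)) : q = 0 := by
  refine MvPolynomial.funext fun w => ?_
  rw [map_zero]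
  set v : Cm m := w - w₀ with hv
  let f : Fin m → Polynomial ℂ := fun i => Polynomial.C (w₀ i) + Polynomial.X * Polynomial.C (v i)
  let p : Polynomial ℂ := MvPolynomial.aeval f q
  have hf : ∀ i, (f i).natDegree ≤ 1 := by
    intro i
    refine (Polynomial.natDegree_add_le _ _).trans (max_le (by simp) ?_)
    refine Polynomial.natDegree_mul_le.trans ?_
    simp
  have hpd : p.natDegree ≤ D := by
    have := MvPolynomial.aeval_natDegree_le q hd f hf
    simpa using this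
  have hpe : ∀ t, p.eval t = eval (w₀ + t • v) q := by
    intro t
    rw [eval_aeval_poly]
    congr 2
    funext i
    simp only [f, Polynomial.eval_add, Polynomial.eval_mul, Polynomial.eval_C, Polynomial.eval_X,
      Pi.add_apply, Pi.smul_apply, smul_eq_mul]
  have hp0 : p = 0 := by
    refine poly_vanish hpd ?_
    have h1 : Tendsto (fun t : ℂ => w₀ + t • v) (𝓝 0) (𝓝 w₀) := by
      have : Continuous fun t : ℂ => w₀ + t • v := by fun_prop
      have := this.tendsto 0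
      simpa using this
    have h2 := h.comp_tendsto h1
    refine (h2.congr' (Eventually.of_forall fun t => (hpe t).symm) EventuallyEq.rfl).trans ?_
    refine IsBigO.of_bound (‖v‖ ^ (D + 1)) (Eventually.of_forall fun t => ?_)
    simp only [Function.comp, add_sub_cancel_left, norm_smul, mul_pow, norm_mul, norm_pow,
      norm_norm]
    exact le_of_eq (mul_comm _ _)
  have := hpe 1
  rw [hp0, Polynomial.eval_zero, one_smul, hv, add_sub_cancel] at this
  exact this.symm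

/-! ### The norm lemma -/

/-- finitely many continuous functions with product zero on an open set: one of them vanishes on a
smaller open set -/
theorem prod_zero {X ι : Type*} [TopologicalSpace X] [DecidableEq ι] (F : Finset ι) (h : ι → X → ℂ)
    (O : Set X) (hO : IsOpen O) (hne : O.Nonempty) (hc : ∀ i ∈ F, ContinuousOn (h i) O)
    (h0 : ∀ x ∈ O, ∏ i ∈ F, h i x = 0) :
    ∃ i ∈ F, ∃ O' ⊆ O, IsOpen O' ∧ O'.Nonempty ∧ ∀ x ∈ O', h i x = 0 := by
  induction F using Finset.induction_on generalizing O with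
  | empty =>
    obtain ⟨x, hx⟩ := hne
    simpa using h0 x hx
  | insert a F ha ih =>
    by_cases hz : ∀ x ∈ O, h a x = 0
    · exact ⟨a, Finset.mem_insert_self _ _, O, subset_rfl, hO, hne, hz⟩
    · push Not at hz
      obtain ⟨x, hx, hxa⟩ := hz
      have hO1 : IsOpen (O ∩ (h a) ⁻¹' {0}ᶜ) :=
        (hc a (Finset.mem_insert_self _ _)).isOpen_inter_preimage hO isOpen_compl_singleton
      obtain ⟨i, hi, O', hO's, hO', hne', hz'⟩ := ih (O ∩ (h a) ⁻¹' {0}ᶜ) hO1 ⟨x, hx, hxa⟩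
        (fun i hi => (hc i (Finset.mem_insert_of_mem hi)).mono inter_subset_left)
        (fun y hy => by
          have := h0 y hy.1
          rw [Finset.prod_insert ha] at this
          exact (mul_eq_zero.1 this).resolve_left hy.2)
      exact ⟨i, Finset.mem_insert_of_mem hi, O', hO's.trans inter_subset_left, hO', hne', hz'⟩

namespace Sheet

variable {n m : ℕ} (S : Sheet n m)

theorem nm_bound (k t : ℕ) : ∃ D : ℕ, ∀ g : Cm n → ℂ,
    (∃ C, ∀ z ∈ S.T, ‖g z‖ * ‖eval (S.pr z) S.a0‖ ^ k ≤ C * (1 + ‖S.pr z‖) ^ t) →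
    ∃ C, ∀ w, eval w S.a0 ≠ 0 → ‖(eval w S.a0) ^ (k * S.deg) * S.nm g w‖ ≤ C * (1 + ‖w‖) ^ D := by
  classical
  obtain ⟨s, A, hA, hs⟩ := C1.PG.eval S.a0
  refine ⟨s * (k * S.deg) + t * S.deg, fun g ⟨C, hC⟩ => ⟨(max A 1) ^ (k * S.deg) *
    (max C 1) ^ S.deg, fun w hw => ?_⟩⟩
  obtain ⟨hfin, hcard⟩ := S.fin w hw
  have hcoe : S.fib w = (hfin.toFinset : Set (Cm n)) := by
    rw [Set.Finite.coe_toFinset]; rfl
  have hnm : S.nm g w = ∏ z ∈ hfin.toFinset, g z := by
    rw [nm, hcoe, finprod_mem_coe_finset]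
  set d := hfin.toFinset.card with hd
  have hdS : d ≤ S.deg := by
    rw [hd, ← Set.ncard_eq_toFinset_card _ hfin]
    exact hcard
  set α := ‖eval w S.a0‖ with hα
  set β := 1 + ‖w‖ with hβ
  have hβ1 : 1 ≤ β := by rw [hβ]; linarith [norm_nonneg w]
  have hA1 : (1 : ℝ) ≤ max A 1 := le_max_right _ _
  have hC1 : (1 : ℝ) ≤ max C 1 := le_max_right _ _
  have hα1 : α ≤ max A 1 * β ^ s := (hs w).trans
    (mul_le_mul_of_nonneg_right (le_max_left _ _) (by positivity))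
  have h1 : ∏ z ∈ hfin.toFinset, (‖g z‖ * α ^ k) ≤ (max C 1 * β ^ t) ^ d := by
    rw [hd, ← Finset.prod_const]
    refine Finset.prod_le_prod (fun z _ => by positivity) fun z hz => ?_
    rw [Set.Finite.mem_toFinset] at hz
    have e : S.pr z = w := hz.2
    have := hC z hz.1
    rw [e] at this
    exact this.trans (mul_le_mul_of_nonneg_right (le_max_left _ _) (by positivity))
  have h2 : α ^ (k * S.deg) * ∏ z ∈ hfin.toFinset, ‖g z‖
      = α ^ (k * (S.deg - d)) * ∏ z ∈ hfin.toFinset, (‖g z‖ * α ^ k) := by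
    rw [Finset.prod_mul_distrib, Finset.prod_const, ← hd, ← pow_mul]
    rw [show k * S.deg = k * (S.deg - d) + k * d by rw [← mul_add, Nat.sub_add_cancel hdS], pow_add]
    ring
  rw [norm_mul, norm_pow, hnm, norm_prod, ← hα, h2]
  have h3 : α ^ (k * (S.deg - d)) ≤ (max A 1 * β ^ s) ^ (k * S.deg) := by
    refine (pow_le_pow_left₀ (norm_nonneg _) hα1 _).trans ?_
    refine pow_le_pow_right₀ ?_ (Nat.mul_le_mul_left _ (Nat.sub_le _ _))
    exact one_le_mul_of_one_le_of_one_le hA1 (one_le_pow₀ hβ1)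
  have h4 : (max C 1 * β ^ t) ^ d ≤ (max C 1 * β ^ t) ^ S.deg :=
    pow_le_pow_right₀ (one_le_mul_of_one_le_of_one_le hC1 (one_le_pow₀ hβ1)) hdS
  calc α ^ (k * (S.deg - d)) * ∏ z ∈ hfin.toFinset, (‖g z‖ * α ^ k)
      ≤ (max A 1 * β ^ s) ^ (k * S.deg) * (max C 1 * β ^ t) ^ S.deg :=
        mul_le_mul h3 (h1.trans h4) (Finset.prod_nonneg fun z _ => by positivity) (by positivity)
    _ = _ := by rw [mul_pow, mul_pow, ← pow_mul, ← pow_mul, pow_add]; ring

/-- **The norm lemma.** -/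
theorem vanish (k t : ℕ) : ∃ D : ℕ, ∀ g : Cm n → ℂ, S.Hol g →
    (∃ C, ∀ z ∈ S.T, ‖g z‖ * ‖eval (S.pr z) S.a0‖ ^ k ≤ C * (1 + ‖S.pr z‖) ^ t) →
    ∀ z₀ ∈ S.T, ((fun w => g (S.σ z₀ w)) =O[𝓝 (S.pr z₀)] fun w => ‖w - S.pr z₀‖ ^ (D + 1)) →
    ∀ z ∈ S.T, g z = 0 := by
  classical
  obtain ⟨D, hD⟩ := S.nm_bound k t
  refine ⟨D, fun g hg hb z₀ hz₀ hO => ?_⟩
  obtain ⟨C, hC⟩ := hD g hb
  -- the norm is a polynomial
  obtain ⟨q, hqd, hq⟩ := H5.C2.ext_poly S.a0_ne
    (H := fun w => (eval w S.a0) ^ (k * S.deg) * S.nm g w)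
    (fun w hw => ((H5.C2.differentiable_eval S.a0 w).pow _).mul
      (S.nm_diff g hg w hw).self_of_nhds) hC
  set w₀ := S.pr z₀ with hw₀
  have h₀ : eval w₀ S.a0 ≠ 0 := S.off z₀ hz₀
  set F₀ := (S.fin w₀ h₀).1.toFinset with hF₀
  have hz₀F : z₀ ∈ F₀ := by rw [hF₀, Set.Finite.mem_toFinset]; exact ⟨hz₀, rfl⟩
  have hmem : ∀ z ∈ F₀, z ∈ S.T ∧ S.pr z = w₀ := by
    intro z hz
    rw [hF₀, Set.Finite.mem_toFinset] at hz
    exact ⟨hz.1, hz.2⟩
  have hdiff : ∀ᶠ w in 𝓝 w₀, ∀ z ∈ F₀, DifferentiableAt ℂ (fun w => g (S.σ z w)) w := by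
    rw [eventually_all_finset]
    intro z hz
    have h := hg z (hmem z hz).1
    rwa [(hmem z hz).2] at h
  have hoff : ∀ᶠ w in 𝓝 w₀, eval w S.a0 ≠ 0 := (isOpen_off S.a0).mem_nhds h₀
  -- the norm vanishes
  have hq0 : q = 0 := by
    refine mvpoly_vanish hqd w₀ ?_
    have h1 : (fun w => eval w q) =ᶠ[𝓝 w₀] fun w => ((eval w S.a0) ^ (k * S.deg) *
        ∏ z ∈ F₀.erase z₀, g (S.σ z w)) * g (S.σ z₀ w) := by
      filter_upwards [S.nm_near g w₀ h₀, hoff] with w h2 h3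
      rw [← hq w h3, h2, ← Finset.prod_erase_mul _ _ hz₀F, mul_assoc]
    have h2 : (fun w => (eval w S.a0) ^ (k * S.deg) * ∏ z ∈ F₀.erase z₀, g (S.σ z w))
        =O[𝓝 w₀] fun _ => (1 : ℝ) := by
      have hc : ContinuousAt (fun w => (eval w S.a0) ^ (k * S.deg) *
          ∏ z ∈ F₀.erase z₀, g (S.σ z w)) w₀ := by
        refine ((H5.C2.differentiable_eval S.a0).continuous.continuousAt.pow _).mul ?_
        refine tendsto_finsetProd _ fun z hz => ?_
        exact (hdiff.self_of_nhds z (Finset.mem_of_mem_erase hz)).continuousAt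
      exact hc.isBigO_one ℝ
    have h3 := h2.mul hO
    simp only [one_mul] at h3
    exact h3.congr' h1.symm EventuallyEq.rfl
  have hprod : ∀ᶠ w in 𝓝 w₀, ∏ z ∈ F₀, g (S.σ z w) = 0 := by
    filter_upwards [S.nm_near g w₀ h₀, hoff] with w h2 h3
    have h4 := hq w h3
    rw [hq0, map_zero] at h4
    rw [← h2]
    exact (mul_eq_zero.1 h4).resolve_left (pow_ne_zero _ h3)
  -- one factor vanishes on an open set
  have hag : ∀ᶠ w in 𝓝 w₀, ∀ z ∈ F₀, S.σ z w ∈ S.T ∧ S.pr (S.σ z w) = w ∧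
      ∀ᶠ w' in 𝓝 w, S.σ (S.σ z w) w' = S.σ z w' := by
    rw [eventually_all_finset]
    intro z hz
    have h := S.agree z (hmem z hz).1
    rw [(hmem z hz).2] at h
    exact h.mono fun w hw => ⟨hw.1, hw.2.1, hw.2.2.2⟩
  obtain ⟨r, hr, hB⟩ := Metric.eventually_nhds_iff_ball.1 (hdiff.and (hprod.and hag))
  obtain ⟨z₁, hz₁, O', hO's, hO'o, ⟨w₁, hw₁⟩, hO'z⟩ := prod_zero F₀ (fun z w => g (S.σ z w))
    (ball w₀ r) isOpen_ball ⟨w₀, mem_ball_self hr⟩
    (fun z hz w hw => ((hB w hw).1 z hz).continuousAt.continuousWithinAt)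
    (fun w hw => (hB w hw).2.1)
  obtain ⟨k1, k2, k3⟩ := (hB w₁ (hO's hw₁)).2.2 z₁ hz₁
  refine S.ident g hg (S.σ z₁ w₁) k1 ?_
  rw [Van, k2]
  filter_upwards [k3, hO'o.mem_nhds hw₁] with w e1 e2
  rw [e1]
  exact hO'z w e2

end Sheet

end Vale.Agent.P284.H913
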