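import Vale.Agent.P284.H913.SheetEx
import Mathlib.MeasureTheory.Function.Jacobian
import Mathlib.MeasureTheory.Integral.IntervalIntegral.FundThmCalculus
import Mathlib.Analysis.Calculus.MeanValue

/-!
# P284, theorem A, tube lemma: local analysis
-/

open scoped Topology ENNReal
open Filter Set Metric MeasureTheory

noncomputable section

namespace Vale.Agent.P284.H913.Tube

open Vale.Agent.P272.K

variable {n : ℕ}

/-- increment along a segment -/
theorem incr {v : Cm n → ℂ} {Q : Set (Cm n)} {g : Cm n → ℝ≥0∞} {w d : Cm n}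
    (hv : ∀ z ∈ Q, ContDiffAt ℝ 1 v z) (hQ : ∀ s ∈ Icc (0 : ℝ) 1, w + s • d ∈ Q)
    (hg : ∀ z ∈ Q, ‖fderiv ℝ v z d‖ₑ ≤ g z) :
    ‖v (w + d) - v w‖ₑ ≤ ∫⁻ s in Icc (0 : ℝ) 1, g (w + s • d) := by
  let φ : ℝ → ℂ := fun s => v (w + s • d)
  have hφ : ∀ s ∈ Icc (0 : ℝ) 1, HasDerivAt φ (fderiv ℝ v (w + s • d) d) s := by
    intro s hs
    have h1 := ((hv _ (hQ s hs)).differentiableAt one_ne_zero).hasFDerivAt
    have h2 : HasDerivAt (fun s : ℝ => w + s • d) d s := by
      simpa using ((hasDerivAt_id s).smul_const d).const_add w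
    exact h1.comp_hasDerivAt s h2
  have hcont : ContinuousOn (fun s : ℝ => fderiv ℝ v (w + s • d) d) (Icc 0 1) := by
    intro s hs
    have h1 : ContinuousAt (fderiv ℝ v) (w + s • d) :=
      ((hv _ (hQ s hs)).fderiv_right (m := 0) (by simp)).continuousAt
    have h2 : ContinuousAt (fun s : ℝ => w + s • d) s := by fun_prop
    have h3 : ContinuousAt (fun s : ℝ => fderiv ℝ v (w + s • d)) s :=
      ContinuousAt.comp (g := fderiv ℝ v) (f := fun s : ℝ => w + s • d) h1 h2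
    exact (h3.clm_apply continuousAt_const).continuousWithinAt
  have hint : IntervalIntegrable (fun s : ℝ => fderiv ℝ v (w + s • d) d) volume 0 1 := by
    apply ContinuousOn.intervalIntegrable
    rwa [uIcc_of_le zero_le_one]
  have hftc : ∫ s in (0 : ℝ)..1, fderiv ℝ v (w + s • d) d = φ 1 - φ 0 :=
    intervalIntegral.integral_eq_sub_of_hasDerivAt (fun s hs => hφ s (by
      rwa [uIcc_of_le zero_le_one] at hs)) hint
  have e1 : φ 1 - φ 0 = v (w + d) - v w := by simp [φ]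
  rw [← e1, ← hftc, intervalIntegral.integral_of_le zero_le_one]
  refine (enorm_integral_le_lintegral_enorm _).trans ?_
  refine (lintegral_mono_set Ioc_subset_Icc_self).trans ?_
  exact setLIntegral_mono' measurableSet_Icc fun s hs => hg _ (hQ s hs)

/-- **translation lemma** -/
theorem translate {v : Cm n → ℂ} {Q B₀ : Set (Cm n)} {g : Cm n → ℝ≥0∞} (hgm : Measurable g)
    {d : Cm n} (hQm : MeasurableSet Q) (hBm : MeasurableSet B₀)
    (hv : ∀ z ∈ Q, ContDiffAt ℝ 1 v z)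
    (hQ : ∀ w ∈ B₀, ∀ s ∈ Icc (0 : ℝ) 1, w + s • d ∈ Q)
    (hg : ∀ z ∈ Q, ‖fderiv ℝ v z d‖ₑ ≤ g z) :
    ∫⁻ w in B₀, ‖v (w + d) - v w‖ₑ ≤ ∫⁻ w in Q, g w := by
  calc ∫⁻ w in B₀, ‖v (w + d) - v w‖ₑ
      ≤ ∫⁻ w in B₀, ∫⁻ s in Icc (0 : ℝ) 1, Q.indicator g (w + s • d) := by
        refine setLIntegral_mono' hBm fun w hw => ?_
        refine (incr hv (hQ w hw) hg).trans ?_
        refine le_of_eq (setLIntegral_congr_fun measurableSet_Icc fun s hs => ?_)
        simp only [indicator_of_mem (hQ w hw s hs)]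
    _ = ∫⁻ s in Icc (0 : ℝ) 1, ∫⁻ w in B₀, Q.indicator g (w + s • d) := by
        refine lintegral_lintegral_swap (f := fun w s => Q.indicator g (w + s • d)) ?_
        refine Measurable.aemeasurable ?_
        refine (hgm.indicator hQm).comp ?_
        fun_prop
    _ ≤ ∫⁻ s in Icc (0 : ℝ) 1, ∫⁻ w in Q, g w := by
        refine lintegral_mono fun s => ?_
        refine (setLIntegral_le_lintegral _ _).trans ?_
        rw [lintegral_add_right_eq_self (fun w => Q.indicator g w) (s • d),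
          lintegral_indicator hQm]
    _ = ∫⁻ w in Q, g w := by
        rw [lintegral_const, Measure.restrict_apply_univ, Real.volume_Icc]
        simp

/-- change of coordinates -/
theorem transfer (φ : OpenPartialHomeomorph (Cm n) (Cm n)) {z₀ : Cm n} (hz₀ : z₀ ∈ φ.source)
    (hφ : ∀ z ∈ φ.source, ContDiffAt ℝ 1 φ z) {O : Set (Cm n)} (hO : IsOpen O) (hzO : z₀ ∈ O) :
    ∃ O' : Set (Cm n), IsOpen O' ∧ z₀ ∈ O' ∧ O' ⊆ O ∩ φ.source ∧ ∃ C : ℝ≥0∞, C ≠ ∞ ∧
      ∀ (k : Cm n → ℝ≥0∞) (A : Set (Cm n)), A ⊆ O' → MeasurableSet A →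
        ∫⁻ w in φ '' A, k (φ.symm w) ≤ C * ∫⁻ z in A, k z := by
  have hc : ContinuousAt (fun z => (fderiv ℝ φ z).det) z₀ := by
    have h1 : ContinuousAt (fderiv ℝ φ) z₀ :=
      ((hφ z₀ hz₀).fderiv_right (m := 0) (by simp)).continuousAt
    exact ContinuousLinearMap.continuous_det.continuousAt.comp h1
  have h2 : ∀ᶠ z in 𝓝 z₀, |(fderiv ℝ φ z).det| < |(fderiv ℝ φ z₀).det| + 1 :=
    hc.abs.eventually_lt continuousAt_const (lt_add_one _)
  obtain ⟨U, hU, hUo, hzU⟩ := _root_.eventually_nhds_iff.1 h2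
  refine ⟨U ∩ (O ∩ φ.source), hUo.inter (hO.inter φ.open_source), ⟨hzU, hzO, hz₀⟩,
    inter_subset_right, ENNReal.ofReal (|(fderiv ℝ φ z₀).det| + 1), ENNReal.ofReal_ne_top,
    fun k A hA hAm => ?_⟩
  have hAs : A ⊆ φ.source := fun z hz => (hA hz).2.2
  rw [lintegral_image_eq_lintegral_abs_det_fderiv_mul volume hAm (f' := fderiv ℝ φ)
    (fun z hz => ((hφ z (hAs hz)).differentiableAt one_ne_zero).hasFDerivAt.hasFDerivWithinAt)
    (φ.injOn.mono hAs)]
  rw [← lintegral_const_mul' _ _ ENNReal.ofReal_ne_top]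
  refine setLIntegral_mono' hAm fun z hz => ?_
  rw [φ.left_inv (hAs hz)]
  gcongr
  exact (hU z (hA hz).1).le

/-! ### Boxes -/

variable {N m : ℕ}

open Vale.Agent.P284.H913.Ex

/-- the first coordinates -/
def yp (e : Fin n ≃ Fin N ⊕ Fin m) (w : Cm n) : Cm N := fun k => w (e.symm (Sum.inl k))

/-- the last coordinates -/
def tp (e : Fin n ≃ Fin N ⊕ Fin m) (w : Cm n) : Cm m := fun k => w (e.symm (Sum.inr k))

theorem mk_yp_tp (e : Fin n ≃ Fin N ⊕ Fin m) (w : Cm n) : mk e (yp e w) (tp e w) = w := by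
  funext i
  obtain ⟨b, rfl⟩ := e.symm.surjective i
  rcases b with k | k <;> simp [Ex.mk, yp, tp]

theorem yp_mk (e : Fin n ≃ Fin N ⊕ Fin m) (y : Cm N) (t : Cm m) : yp e (mk e y t) = y := by
  funext k; simp [Ex.mk, yp]

theorem tp_mk (e : Fin n ≃ Fin N ⊕ Fin m) (y : Cm N) (t : Cm m) : tp e (mk e y t) = t := by
  funext k; simp [Ex.mk, tp]

theorem mk_add (e : Fin n ≃ Fin N ⊕ Fin m) (y : Cm N) (t h : Cm m) :
    mk e y (t + h) = mk e y t + inr e h := by
  rw [mk_eq e y (t + h), mk_eq e y t, map_add, add_assoc]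

theorem yp_add_inr (e : Fin n ≃ Fin N ⊕ Fin m) (w : Cm n) (h : Cm m) :
    yp e (w + inr e h) = yp e w := by
  conv_lhs => rw [← mk_yp_tp e w, ← mk_add, yp_mk]

theorem tp_add_inr (e : Fin n ≃ Fin N ⊕ Fin m) (w : Cm n) (h : Cm m) :
    tp e (w + inr e h) = tp e w + h := by
  conv_lhs => rw [← mk_yp_tp e w, ← mk_add, tp_mk]

theorem tp_dist (e : Fin n ≃ Fin N ⊕ Fin m) (w w' : Cm n) : dist (tp e w) (tp e w') ≤ dist w w' := by
  rw [dist_pi_le_iff dist_nonneg]
  intro k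
  exact dist_le_pi_dist w w' _

theorem continuous_yp (e : Fin n ≃ Fin N ⊕ Fin m) : Continuous (yp e) := by
  unfold yp; fun_prop

theorem measurable_mk (e : Fin n ≃ Fin N ⊕ Fin m) :
    Measurable fun q : Cm N × Cm m => mk e q.1 q.2 := by
  refine measurable_pi_lambda _ fun i => ?_
  change Measurable fun q : Cm N × Cm m => Sum.elim q.1 q.2 (e i)
  rcases e i with k | j
  · exact (measurable_pi_apply k).comp measurable_fst
  · exact (measurable_pi_apply j).comp measurable_snd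

/-- **base step** -/
theorem base (e : Fin n ≃ Fin N ⊕ Fin m) {v V : Cm n → ℂ} {g : Cm n → ℝ≥0∞} (hgm : Measurable g)
    {w₀ : Cm n} {R δ : ℝ} (hδ : 0 < δ) (hδR : 3 * δ ≤ R)
    (hv : ∀ z ∈ ball w₀ R, ContDiffAt ℝ 1 v z)
    (hV : Measurable V) (hVv : ∀ z ∈ ball w₀ R, V z = v z)
    (hg : ∀ z ∈ ball w₀ R, ∀ τ : Cm m, ‖fderiv ℝ v z (inr e τ)‖ₑ ≤ g z * ‖τ‖ₑ) :
    ∫⁻ w in ball w₀ δ, ∫⁻ t in ball (tp e w₀) δ, ‖V w - V (mk e (yp e w) t)‖ₑ
      ≤ volume (ball (0 : Cm m) (2 * δ)) * ENNReal.ofReal (2 * δ) * ∫⁻ w in ball w₀ R, g w := by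
  have hinr : Measurable fun q : Cm n × Cm m => q.1 + inr e q.2 := by
    have : Continuous fun q : Cm n × Cm m => q.1 + inr e q.2 := by fun_prop
    exact this.measurable
  have h1 : ∀ w ∈ ball w₀ δ, ∫⁻ t in ball (tp e w₀) δ, ‖V w - V (mk e (yp e w) t)‖ₑ
      ≤ ∫⁻ h in ball (0 : Cm m) (2 * δ), ‖V w - V (w + inr e h)‖ₑ := by
    intro w hw
    rw [← lintegral_indicator measurableSet_ball, ← lintegral_indicator measurableSet_ball]
    rw [← lintegral_add_left_eq_self _ (tp e w)]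
    refine lintegral_mono fun h => ?_
    by_cases hh : tp e w + h ∈ ball (tp e w₀) δ
    · have h2 : h ∈ ball (0 : Cm m) (2 * δ) := by
        rw [mem_ball_zero_iff]
        have e1 : ‖tp e w + h - tp e w₀‖ < δ := by
          rw [← dist_eq_norm]; exact mem_ball.1 hh
        have e2 : ‖tp e w - tp e w₀‖ < δ := by
          rw [← dist_eq_norm]
          exact (tp_dist e w w₀).trans_lt (mem_ball.1 hw)
        calc ‖h‖ = ‖(tp e w + h - tp e w₀) - (tp e w - tp e w₀)‖ := by congr 1; abel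
          _ ≤ ‖tp e w + h - tp e w₀‖ + ‖tp e w - tp e w₀‖ := norm_sub_le _ _
          _ < 2 * δ := by linarith
      rw [indicator_of_mem hh, indicator_of_mem h2, mk_add, mk_yp_tp]
    · rw [indicator_of_notMem hh]
      exact bot_le
  have hmeas : Measurable fun q : Cm n × Cm m => ‖V q.1 - V (q.1 + inr e q.2)‖ₑ :=
    ((hV.comp measurable_fst).sub (hV.comp hinr)).enorm
  calc ∫⁻ w in ball w₀ δ, ∫⁻ t in ball (tp e w₀) δ, ‖V w - V (mk e (yp e w) t)‖ₑ
      ≤ ∫⁻ w in ball w₀ δ, ∫⁻ h in ball (0 : Cm m) (2 * δ), ‖V w - V (w + inr e h)‖ₑ :=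
        setLIntegral_mono' measurableSet_ball h1
    _ = ∫⁻ h in ball (0 : Cm m) (2 * δ), ∫⁻ w in ball w₀ δ, ‖V w - V (w + inr e h)‖ₑ :=
        lintegral_lintegral_swap (f := fun w h => ‖V w - V (w + inr e h)‖ₑ) hmeas.aemeasurable
    _ ≤ ∫⁻ h in ball (0 : Cm m) (2 * δ), ENNReal.ofReal (2 * δ) * ∫⁻ w in ball w₀ R, g w := by
        refine setLIntegral_mono' measurableSet_ball fun h hh => ?_
        have hh' : ‖h‖ < 2 * δ := by rwa [mem_ball_zero_iff] at hh
        have hin : ∀ w ∈ ball w₀ δ, ∀ s ∈ Icc (0 : ℝ) 1, w + s • inr e h ∈ ball w₀ R := by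
          intro w hw s hs
          rw [mem_ball, dist_eq_norm] at hw ⊢
          have e1 : ‖s • inr e h‖ ≤ ‖h‖ := by
            rw [norm_smul, Real.norm_of_nonneg hs.1]
            calc s * ‖inr e h‖ ≤ 1 * ‖h‖ :=
                  mul_le_mul hs.2 (inr_norm e h) (norm_nonneg _) zero_le_one
              _ = ‖h‖ := one_mul _
          calc ‖w + s • inr e h - w₀‖ = ‖(w - w₀) + s • inr e h‖ := by congr 1; abel
            _ ≤ ‖w - w₀‖ + ‖s • inr e h‖ := norm_add_le _ _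
            _ < R := by linarith
        have h3 : ∫⁻ w in ball w₀ δ, ‖V w - V (w + inr e h)‖ₑ
            = ∫⁻ w in ball w₀ δ, ‖v (w + inr e h) - v w‖ₑ := by
          refine setLIntegral_congr_fun measurableSet_ball fun w hw => ?_
          have e1 := hin w hw 0 (by simp)
          have e2 := hin w hw 1 (by simp)
          rw [zero_smul, add_zero] at e1
          rw [one_smul] at e2
          rw [hVv _ e1, hVv _ e2, ← enorm_neg, neg_sub]
        rw [h3]
        refine (translate (g := fun z => g z * ‖h‖ₑ) (hgm.mul_const _) measurableSet_ball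
          measurableSet_ball hv hin (fun z hz => hg z hz h)).trans ?_
        rw [lintegral_mul_const _ hgm, mul_comm]
        gcongr
        rw [← ofReal_norm]
        exact ENNReal.ofReal_le_ofReal hh'.le
    _ = _ := by
        rw [lintegral_const, Measure.restrict_apply_univ]
        ring

end Vale.Agent.P284.H913.Tube
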