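import Vale.Agent.P284.H913.TubeA
import Vale.Agent.P284.H894.W.Spec2

/-!
# P284, theorem A, tube lemma: propagation along a connected regular fibre
-/

open scoped Topology ENNReal
open Filter Set Metric MeasureTheory

noncomputable section

namespace Vale.Agent.P284.H913.Tube

open Vale.Agent.P272.K Vale.Agent.P284.H913.Ex

variable {n : ℕ} {X : Type} [TopologicalSpace X] [ChartedSpace (Cm n) X]
  {E : Type} [TopologicalSpace E]

/-- coordinates of `E` compatible with the charts of `X` -/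
def Nice (p : E → X) (β : OpenPartialHomeomorph E (Cm n)) : Prop :=
  ∀ y ∈ β.source, ∀ e : Chart n X, At e (p y) →
    ContDiffAt ℝ 1 (fun w => e (p (β.symm w))) (β y) ∧
    ∃ b : Cm n → Cm n, (∀ᶠ y' in 𝓝 y, β y' = b (e (p y'))) ∧ ContDiffAt ℝ 1 b (e (p y))

theorem at_chartAt (x : X) : At (chartAt (Cm n) x) x :=
  ⟨chart_mem_atlas _ _, mem_chart_source _ _⟩

theorem Nice.change {p : E → X} {β β' : OpenPartialHomeomorph E (Cm n)} (h : Nice p β)
    (h' : Nice p β') {y : E} (hy : y ∈ β.source) (hy' : y ∈ β'.source) :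
    ContDiffAt ℝ 1 (fun w => β' (β.symm w)) (β y) := by
  have hAt := at_chartAt (n := n) (p y)
  obtain ⟨h1, -⟩ := h y hy _ hAt
  obtain ⟨-, b, h2, h3⟩ := h' y hy' _ hAt
  have hc : ContinuousAt β.symm (β y) := β.continuousAt_symm (β.map_source hy)
  have e1 : β.symm (β y) = y := β.left_inv hy
  have h4 : ∀ᶠ w in 𝓝 (β y), β' (β.symm w) = b ((chartAt (Cm n) (p y)) (p (β.symm w))) := by
    have : Tendsto β.symm (𝓝 (β y)) (𝓝 y) := by
      have := hc.tendsto
      rwa [e1] at this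
    exact this.eventually h2
  refine ContDiffAt.congr_of_eventuallyEq ?_ h4
  have h5 : ContDiffAt ℝ 1 b ((fun w => (chartAt (Cm n) (p y)) (p (β.symm w))) (β y)) := by
    simpa only [e1] using h3
  exact h5.comp (β y) h1

/-- `K` tends to `0` in `L¹` near `y` -/
def Sm (p : E → X) (K : ℕ → E → ℝ≥0∞) (y : E) : Prop :=
  ∃ β : OpenPartialHomeomorph E (Cm n), Nice p β ∧ ∃ W : Set E, IsOpen W ∧ y ∈ W ∧ W ⊆ β.source ∧
    Tendsto (fun j => ∫⁻ w in β '' W, K j (β.symm w)) atTop (𝓝 0)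

theorem Sm.chart {p : E → X} {K : ℕ → E → ℝ≥0∞} {y : E} (h : Sm (n := n) p K y)
    {β' : OpenPartialHomeomorph E (Cm n)} (h' : Nice p β') (hy' : y ∈ β'.source) :
    ∃ W : Set E, IsOpen W ∧ y ∈ W ∧ W ⊆ β'.source ∧
      Tendsto (fun j => ∫⁻ w in β' '' W, K j (β'.symm w)) atTop (𝓝 0) := by
  obtain ⟨β, hβ, W, hW, hyW, hWs, hT⟩ := h
  let φ : OpenPartialHomeomorph (Cm n) (Cm n) := β.symm.trans β'
  have hφs : ∀ z, z ∈ φ.source ↔ z ∈ β.target ∧ β.symm z ∈ β'.source := fun z => by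
    simp [φ]
  have hz₀ : β y ∈ φ.source := (hφs _).2 ⟨β.map_source (hWs hyW), by
    rw [β.left_inv (hWs hyW)]; exact hy'⟩
  have hφ : ∀ z ∈ φ.source, ContDiffAt ℝ 1 φ z := by
    intro z hz
    obtain ⟨h1, h2⟩ := (hφs z).1 hz
    have h3 := hβ.change h' (β.map_target h1) h2
    rw [β.right_inv h1] at h3
    exact h3
  have hO : IsOpen (β '' W) := β.isOpen_image_of_subset_source hW hWs
  obtain ⟨O', hO', hzO', hOs, C, hC, htr⟩ := transfer φ hz₀ hφ hO (mem_image_of_mem β hyW)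
  let W' : Set E := β.source ∩ β ⁻¹' O'
  have hW' : IsOpen W' := β.isOpen_inter_preimage hO'
  have hW'W : W' ⊆ W := by
    rintro q ⟨hq, hqO⟩
    obtain ⟨q', hq', he⟩ := (hOs hqO).1
    rwa [β.injOn (hWs hq') hq he] at hq'
  have hW's : W' ⊆ β'.source := by
    rintro q ⟨hq, hqO⟩
    have := ((hφs _).1 (hOs hqO).2).2
    rwa [β.left_inv hq] at this
  have himg : φ '' O' = β' '' W' := by
    ext w
    constructor
    · rintro ⟨z, hz, rfl⟩
      have h1 := ((hφs z).1 (hOs hz).2).1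
      exact ⟨β.symm z, ⟨β.map_target h1, by rw [mem_preimage, β.right_inv h1]; exact hz⟩, rfl⟩
    · rintro ⟨q, ⟨hq, hqO⟩, rfl⟩
      refine ⟨β q, hqO, ?_⟩
      change β' (β.symm (β q)) = β' q
      rw [β.left_inv hq]
  refine ⟨W', hW', ⟨hWs hyW, hzO'⟩, hW's, ?_⟩
  have hle : ∀ j, ∫⁻ w in β' '' W', K j (β'.symm w) ≤ C * ∫⁻ w in β '' W, K j (β.symm w) := by
    intro j
    have h1 := htr (fun z => K j (β.symm z)) O' subset_rfl hO'.measurableSet
    have h2 : ∫⁻ w in β' '' W', K j (β'.symm w) = ∫⁻ w in φ '' O', K j (β.symm (φ.symm w)) := by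
      rw [himg]
      refine setLIntegral_congr_fun (β'.isOpen_image_of_subset_source hW' hW's).measurableSet ?_
      rintro w ⟨q, hq, rfl⟩
      change K j (β'.symm (β' q)) = K j (β.symm (β (β'.symm (β' q))))
      rw [β'.left_inv (hW's hq), β.left_inv hq.1]
    rw [h2]
    refine h1.trans ?_
    gcongr
    exact fun z hz => (hOs hz).1
  have h0 : Tendsto (fun j => C * ∫⁻ w in β '' W, K j (β.symm w)) atTop (𝓝 0) := by
    have := ENNReal.Tendsto.const_mul hT (Or.inr hC)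
    simpa using this
  exact tendsto_of_tendsto_of_tendsto_of_le_of_le tendsto_const_nhds h0 (fun _ => bot_le) hle

/-! ### Boxes -/

variable {N m : ℕ}

/-- box coordinates at `y`, with the vertical derivative of `u j` tending to `0` in `L¹` -/
def Box (p : E → X) (F : E → Cm N) (u : ℕ → E → ℂ) (e : Fin n ≃ Fin N ⊕ Fin m) (y : E) : Prop :=
  ∃ β : OpenPartialHomeomorph E (Cm n), Nice p β ∧ y ∈ β.source ∧ ∃ R : ℝ, 0 < R ∧
    β.target = ball (β y) R ∧ (∀ y' ∈ β.source, yp e (β y') = F y') ∧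
    ∃ g : ℕ → Cm n → ℝ≥0∞, (∀ j, Measurable (g j)) ∧
      (∀ j, ∀ w ∈ β.target, ContDiffAt ℝ 1 (fun w => u j (β.symm w)) w) ∧
      (∀ j, ∀ w ∈ β.target, ∀ τ : Cm m,
        ‖fderiv ℝ (fun w => u j (β.symm w)) w (inr e τ)‖ₑ ≤ g j w * ‖τ‖ₑ) ∧
      Tendsto (fun j => ∫⁻ w in β.target, g j w) atTop (𝓝 0)

/-- the comparison property of `K` -/
def Cmp (F : E → Cm N) (u : ℕ → E → ℂ) (K : ℕ → E → ℝ≥0∞) (A : ℝ≥0∞) : Prop :=
  ∀ j y₁ y₂, F y₁ = F y₂ → K j y₂ ≤ A * ‖u j y₂ - u j y₁‖ₑ + K j y₁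

theorem propagate {p : E → X} {F : E → Cm N} {u : ℕ → E → ℂ} {e : Fin n ≃ Fin N ⊕ Fin m}
    {y : E} (hb : Box p F u e y) {K : ℕ → E → ℝ≥0∞} {A : ℝ≥0∞} (hA : A ≠ ∞)
    (hK : Cmp F u K A) : ∃ U : Set E, IsOpen U ∧ y ∈ U ∧ ∀ y₁ ∈ U, ∀ y₂ ∈ U, F y₁ = F y₂ →
      Sm (n := n) p K y₁ → Sm (n := n) p K y₂ := by
  obtain ⟨β, hβ, hy, R, hR, htg, hF, g, hgm, hv, hg, hgT⟩ := hb
  refine ⟨β.source, β.open_source, hy, fun y₁ hy₁ y₂ hy₂ hF12 hS => ?_⟩
  obtain ⟨W, hW, hyW, hWs, hT⟩ := hS.chart hβ hy₁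
  set w₁ := β y₁ with hw₁
  set w₂ := β y₂ with hw₂
  set h := tp e w₂ - tp e w₁ with hh
  have hw12 : w₂ = w₁ + inr e h := by
    rw [← mk_yp_tp e w₂, ← mk_yp_tp e w₁, hF y₁ hy₁, hF y₂ hy₂, hF12, ← mk_add, hh]
    rw [add_sub_cancel]
  set d := inr e h with hd
  have hO1 : IsOpen (β '' W ∩ β.target) :=
    (β.isOpen_image_of_subset_source hW hWs).inter β.open_target
  have hm1 : w₁ ∈ β '' W ∩ β.target := ⟨mem_image_of_mem β hyW, β.map_source hy₁⟩
  obtain ⟨δ₁, hδ₁, hB₁⟩ := Metric.isOpen_iff.1 hO1 w₁ hm1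
  obtain ⟨δ₂, hδ₂, hB₂⟩ := Metric.isOpen_iff.1 β.open_target w₂ (β.map_source hy₂)
  set δ := min δ₁ δ₂ with hδ
  have hδ0 : 0 < δ := lt_min hδ₁ hδ₂
  have hb1 : ball w₁ δ ⊆ β '' W ∩ β.target := (ball_subset_ball (min_le_left _ _)).trans hB₁
  have hb2 : ball w₂ δ ⊆ β.target := (ball_subset_ball (min_le_right _ _)).trans hB₂
  have hshift : ∀ w, w ∈ ball w₁ δ ↔ w + d ∈ ball w₂ δ := by
    intro w
    rw [mem_ball, mem_ball, hw12, dist_add_right]
  let W₂ : Set E := β.source ∩ β ⁻¹' ball w₂ δ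
  have hW₂im : β '' W₂ = ball w₂ δ := by
    ext w
    constructor
    · rintro ⟨q, hq, rfl⟩; exact hq.2
    · intro hw
      exact ⟨β.symm w, ⟨β.map_target (hb2 hw), by
        rw [mem_preimage, β.right_inv (hb2 hw)]; exact hw⟩, β.right_inv (hb2 hw)⟩
  refine ⟨β, hβ, W₂, β.isOpen_inter_preimage isOpen_ball, ⟨hy₂, mem_ball_self hδ0⟩,
    inter_subset_left, ?_⟩
  have hseg : ∀ w ∈ ball w₁ δ, ∀ s ∈ Icc (0 : ℝ) 1, w + s • d ∈ β.target := by
    intro w hw s hs
    have hconv : Convex ℝ β.target := by rw [htg]; exact convex_ball _ _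
    exact hconv.add_smul_mem (hb1 hw).2 (hb2 ((hshift w).1 hw)) hs
  have hbound : ∀ j, ∫⁻ w in β '' W₂, K j (β.symm w) ≤
      A * ((∫⁻ w in β.target, g j w) * ‖h‖ₑ) + ∫⁻ w in β '' W, K j (β.symm w) := by
    intro j
    rw [hW₂im]
    have h1 : ∫⁻ w in ball w₂ δ, K j (β.symm w) = ∫⁻ w in ball w₁ δ, K j (β.symm (w + d)) := by
      rw [← lintegral_indicator measurableSet_ball, ← lintegral_indicator measurableSet_ball,
        ← lintegral_add_right_eq_self _ d]
      refine lintegral_congr fun w => ?_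
      by_cases hw : w ∈ ball w₁ δ
      · rw [indicator_of_mem hw, indicator_of_mem ((hshift w).1 hw)]
      · rw [indicator_of_notMem hw, indicator_of_notMem fun h => hw ((hshift w).2 h)]
    rw [h1]
    have h2 : ∀ w ∈ ball w₁ δ, K j (β.symm (w + d)) ≤
        A * ‖u j (β.symm (w + d)) - u j (β.symm w)‖ₑ + K j (β.symm w) := by
      intro w hw
      refine hK j _ _ ?_
      have e1 := hF _ (β.map_target (hb1 hw).2)
      have e2 := hF _ (β.map_target (hb2 ((hshift w).1 hw)))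
      rw [β.right_inv (hb1 hw).2] at e1
      rw [β.right_inv (hb2 ((hshift w).1 hw))] at e2
      rw [← e1, ← e2, hd, yp_add_inr]
    refine (setLIntegral_mono' measurableSet_ball h2).trans ?_
    have hcont : ContinuousOn (fun w => ‖u j (β.symm (w + d)) - u j (β.symm w)‖ₑ)
        (ball w₁ δ) := by
      intro w hw
      have c1 : ContinuousAt (fun w => u j (β.symm w)) (w + d) :=
        (hv j _ (hb2 ((hshift w).1 hw))).continuousAt
      have c2 : ContinuousAt (fun w => u j (β.symm w)) w := (hv j _ (hb1 hw).2).continuousAt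
      have c3 : ContinuousAt (fun w => u j (β.symm (w + d))) w :=
        ContinuousAt.comp (g := fun w => u j (β.symm w)) (f := fun w => w + d) c1 (by fun_prop)
      exact (c3.sub c2).enorm.continuousWithinAt
    rw [lintegral_add_left' ((hcont.aemeasurable measurableSet_ball).const_mul A),
      lintegral_const_mul' _ _ hA]
    gcongr
    · have := translate (v := fun w => u j (β.symm w)) (Q := β.target) (B₀ := ball w₁ δ)
        (g := fun w => g j w * ‖h‖ₑ) (d := d) ((hgm j).mul_const _) β.open_target.measurableSet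
        measurableSet_ball (hv j) hseg (fun z hz => hg j z hz h)
      refine this.trans ?_
      rw [lintegral_mul_const _ (hgm j)]
    · exact fun w hw => (hb1 hw).1
  have h0 : Tendsto (fun j => A * ((∫⁻ w in β.target, g j w) * ‖h‖ₑ) +
      ∫⁻ w in β '' W, K j (β.symm w)) atTop (𝓝 0) := by
    have t1 := ENNReal.Tendsto.mul_const (b := ‖h‖ₑ) hgT (Or.inr enorm_ne_top)
    have t2 := ENNReal.Tendsto.const_mul t1 (Or.inr hA)
    have t3 := t2.add hT
    simpa using t3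
  exact tendsto_of_tendsto_of_tendsto_of_le_of_le tendsto_const_nhds h0 (fun _ => bot_le) hbound

/-- propagation along a connected part of a fibre -/
theorem sm_all {p : E → X} {F : E → Cm N} {u : ℕ → E → ℂ} {e : Fin n ≃ Fin N ⊕ Fin m}
    {V : Set E} (hV : IsPreconnected V) {y₀ : Cm N} (hVF : ∀ y ∈ V, F y = y₀)
    (hb : ∀ y ∈ V, Box p F u e y) {K : ℕ → E → ℝ≥0∞} {A : ℝ≥0∞} (hA : A ≠ ∞)
    (hK : Cmp F u K A) {x x' : E} (hx : x ∈ V) (hx' : x' ∈ V) (h : Sm (n := n) p K x) :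
    Sm (n := n) p K x' := by
  have : PreconnectedSpace V := Subtype.preconnectedSpace hV
  have hlc : IsLocallyConstant (fun y : V => Sm (n := n) p K y) := by
    rw [IsLocallyConstant.iff_eventually_eq]
    intro y
    obtain ⟨U, hU, hyU, hUs⟩ := propagate (hb y y.2) hA hK
    filter_upwards [(hU.preimage continuous_subtype_val).mem_nhds hyU] with y' hy'
    have hF : F y' = F y := (hVF y' y'.2).trans (hVF y y.2).symm
    exact propext ⟨hUs y' hy' y hyU hF, hUs y hyU y' hy' hF.symm⟩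
  have h3 : Sm (n := n) p K x = Sm (n := n) p K x' :=
    hlc.apply_eq_of_preconnectedSpace ⟨x, hx⟩ ⟨x', hx'⟩
  exact h3 ▸ h

theorem Nice.comp {p : E → X} {β : OpenPartialHomeomorph E (Cm n)} (h : Nice p β) (T : E ≃ₜ E)
    (hT : ∀ y, p (T y) = p y) : Nice p (T.transOpenPartialHomeomorph β) := by
  have hT' : ∀ y, p (T.symm y) = p y := fun y => by
    conv_rhs => rw [← T.apply_symm_apply y, hT]
  intro y hy e he
  have hy' : T y ∈ β.source := hy
  have he' : At e (p (T y)) := by rw [hT]; exact he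
  obtain ⟨h1, b, h2, h3⟩ := h (T y) hy' e he'
  constructor
  · have e1 : (fun w => e (p ((T.transOpenPartialHomeomorph β).symm w)))
        = fun w => e (p (β.symm w)) := by
      funext w
      change e (p (T.symm (β.symm w))) = _
      rw [hT']
    rw [e1]
    exact h1
  · refine ⟨b, ?_, by rw [hT] at h3; exact h3⟩
    have h4 := (T.continuous.tendsto y).eventually h2
    refine h4.mono fun y' hy' => ?_
    change β (T y') = _
    rw [hy', hT]

theorem Sm.comp {p : E → X} {K : ℕ → E → ℝ≥0∞} (T : E ≃ₜ E) (hT : ∀ y, p (T y) = p y) {y : E}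
    (h : Sm (n := n) p K (T y)) : Sm (n := n) p (fun j q => K j (T q)) y := by
  obtain ⟨β, hβ, W, hW, hyW, hWs, hTd⟩ := h
  refine ⟨T.transOpenPartialHomeomorph β, hβ.comp T hT, T ⁻¹' W, hW.preimage T.continuous, hyW,
    fun q hq => hWs hq, ?_⟩
  have himg : (T.transOpenPartialHomeomorph β) '' (T ⁻¹' W) = β '' W := by
    ext w
    constructor
    · rintro ⟨q, hq, rfl⟩; exact ⟨T q, hq, rfl⟩
    · rintro ⟨q, hq, rfl⟩
      exact ⟨T.symm q, by rw [mem_preimage, T.apply_symm_apply]; exact hq, by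
        change β (T (T.symm q)) = β q
        rw [T.apply_symm_apply]⟩
  rw [himg]
  refine hTd.congr fun j => lintegral_congr fun w => ?_
  change K j (β.symm w) = K j (T (T.symm (β.symm w)))
  rw [T.apply_symm_apply]

end Vale.Agent.P284.H913.Tube
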