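import Vale.Agent.P284.H913.TubeB

/-!
# P284, theorem A, tube lemma: conclusion for boxes
-/

open scoped Topology ENNReal
open Filter Set Metric MeasureTheory

noncomputable section

namespace Vale.Agent.P284.H913.Tube

open Vale.Agent.P272.K Vale.Agent.P284.H913.Ex

variable {n : ℕ} {X : Type} [TopologicalSpace X] [ChartedSpace (Cm n) X]
  {E : Type} [TopologicalSpace E] {N m : ℕ}

/-- the comparison function -/
def KK (F : E → Cm N) (e : Fin n ≃ Fin N ⊕ Fin m) (u : ℕ → E → ℂ) (V : ℕ → Cm n → ℂ)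
    (t₀ : Cm m) (δ : ℝ) (j : ℕ) (y : E) : ℝ≥0∞ :=
  ∫⁻ t in ball t₀ δ, ‖u j y - V j (Ex.mk e (F y) t)‖ₑ

theorem meas_slice (e : Fin n ≃ Fin N ⊕ Fin m) {V : Cm n → ℂ} (hV : Measurable V) (c : ℂ)
    (y : Cm N) : Measurable fun t : Cm m => ‖c - V (Ex.mk e y t)‖ₑ := by
  refine (measurable_const.sub (hV.comp ?_)).enorm
  exact (measurable_mk e).comp (measurable_const.prodMk measurable_id)

omit [TopologicalSpace E] in
theorem KK_cmp (F : E → Cm N) (e : Fin n ≃ Fin N ⊕ Fin m) (u : ℕ → E → ℂ) (V : ℕ → Cm n → ℂ)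
    (t₀ : Cm m) (δ : ℝ) :
    Cmp F u (KK F e u V t₀ δ) (volume (ball t₀ δ)) := by
  intro j y₁ y₂ h
  have h0 : KK F e u V t₀ δ j y₂ ≤
      ∫⁻ t in ball t₀ δ, (‖u j y₂ - u j y₁‖ₑ + ‖u j y₁ - V j (Ex.mk e (F y₁) t)‖ₑ) := by
    refine lintegral_mono fun t => ?_
    have h1 : u j y₂ - V j (Ex.mk e (F y₂) t)
        = (u j y₂ - u j y₁) + (u j y₁ - V j (Ex.mk e (F y₁) t)) := by rw [h]; ring
    rw [h1]
    exact enorm_add_le _ _
  refine h0.trans (le_of_eq ?_)
  rw [lintegral_add_left measurable_const, setLIntegral_const, mul_comm]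
  rfl

theorem tube_box {p : E → X} {F : E → Cm N} {u : ℕ → E → ℂ} {e : Fin n ≃ Fin N ⊕ Fin m}
    {V : Set E} (hV : IsPreconnected V) {y₀ : Cm N} (hVF : ∀ y ∈ V, F y = y₀)
    (hb : ∀ y ∈ V, Box p F u e y) (T : E ≃ₜ E) (hT : ∀ y, p (T y) = p y)
    (hTF : ∀ y, F (T y) = F y) {c : ℂ} (hTu : ∀ j y, u j (T y) = u j y + c) {x : E} (hx : x ∈ V)
    (hTx : T x ∈ V) : c = 0 := by
  classical
  obtain ⟨β, hβ, hxs, R, hR, htg, hF, g, hgm, hv, hg, hgT⟩ := hb x hx
  set w₀ := β x with hw₀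
  set δ := R / 3 with hδ
  have hδ0 : 0 < δ := by positivity
  let v : ℕ → Cm n → ℂ := fun j w => u j (β.symm w)
  let Vv : ℕ → Cm n → ℂ := fun j => β.target.indicator (v j)
  have hvm : ∀ j, Measurable (Vv j) := by
    intro j
    have hc : ContinuousOn (v j) β.target := fun w hw =>
      (hv j w hw).continuousAt.continuousWithinAt
    have h1 := hc.measurable_piecewise (g := fun _ => (0 : ℂ)) continuousOn_const
      β.open_target.measurableSet
    have h2 : β.target.piecewise (v j) (fun _ => (0 : ℂ)) = Vv j := by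
      funext w
      by_cases hw : w ∈ β.target
      · rw [piecewise_eq_of_mem _ _ _ hw]; exact (indicator_of_mem hw _).symm
      · rw [piecewise_eq_of_notMem _ _ _ hw]; exact (indicator_of_notMem hw _).symm
    rwa [h2] at h1
  set K := KK F e u Vv (tp e w₀) δ with hKdef
  have hKc : Cmp F u K (volume (ball (tp e w₀) δ)) := KK_cmp F e u Vv _ _
  have hA : volume (ball (tp e w₀) δ) ≠ ∞ := measure_ball_lt_top.ne
  have hin : ball w₀ δ ⊆ β.target := by
    rw [htg]; exact ball_subset_ball (by rw [hδ]; linarith)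
  have hKw : ∀ j, ∀ w ∈ ball w₀ δ, K j (β.symm w)
      = ∫⁻ t in ball (tp e w₀) δ, ‖Vv j w - Vv j (Ex.mk e (yp e w) t)‖ₑ := by
    intro j w hw
    have hw' := hin hw
    have e1 : F (β.symm w) = yp e w := by
      rw [← hF _ (β.map_target hw'), β.right_inv hw']
    have e2 : u j (β.symm w) = Vv j w := (indicator_of_mem hw' (v j)).symm
    simp only [hKdef, KK, e1, e2]
  -- images of preimages of balls
  have himg : ∀ r ≤ δ, β '' (β.source ∩ β ⁻¹' ball w₀ r) = ball w₀ r := by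
    intro r hr
    have hin' : ball w₀ r ⊆ β.target := (ball_subset_ball hr).trans hin
    ext w
    constructor
    · rintro ⟨q, hq, rfl⟩; exact hq.2
    · intro hw
      exact ⟨β.symm w, ⟨β.map_target (hin' hw), by
        rw [mem_preimage, β.right_inv (hin' hw)]; exact hw⟩, β.right_inv (hin' hw)⟩
  have hbase : ∀ j, ∫⁻ w in ball w₀ δ, K j (β.symm w) ≤
      volume (ball (0 : Cm m) (2 * δ)) * ENNReal.ofReal (2 * δ) * ∫⁻ w in β.target, g j w := by
    intro j
    rw [setLIntegral_congr_fun measurableSet_ball (hKw j), htg]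
    refine base e (v := v j) (V := Vv j) (hgm j) hδ0 (by rw [hδ]; linarith) ?_ (hvm j) ?_ ?_
    · intro z hz; exact hv j z (by rw [htg]; exact hz)
    · intro z hz; exact indicator_of_mem (by rw [htg]; exact hz) _
    · intro z hz τ; exact hg j z (by rw [htg]; exact hz) τ
  have hC : volume (ball (0 : Cm m) (2 * δ)) * ENNReal.ofReal (2 * δ) ≠ ∞ :=
    ENNReal.mul_ne_top measure_ball_lt_top.ne ENNReal.ofReal_ne_top
  have hS : Sm (n := n) p K x := by
    refine ⟨β, hβ, β.source ∩ β ⁻¹' ball w₀ δ, β.isOpen_inter_preimage isOpen_ball,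
      ⟨hxs, mem_ball_self hδ0⟩, inter_subset_left, ?_⟩
    rw [himg δ le_rfl]
    have h0 := ENNReal.Tendsto.const_mul hgT (Or.inr hC)
    rw [mul_zero] at h0
    exact tendsto_of_tendsto_of_tendsto_of_le_of_le tendsto_const_nhds h0 (fun _ => bot_le) hbase
  have hS' : Sm (n := n) p K (T x) := sm_all hV hVF hb hA hKc hx hTx hS
  obtain ⟨W₁, hW₁, hxW₁, hWs₁, hT₁⟩ := hS.chart hβ hxs
  obtain ⟨W₂, hW₂, hxW₂, hWs₂, hT₂⟩ := (hS'.comp T hT).chart hβ hxs
  have hO : IsOpen (β '' W₁ ∩ β '' W₂) :=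
    (β.isOpen_image_of_subset_source hW₁ hWs₁).inter (β.isOpen_image_of_subset_source hW₂ hWs₂)
  obtain ⟨ρ, hρ, hball⟩ := Metric.isOpen_iff.1 hO w₀
    ⟨mem_image_of_mem β hxW₁, mem_image_of_mem β hxW₂⟩
  set r := min ρ δ with hr
  have hr0 : 0 < r := lt_min hρ hδ0
  have hr1 : ball w₀ r ⊆ β '' W₁ ∩ β '' W₂ := (ball_subset_ball (min_le_left _ _)).trans hball
  have hr2 : ball w₀ r ⊆ ball w₀ δ := ball_subset_ball (min_le_right _ _)
  -- pointwise inequality
  have hpt : ∀ j, ∀ w ∈ ball w₀ r, volume (ball (tp e w₀) δ) * ‖c‖ₑ ≤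
      K j (β.symm w) + K j (T (β.symm w)) := by
    intro j w _
    have h1 : ∀ t : Cm m, ‖c‖ₑ ≤ ‖u j (β.symm w) - Vv j (Ex.mk e (F (β.symm w)) t)‖ₑ +
        ‖u j (T (β.symm w)) - Vv j (Ex.mk e (F (T (β.symm w))) t)‖ₑ := by
      intro t
      have h2 : c = -(u j (β.symm w) - Vv j (Ex.mk e (F (β.symm w)) t)) +
          (u j (T (β.symm w)) - Vv j (Ex.mk e (F (T (β.symm w))) t)) := by
        rw [hTu, hTF]; ring
      calc ‖c‖ₑ = ‖-(u j (β.symm w) - Vv j (Ex.mk e (F (β.symm w)) t)) +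
          (u j (T (β.symm w)) - Vv j (Ex.mk e (F (T (β.symm w))) t))‖ₑ := by rw [← h2]
        _ ≤ _ := by
            refine (enorm_add_le _ _).trans ?_
            rw [enorm_neg]
    calc volume (ball (tp e w₀) δ) * ‖c‖ₑ = ∫⁻ _ in ball (tp e w₀) δ, ‖c‖ₑ := by
          rw [setLIntegral_const, mul_comm]
      _ ≤ ∫⁻ t in ball (tp e w₀) δ, (‖u j (β.symm w) - Vv j (Ex.mk e (F (β.symm w)) t)‖ₑ +
        ‖u j (T (β.symm w)) - Vv j (Ex.mk e (F (T (β.symm w))) t)‖ₑ) :=
          lintegral_mono h1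
      _ = K j (β.symm w) + K j (T (β.symm w)) := by
          rw [lintegral_add_left (meas_slice e (hvm j) _ _)]
          rfl
  -- measurability
  have hmK : ∀ j, Measurable fun w : Cm n =>
      ∫⁻ t in ball (tp e w₀) δ, ‖Vv j w - Vv j (Ex.mk e (yp e w) t)‖ₑ := by
    intro j
    refine Measurable.lintegral_prod_right' (f := fun q : Cm n × Cm m =>
      ‖Vv j q.1 - Vv j (Ex.mk e (yp e q.1) q.2)‖ₑ) ?_
    refine (((hvm j).comp measurable_fst).sub ((hvm j).comp ?_)).enorm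
    exact (measurable_mk e).comp
      (((continuous_yp e).measurable.comp measurable_fst).prodMk measurable_snd)
  have hfin : ∀ j, volume (ball w₀ r) * (volume (ball (tp e w₀) δ) * ‖c‖ₑ) ≤
      (∫⁻ w in β '' W₁, K j (β.symm w)) + ∫⁻ w in β '' W₂, K j (T (β.symm w)) := by
    intro j
    calc volume (ball w₀ r) * (volume (ball (tp e w₀) δ) * ‖c‖ₑ)
        = ∫⁻ _ in ball w₀ r, volume (ball (tp e w₀) δ) * ‖c‖ₑ := by
          rw [setLIntegral_const, mul_comm]
      _ ≤ ∫⁻ w in ball w₀ r, (K j (β.symm w) + K j (T (β.symm w))) :=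
          setLIntegral_mono' measurableSet_ball (hpt j)
      _ = (∫⁻ w in ball w₀ r, K j (β.symm w)) + ∫⁻ w in ball w₀ r, K j (T (β.symm w)) := by
          have h1 : ∀ w ∈ ball w₀ r, K j (β.symm w) + K j (T (β.symm w)) =
              (∫⁻ t in ball (tp e w₀) δ, ‖Vv j w - Vv j (Ex.mk e (yp e w) t)‖ₑ) +
                K j (T (β.symm w)) := fun w hw => by rw [hKw j w (hr2 hw)]
          rw [setLIntegral_congr_fun measurableSet_ball h1, lintegral_add_left (hmK j),
            setLIntegral_congr_fun measurableSet_ball (fun w hw => (hKw j w (hr2 hw)).symm)]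
      _ ≤ _ := by
          gcongr
          · exact fun w hw => (hr1 hw).1
          · exact fun w hw => (hr1 hw).2
  have hlim := hT₁.add hT₂
  rw [add_zero] at hlim
  have hle : volume (ball w₀ r) * (volume (ball (tp e w₀) δ) * ‖c‖ₑ) ≤ 0 :=
    ge_of_tendsto' hlim hfin
  have hz := le_zero_iff.1 hle
  have p1 : volume (ball w₀ r) ≠ 0 := (measure_ball_pos volume w₀ hr0).ne'
  have p2 : volume (ball (tp e w₀) δ) ≠ 0 := (measure_ball_pos volume (tp e w₀) hδ0).ne'
  have hc0 : ‖c‖ₑ = 0 := by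
    rcases mul_eq_zero.1 hz with h | h
    · exact absurd h p1
    · rcases mul_eq_zero.1 h with h | h
      · exact absurd h p2
      · exact h
  exact enorm_eq_zero.1 hc0

end Vale.Agent.P284.H913.Tube
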